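import Mathlib

/-! ANA: analytic lemmas for the least nonresidue. -/

namespace Vale.Agent.P319

open Complex Metric Filter Topology Set MeasureTheory Asymptotics

theorem an_log {g : ℂ → ℂ} {c : ℂ} {R r M : ℝ} (hr : 0 < r) (hrR : r < R) (hM : 0 < M)
    (hg : DifferentiableOn ℂ g (ball c R)) (h0 : ∀ z ∈ ball c R, g z ≠ 0)
    (hb : ∀ z ∈ ball c R, ‖g z‖ ≤ Real.exp M * ‖g c‖) (k : ℕ) :
    ‖iteratedDeriv k (fun z => deriv g z / g z) c‖ ≤
      (k + 1).factorial * (2 * M * r / (R - r)) / r ^ (k + 1) := by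
  have hR : 0 < R := hr.trans hrR
  have hu : DifferentiableOn ℂ (fun z => deriv g z / g z) (ball c R) :=
    (hg.deriv isOpen_ball).div hg h0
  obtain ⟨h, hc, hh⟩ := hu.isExactOn_ball.with_val_at c 0
  have hd : DifferentiableOn ℂ h (ball c R) := fun z hz =>
    (hh z hz).differentiableAt.differentiableWithinAt
  have hw : ∀ z ∈ ball c R, HasDerivAt (fun z => g z * exp (-h z)) 0 z := by
    intro z hz
    have h1 := (hg.differentiableAt (isOpen_ball.mem_nhds hz)).hasDerivAt
    have h2 := h1.mul (hh z hz).neg.cexp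
    have e : deriv g z * exp (-h z) + g z * (exp (-h z) * -(deriv g z / g z)) = 0 := by
      have := h0 z hz
      field_simp
      ring
    exact e ▸ h2
  have hconst : ∀ z ∈ ball c R, g z * exp (-h z) = g c := by
    intro z hz
    have := isOpen_ball.is_const_of_deriv_eq_zero (convex_ball c R).isPreconnected
      (fun z hz => (hw z hz).differentiableAt.differentiableWithinAt)
      (fun z hz => (hw z hz).deriv) hz (mem_ball_self hR)
    simpa [hc] using this
  have hre : ∀ z ∈ ball c R, (h z).re ≤ M := by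
    intro z hz
    have e : g z = g c * exp (h z) := by
      rw [← hconst z hz, mul_assoc, ← exp_add]
      simp
    have h1 := hb z hz
    have h2 : 0 < ‖g c‖ := norm_pos_iff.2 (h0 c (mem_ball_self hR))
    rw [e, norm_mul, norm_exp, mul_comm] at h1
    exact Real.exp_le_exp.1 (le_of_mul_le_mul_right h1 h2)
  have hmem : ∀ z ∈ ball (0 : ℂ) R, c + z ∈ ball c R := fun z hz => by simpa using hz
  have hs : ∀ z ∈ sphere c r, ‖h z‖ ≤ 2 * M * r / (R - r) := by
    intro z hz
    have hz' : ‖z - c‖ = r := mem_sphere_iff_norm.1 hz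
    have := borelCaratheodory_zero (f := fun z => h (c + z)) (z := z - c) hM
      (hd.comp (by fun_prop) hmem) (fun z hz => hre _ (hmem z hz)) hR
      (by rw [mem_ball_zero_iff, hz']; exact hrR) (by simpa using hc)
    simpa [hz'] using this
  have h1 := norm_iteratedDeriv_le_of_forall_mem_sphere_norm_le (k + 1) hr
    (hd.diffContOnCl_ball (closedBall_subset_ball hrR)) hs
  have h2 : deriv h =ᶠ[𝓝 c] fun z => deriv g z / g z := by
    filter_upwards [isOpen_ball.mem_nhds (mem_ball_self hR)] with z hz using (hh z hz).deriv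
  rwa [iteratedDeriv_succ', h2.iteratedDeriv_eq] at h1

theorem an_core {F u : ℂ → ℂ} {ε B : ℝ} {k : ℕ} (hF : DifferentiableOn ℂ F (ball 2 1))
    (hε : ∀ z ∈ sphere (2 : ℂ) (1 / 2), ‖F z‖ ≤ ε)
    (hu : ∀ z ∈ ball (2 : ℂ) 1, u z = F z - (z - 1)⁻¹)
    (hB : ‖iteratedDeriv k u 2‖ ≤ (k + 1).factorial * B) : 1 ≤ ε * 2 ^ k + (k + 1) * B := by
  have hn : ball (2 : ℂ) 1 ∈ 𝓝 (2 : ℂ) := isOpen_ball.mem_nhds (mem_ball_self one_pos)
  have h1 := norm_iteratedDeriv_le_of_forall_mem_sphere_norm_le k (by norm_num : (0 : ℝ) < 1 / 2)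
    (hF.diffContOnCl_ball (closedBall_subset_ball (by norm_num))) hε
  have h2 : u =ᶠ[𝓝 2] F - fun z => (1 * z - 1)⁻¹ := by
    filter_upwards [hn] with z hz
    simp [hu z hz]
  have h3 : ContDiffAt ℂ k F 2 := (hF.analyticAt hn).contDiffAt
  have h4 : ContDiffAt ℂ k (fun z : ℂ => (1 * z - 1)⁻¹) 2 :=
    ContDiffAt.inv (by fun_prop) (by norm_num)
  rw [h2.iteratedDeriv_eq, iteratedDeriv_sub h3 h4] at hB
  have h5 : ‖iteratedDeriv k (fun z : ℂ => (1 * z - 1)⁻¹) 2‖ = k.factorial := by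
    rw [iteratedDeriv_eq_iterate, iter_deriv_inv_linear_sub]
    norm_num
  have h6 := norm_sub_norm_le (iteratedDeriv k (fun z : ℂ => (1 * z - 1)⁻¹) 2)
    (iteratedDeriv k F 2)
  rw [norm_sub_rev, h5] at h6
  have h7 : (0 : ℝ) < k.factorial := by exact_mod_cast k.factorial_pos
  refine le_of_mul_le_mul_left ?_ h7
  rw [Nat.factorial_succ] at hB
  push_cast at hB
  have e : (k.factorial : ℝ) * ε / (1 / 2) ^ k = k.factorial * (ε * 2 ^ k) := by
    rw [one_div, inv_pow, div_inv_eq_mul, mul_assoc]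
  rw [e] at h1
  nlinarith

theorem an_arith {C ρ : ℝ} (hρ : 1 < ρ) : ∃ K : ℕ, ∀ l : ℕ, 2 ≤ l →
    ∃ m : ℕ, 0 < m ∧ C * l < ρ ^ m ∧ C * 2 ^ m < (l : ℝ) ^ K := by
  obtain ⟨N, hN⟩ := pow_unbounded_of_one_lt (2 : ℝ) hρ
  obtain ⟨c, hc⟩ := pow_unbounded_of_one_lt C (one_lt_two : (1 : ℝ) < 2)
  have hN0 : 0 < N := by
    rcases Nat.eq_zero_or_pos N with rfl | h
    · norm_num at hN
    · exact h
  refine ⟨c + (c + 2) * N, fun l hl => ⟨N * (c + (Nat.log 2 l + 1)), by positivity, ?_, ?_⟩⟩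
  · have h1 : (l : ℝ) < 2 ^ (Nat.log 2 l + 1) := by
      exact_mod_cast Nat.lt_pow_succ_log_self (by norm_num) l
    have h2 : (0 : ℝ) < l := by exact_mod_cast (by omega : 0 < l)
    calc C * l < 2 ^ c * l := by gcongr
      _ ≤ 2 ^ c * 2 ^ (Nat.log 2 l + 1) := by gcongr
      _ = 2 ^ (c + (Nat.log 2 l + 1)) := (pow_add _ _ _).symm
      _ ≤ (ρ ^ N) ^ (c + (Nat.log 2 l + 1)) := by gcongr
      _ = _ := (pow_mul _ _ _).symm
  · have h2 : (2 : ℝ) ≤ l := by exact_mod_cast hl
    have h1 : (2 : ℝ) ^ Nat.log 2 l ≤ l := by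
      exact_mod_cast Nat.pow_log_le_self 2 (by omega : l ≠ 0)
    have h3 : (2 : ℝ) ^ (c + (Nat.log 2 l + 1)) ≤ (l : ℝ) ^ (c + 2) := by
      rw [pow_add, pow_add, pow_add, pow_one, pow_two]
      gcongr
    calc C * 2 ^ (N * (c + (Nat.log 2 l + 1))) < 2 ^ c * 2 ^ (N * (c + (Nat.log 2 l + 1))) := by
          gcongr
      _ = 2 ^ c * (2 ^ (c + (Nat.log 2 l + 1))) ^ N := by rw [mul_comm N, pow_mul]
      _ ≤ (l : ℝ) ^ c * ((l : ℝ) ^ (c + 2)) ^ N := by gcongr
      _ = _ := by rw [← pow_mul, ← pow_add]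

theorem an_sum {p : ℕ} [NeZero p] {χ : DirichletCharacter ℂ p} (hχ : χ ≠ 1) (n : ℕ) :
    ‖∑ k ∈ Finset.range n, χ k‖ ≤ p := by
  have hp : 0 < p := Nat.pos_of_ne_zero (NeZero.ne p)
  have h0 : ∑ k ∈ Finset.range p, χ k = 0 := by
    rw [← MulChar.sum_eq_zero_of_ne_one hχ]
    refine Finset.sum_bij' (fun k _ => (k : ZMod p)) (fun a _ => a.val) ?_ ?_ ?_ ?_ ?_
    · simp
    · simp [ZMod.val_lt]
    · intro k hk
      exact ZMod.val_cast_of_lt (Finset.mem_range.1 hk)
    · simp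
    · simp
  have h1 : ∀ n, ∑ k ∈ Finset.range (n + p), χ k = ∑ k ∈ Finset.range n, χ k := by
    intro n
    induction n with
    | zero => simpa using h0
    | succ n ih =>
      rw [Nat.add_right_comm, Finset.sum_range_succ, Finset.sum_range_succ, ih]
      simp
  induction n using Nat.strong_induction_on with
  | _ n ih =>
    rcases le_or_gt n p with h | h
    · refine (norm_sum_le _ _).trans ?_
      refine (Finset.sum_le_card_nsmul _ _ 1 fun k _ => χ.norm_le_one _).trans ?_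
      simpa using h
    · obtain ⟨m, rfl⟩ : ∃ m, n = m + p := ⟨n - p, by omega⟩
      rw [h1]
      exact ih m (by omega)

theorem an_sum' {p : ℕ} [NeZero p] {χ : DirichletCharacter ℂ p} (hχ : χ ≠ 1) (n : ℕ) :
    ‖∑ k ∈ Finset.Icc 1 n, χ k‖ ≤ p + 1 := by
  have e : ∑ k ∈ Finset.Icc 1 n, χ k = ∑ k ∈ Finset.range (n + 1), χ k - χ (0 : ℕ) := by
    rw [Finset.range_eq_Ico, Finset.sum_eq_sum_Ico_succ_bot (by omega), add_sub_cancel_left]
    rfl
  rw [e]
  exact (norm_sub_le _ _).trans (add_le_add (an_sum hχ _) (χ.norm_le_one _))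

theorem an_growth {p : ℕ} [NeZero p] {χ : DirichletCharacter ℂ p} (hχ : χ ≠ 1) {s : ℂ}
    (hs : 0 < s.re) : ‖DirichletCharacter.LFunction χ s‖ ≤ ‖s‖ * ((p + 1) / s.re) := by
  set S : ℝ → ℂ := fun t => ∑ k ∈ Finset.Icc 1 ⌊t⌋₊, χ k with hS
  have hSb : ∀ t, ‖S t‖ ≤ p + 1 := fun t => an_sum' hχ _
  have hSm : Measurable S :=
    (measurable_from_top (f := fun n : ℕ => ∑ k ∈ Finset.Icc 1 n, χ k)).comp Nat.measurable_floor
  have hS0 : ∀ t < 1, S t = 0 := fun t ht => by
    simp [hS, Nat.floor_eq_zero.2 ht]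
  have hm : ∀ w : ℂ, mellin S (-w) = ∫ t in Ioi (1 : ℝ), S t * (t : ℂ) ^ (-(w + 1)) := by
    intro w
    rw [mellin, ← integral_Ici_eq_integral_Ioi (x := (1 : ℝ)),
      setIntegral_eq_of_subset_of_forall_sdiff_eq_zero (s := Ici (1 : ℝ)) (t := Ioi 0)
        measurableSet_Ioi (Ici_subset_Ioi.2 one_pos)]
    · refine setIntegral_congr_fun measurableSet_Ici fun t _ => ?_
      rw [smul_eq_mul, mul_comm]
      congr 2
      ring
    · intro t ht
      rw [hS0 t (not_le.1 ht.2), smul_zero]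
  have hloc : LocallyIntegrableOn S (Ioi 0) := by
    refine LocallyIntegrable.locallyIntegrableOn (fun x => ?_) _
    refine ⟨ball x 1, ball_mem_nhds x one_pos, ?_⟩
    exact Measure.integrableOn_of_bounded (M := p + 1) measure_ball_lt_top.ne
      hSm.aestronglyMeasurable (Eventually.of_forall hSb)
  have hdiff : ∀ w : ℂ, 0 < w.re → DifferentiableAt ℂ (fun w => w * mellin S (-w)) w := by
    intro w hw
    refine differentiableAt_id.mul (DifferentiableAt.comp w (g := mellin S) ?_ (by fun_prop))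
    refine mellin_differentiableAt_of_isBigO_rpow (a := 0) (b := -w.re - 1) hloc ?_
      (by simpa using hw) ?_ (by simp)
    · refine IsBigO.of_bound (p + 1) (Eventually.of_forall fun t => ?_)
      simpa using hSb t
    · refine IsBigO.of_bound 0 ?_
      filter_upwards [Ioo_mem_nhdsGT one_pos] with t ht
      simp [hS0 t ht.2]
  have ho : IsOpen {w : ℂ | 0 < w.re} := isOpen_lt continuous_const continuous_re
  have heq : EqOn (DirichletCharacter.LFunction χ) (fun w => w * mellin S (-w))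
      {w : ℂ | 0 < w.re} := by
    refine AnalyticOnNhd.eqOn_of_preconnected_of_eventuallyEq (𝕜 := ℂ) (z₀ := 2)
      ((DirichletCharacter.differentiable_LFunction hχ).differentiableOn.analyticOnNhd ho)
      (DifferentiableOn.analyticOnNhd (fun w hw => (hdiff w hw).differentiableWithinAt) ho)
      (convex_halfSpace_re_gt 0).isPreconnected (by simp) ?_
    filter_upwards [(isOpen_lt continuous_const continuous_re).mem_nhds
      (show (1 : ℝ) < (2 : ℂ).re by simp)] with w hw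
    rw [DirichletCharacter.LFunction_eq_LSeries χ hw, hm,
      LSeries_eq_mul_integral _ (r := 0) le_rfl (zero_lt_one.trans hw)
        (DirichletCharacter.LSeriesSummable_of_one_lt_re χ hw)]
    refine IsBigO.of_bound (p + 1) (Eventually.of_forall fun n => ?_)
    simpa using an_sum' hχ n
  rw [heq hs, norm_mul, hm]
  gcongr
  have hi := (integrableOn_Ioi_rpow_of_lt (a := -(s.re + 1)) (by linarith) one_pos).const_mul
    ((p : ℝ) + 1)
  refine (norm_integral_le_of_norm_le hi ?_).trans (le_of_eq ?_)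
  · filter_upwards [ae_restrict_mem measurableSet_Ioi] with t ht
    have ht0 : 0 < t := lt_trans one_pos ht
    rw [norm_mul, norm_cpow_eq_rpow_re_of_pos ht0]
    simp only [neg_re, add_re, one_re]
    gcongr
    exact hSb t
  · rw [integral_const_mul, integral_Ioi_rpow_of_lt (by linarith) one_pos]
    simp only [Real.one_rpow]
    rw [show -(s.re + 1) + 1 = -s.re by ring, neg_div_neg_eq, mul_one_div]

end Vale.Agent.P319
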