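import Vale.Agent.P026.Main
import Vale.Agent.P319.ANA

/-! AN: the least `r`-th power nonresidue is polylogarithmic. -/

namespace Vale.Agent.P319

open Complex Metric Filter Topology Set DirichletCharacter ArithmeticFunction

theorem an_re {z : ℂ} {R : ℝ} (hz : z ∈ closedBall (2 : ℂ) R) : 2 - R ≤ z.re ∧ ‖z‖ ≤ 2 + R := by
  have h1 : ‖z - 2‖ ≤ R := mem_closedBall_iff_norm.1 hz
  have h2 := abs_re_le_norm (z - 2)
  have h3 := norm_le_norm_sub_add z 2
  have h4 : ‖(2 : ℂ)‖ = 2 := by simp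
  have h5 : (z - 2).re = z.re - 2 := by simp
  rw [h5] at h2
  constructor
  · linarith [neg_abs_le (z.re - 2)]
  · linarith

theorem an_Z {z : ℂ} (hz : 999 / 1000 < z.re) : LFunctionTrivChar₁ 1 z ≠ 0 := by
  rcases eq_or_ne z 1 with rfl | h
  · exact LFunctionTrivChar₁_apply_one_ne_zero 1
  · rw [LFunctionTrivChar₁, Function.update_of_ne h]
    exact mul_ne_zero (sub_ne_zero.2 h) (P026.lfun_ne_zero _ hz h)

theorem an_L {p : ℕ} [NeZero p] {χ : DirichletCharacter ℂ p} (hχ : χ ≠ 1) {z : ℂ}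
    (hz : 999 / 1000 < z.re) : LFunction χ z ≠ 0 := by
  rcases eq_or_ne z 1 with rfl | h
  · exact LFunction_apply_one_ne_zero hχ
  · exact P026.lfun_ne_zero _ hz h

theorem an_ld {p : ℕ} [NeZero p] (χ : DirichletCharacter ℂ p) {z : ℂ} (hz : 1 < z.re) :
    deriv (LFunction χ) z / LFunction χ z =
      -LSeries ((fun n : ℕ => χ n) * fun n : ℕ => (vonMangoldt n : ℂ)) z := by
  rw [LSeries_twist_vonMangoldt_eq χ hz, deriv_LFunction_eq_deriv_LSeries χ hz,
    LFunction_eq_LSeries χ hz, neg_div, neg_neg]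

theorem an_id {p : ℕ} [NeZero p] {χ : DirichletCharacter ℂ p} (hχ : χ ≠ 1) {z : ℂ}
    (hz : 1 < z.re) :
    deriv (fun w => LFunction χ w / LFunctionTrivChar₁ 1 w) z /
      (LFunction χ z / LFunctionTrivChar₁ 1 z) + (z - 1)⁻¹ =
      LSeries (fun n : ℕ => (1 - χ n) * (vonMangoldt n : ℂ)) z := by
  have h1 : z ≠ 1 := fun h => by simp [h] at hz
  have hz' : 999 / 1000 < z.re := by linarith
  have e := logDeriv_div z (an_L hχ hz') (an_Z hz') (differentiable_LFunction hχ z)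
    (differentiable_LFunctionTrivChar₁ 1 z)
  simp only [logDeriv_apply] at e
  have h2 : LFunctionTrivChar 1 z ≠ 0 := P026.lfun_ne_zero _ hz' h1
  have h3 : z - 1 ≠ 0 := sub_ne_zero.2 h1
  have e2 : deriv (LFunctionTrivChar₁ 1) z / LFunctionTrivChar₁ 1 z =
      deriv (LFunctionTrivChar 1) z / LFunctionTrivChar 1 z + (z - 1)⁻¹ := by
    rw [deriv_LFunctionTrivChar₁_apply_of_ne_one 1 h1, LFunctionTrivChar₁,
      Function.update_of_ne h1]
    field_simp
  have e3 := an_ld (1 : DirichletCharacter ℂ 1) hz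
  have e4 := LSeries_sub (LSeriesSummable_twist_vonMangoldt (1 : DirichletCharacter ℂ 1) hz)
    (LSeriesSummable_twist_vonMangoldt χ hz)
  have e5 : (fun n : ℕ => (1 - χ n) * (vonMangoldt n : ℂ)) =
      ((fun n : ℕ => (1 : DirichletCharacter ℂ 1) n) * fun n : ℕ => (vonMangoldt n : ℂ)) -
        ((fun n : ℕ => χ n) * fun n : ℕ => (vonMangoldt n : ℂ)) := by
    funext n
    simp [Subsingleton.eq_one (α := ZMod 1), sub_mul]
  rw [e5, e4]
  refine (congrArg (· + (z - 1)⁻¹) e).trans ?_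
  rw [e2, an_ld χ hz]
  rw [show deriv (LFunctionTrivChar 1) z / LFunctionTrivChar 1 z = _ from e3]
  ring

theorem an_two : ∃ C : ℝ, 0 ≤ C ∧ ∀ (p : ℕ) [NeZero p] (χ : DirichletCharacter ℂ p),
    1 ≤ ‖LFunction χ 2‖ * C := by
  have h2 : 1 < (2 : ℂ).re := by simp
  have hs : Summable fun n => ‖LSeries.term 1 2 n‖ :=
    (show Summable _ from LSeriesSummable_one_iff.2 h2).norm
  refine ⟨∑' n, ‖LSeries.term 1 2 n‖, tsum_nonneg fun _ => norm_nonneg _, fun p _ χ => ?_⟩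
  have h := congrArg norm (LSeries.mul_mu_eq_one χ h2)
  rw [norm_mul, norm_one, ← LFunction_eq_LSeries χ h2] at h
  rw [← h]
  gcongr
  refine tsum_of_norm_bounded hs.hasSum fun n => LSeries.norm_term_le _ ?_
  rw [Pi.mul_apply, norm_mul, Pi.one_apply, norm_one]
  refine mul_le_one₀ (χ.norm_le_one _) (norm_nonneg _) ?_
  rw [norm_intCast]
  exact_mod_cast abs_moebius_le_one

theorem an_tail : ∃ C : ℝ, 0 ≤ C ∧ ∀ (a : ℕ → ℂ) (y : ℕ), 0 < y → (∀ n, ‖a n‖ ≤ 2) →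
    (∀ n, 0 < n → n ≤ y ^ 4 → a n = 0) → ∀ z : ℂ, 3 / 2 ≤ z.re →
      ‖LSeries (fun n : ℕ => a n * (vonMangoldt n : ℂ)) z‖ ≤ 2 / y * C := by
  have h2 : 1 < (5 / 4 : ℂ).re := by norm_num
  have hs : Summable fun n => ‖LSeries.term (fun n : ℕ => (vonMangoldt n : ℂ)) (5 / 4) n‖ :=
    (show Summable _ from LSeriesSummable_vonMangoldt h2).norm
  refine ⟨∑' n, ‖LSeries.term (fun n : ℕ => (vonMangoldt n : ℂ)) (5 / 4) n‖,
    tsum_nonneg fun _ => norm_nonneg _, fun a y hy ha h0 z hz =>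
    tsum_of_norm_bounded (hs.hasSum.mul_left (2 / (y : ℝ))) fun n => ?_⟩
  have hy' : (0 : ℝ) < y := by exact_mod_cast hy
  rw [LSeries.norm_term_eq, LSeries.norm_term_eq]
  split_ifs with hn
  · simp
  rcases le_or_gt n (y ^ 4) with h | h
  · rw [h0 n (by omega) h, zero_mul, norm_zero, zero_div]
    positivity
  have hn1 : (1 : ℝ) ≤ n := by exact_mod_cast (by omega : 1 ≤ n)
  have h1 : (y : ℝ) ≤ (n : ℝ) ^ (1 / 4 : ℝ) := by
    rw [one_div, Real.le_rpow_inv_iff_of_pos hy'.le (by linarith) (by norm_num)]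
    exact_mod_cast h.le
  have h3 : (y : ℝ) * (n : ℝ) ^ (5 / 4 : ℝ) ≤ (n : ℝ) ^ z.re :=
    calc (y : ℝ) * (n : ℝ) ^ (5 / 4 : ℝ) ≤ (n : ℝ) ^ (1 / 4 : ℝ) * (n : ℝ) ^ (5 / 4 : ℝ) := by
          gcongr
      _ = (n : ℝ) ^ (3 / 2 : ℝ) := by
          rw [← Real.rpow_add (by linarith)]
          norm_num
      _ ≤ _ := Real.rpow_le_rpow_of_exponent_le hn1 hz
  have e : (5 / 4 : ℂ).re = 5 / 4 := by norm_num
  rw [e, norm_mul, div_mul_div_comm]
  have := ha n
  gcongr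

theorem an_main : ∃ K : ℕ, ∀ (p : ℕ) [NeZero p] (χ : DirichletCharacter ℂ p), χ ≠ 1 →
    ∃ n : ℕ, 0 < n ∧ n ≤ (Nat.log 2 p + 2) ^ K ∧ χ n ≠ 1 := by
  obtain ⟨C3, hC3, h3⟩ := an_two
  obtain ⟨C2, hC2, h2⟩ := an_tail
  have hre : ∀ z ∈ closedBall (2 : ℂ) (10009 / 10000), 999 / 1000 < z.re := fun z hz => by
    linarith [(an_re hz).1]
  obtain ⟨z0, hz0, hmin⟩ := (isCompact_closedBall (2 : ℂ) (10009 / 10000)).exists_isMinOn
    ⟨2, mem_closedBall_self (by norm_num)⟩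
    (differentiable_LFunctionTrivChar₁ 1).continuous.norm.continuousOn
  set δ := ‖LFunctionTrivChar₁ 1 z0‖ with hδ
  have hδ0 : 0 < δ := norm_pos_iff.2 (an_Z (hre z0 hz0))
  set C4 := 8 * C3 * ‖LFunctionTrivChar₁ 1 2‖ / δ with hC4
  have hC40 : 0 ≤ C4 := by positivity
  obtain ⟨K, hK⟩ := an_arith (C := 10 ^ 8 * (C4 + 1) + 4 * C2)
    (by norm_num : (1 : ℝ) < 5001 / 5000)
  refine ⟨K * 4, fun p _ χ hχ => ?_⟩
  by_contra hcon
  push Not at hcon
  set l := Nat.log 2 p + 2 with hl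
  obtain ⟨m, hm, hm1, hm2⟩ := hK l (by omega)
  obtain ⟨k, rfl⟩ : ∃ k, m = k + 1 := ⟨m - 1, by omega⟩
  have hl0 : (2 : ℝ) ≤ l := by exact_mod_cast (by omega : 2 ≤ l)
  set g : ℂ → ℂ := fun w => LFunction χ w / LFunctionTrivChar₁ 1 w with hg
  have hZ : ∀ z ∈ ball (2 : ℂ) (10009 / 10000), LFunctionTrivChar₁ 1 z ≠ 0 := fun z hz =>
    an_Z (hre z (ball_subset_closedBall hz))
  have hgd : DifferentiableOn ℂ g (ball 2 (10009 / 10000)) :=
    (differentiable_LFunction hχ).differentiableOn.div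
      (differentiable_LFunctionTrivChar₁ 1).differentiableOn hZ
  have hg0 : ∀ z ∈ ball (2 : ℂ) (10009 / 10000), g z ≠ 0 := fun z hz =>
    div_ne_zero (an_L hχ (hre z (ball_subset_closedBall hz))) (hZ z hz)
  have hexp : C4 * (p + 1) ≤ Real.exp ((C4 + 1) * l) := by
    rw [add_mul, one_mul, Real.exp_add]
    have a1 : C4 ≤ Real.exp (C4 * l) := by
      have := Real.add_one_le_exp (C4 * l)
      nlinarith
    have a2 : (p : ℝ) + 1 ≤ Real.exp l := by
      have b1 : p + 1 ≤ 2 ^ l := by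
        have := Nat.lt_pow_succ_log_self (b := 2) (by norm_num) p
        exact this.trans (Nat.pow_lt_pow_right (by norm_num) (by omega))
      have b2 : (2 : ℝ) ≤ Real.exp 1 := by linarith [Real.add_one_le_exp 1]
      calc (p : ℝ) + 1 ≤ 2 ^ l := by exact_mod_cast b1
        _ ≤ Real.exp 1 ^ l := by gcongr
        _ = _ := by rw [← Real.exp_nat_mul, mul_one]
    gcongr
  have hZ2 : 0 < ‖LFunctionTrivChar₁ 1 2‖ :=
    norm_pos_iff.2 (hZ 2 (mem_ball_self (by norm_num)))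
  have hb : ∀ z ∈ ball (2 : ℂ) (10009 / 10000), ‖g z‖ ≤ Real.exp ((C4 + 1) * l) * ‖g 2‖ := by
    intro z hz
    have hz' := ball_subset_closedBall hz
    have a1 := hre z hz'
    have a2 := (an_re hz').2
    have a3 : ‖LFunction χ z‖ ≤ 8 * (p + 1) := by
      refine (an_growth hχ (by linarith)).trans ?_
      calc ‖z‖ * ((p + 1) / z.re) ≤ 4 * ((p + 1) / (1 / 2)) := by
            gcongr
            · linarith
            · linarith
        _ = _ := by ring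
    have a4 : δ ≤ ‖LFunctionTrivChar₁ 1 z‖ := hmin hz'
    calc ‖g z‖ = ‖LFunction χ z‖ / ‖LFunctionTrivChar₁ 1 z‖ := norm_div _ _
      _ ≤ 8 * (p + 1) * 1 / δ := by
          rw [mul_one]
          gcongr
      _ ≤ 8 * (p + 1) * (‖LFunction χ 2‖ * C3) / δ := by
          gcongr
          exact h3 p χ
      _ = C4 * (p + 1) * ‖g 2‖ := by
          rw [hC4, hg, norm_div]
          field_simp
      _ ≤ _ := by gcongr
  have hlog := an_log (r := (5001 / 5000) ^ 2) (by norm_num) (by norm_num) (by positivity)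
    hgd hg0 hb k
  rw [mul_div_assoc] at hlog
  have hsub : ball (2 : ℂ) 1 ⊆ ball 2 (10009 / 10000) := ball_subset_ball (by norm_num)
  have hne : ∀ z ∈ ball (2 : ℂ) 1, z - 1 ≠ 0 := by
    intro z hz h
    rw [sub_eq_zero.1 h, mem_ball_iff_norm] at hz
    norm_num at hz
  have hy : 0 < l ^ K := by positivity
  have hcore := an_core (F := fun z => deriv g z / g z + (z - 1)⁻¹) (ε := 2 / (l ^ K : ℕ) * C2)
    ((((hgd.deriv isOpen_ball).div hgd hg0).mono hsub).add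
      (DifferentiableOn.inv (by fun_prop) hne)) (fun z hz => by
      have a1 := (an_re (sphere_subset_closedBall hz)).1
      rw [an_id hχ (by linarith)]
      refine h2 _ _ hy (fun n => ?_) (fun n hn hn' => ?_) z (by linarith)
      · refine (norm_sub_le _ _).trans ?_
        rw [norm_one]
        linarith [χ.norm_le_one n]
      · rw [hcon n hn (by rwa [pow_mul]), sub_self])
    (fun z _ => (add_sub_cancel_right _ _).symm) hlog
  have hy' : (0 : ℝ) < (l : ℝ) ^ K := by positivity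
  have t1 : 2 / ((l ^ K : ℕ) : ℝ) * C2 * 2 ^ k < 1 / 2 := by
    push_cast
    rw [div_mul_eq_mul_div, div_mul_eq_mul_div, div_lt_iff₀ hy']
    have : (0 : ℝ) < 2 ^ k := by positivity
    rw [pow_succ (2 : ℝ) k] at hm2
    nlinarith [mul_nonneg hC40 this.le, mul_nonneg hC2 this.le]
  set P : ℝ := (5001 / 5000) ^ (k + 1) with hP
  have hP0 : 0 < P := by positivity
  have t2 : ((k : ℝ) + 1) ≤ 5000 * P := by
    have := one_add_mul_le_pow (a := (1 / 5000 : ℝ)) (by norm_num) (k + 1)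
    rw [show (1 : ℝ) + 1 / 5000 = 5001 / 5000 by norm_num, ← hP] at this
    push_cast at this
    linarith
  have t3 : ((5001 / 5000 : ℝ) ^ 2) ^ (k + 1) = P * P := by
    rw [← pow_mul, mul_comm 2, pow_mul, pow_two]
  have t4 : ((k : ℝ) + 1) * (2 * ((C4 + 1) * l) * (5001 / 5000) ^ 2 /
      (10009 / 10000 - (5001 / 5000) ^ 2) / ((5001 / 5000 : ℝ) ^ 2) ^ (k + 1)) ≤ 1 / 2 := by
    rw [t3]
    have a0 : 0 ≤ (C4 + 1) * l := by positivity
    have a1 : 2 * ((C4 + 1) * l) * (5001 / 5000) ^ 2 / (10009 / 10000 - (5001 / 5000) ^ 2) ≤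
        10000 * ((C4 + 1) * l) := by
      rw [div_le_iff₀ (by norm_num)]
      nlinarith
    have a2 : 10 ^ 8 * ((C4 + 1) * l) ≤ P := by
      have : 0 ≤ 4 * C2 * l := by positivity
      nlinarith
    calc _ ≤ (5000 * P) * (10000 * ((C4 + 1) * l) / (P * P)) := by gcongr
      _ = (1 / 2) * (10 ^ 8 * ((C4 + 1) * l) / P) := by
          field_simp
          ring
      _ ≤ (1 / 2) * 1 := by
          gcongr
          exact (div_le_one hP0).2 a2
      _ = _ := by norm_num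
  linarith

theorem small_nonres : ∃ k : ℕ, ∀ p r : ℕ, p.Prime → r.Prime → r ∣ p - 1 →
    ∃ a : ℕ, a ≤ (Nat.log 2 p + 2) ^ k ∧ ¬ ∃ x : ZMod p, x ^ r = (a : ZMod p) := by
  obtain ⟨K, hK⟩ := an_main
  refine ⟨K, fun p r hp hr hd => ?_⟩
  have := Fact.mk hp
  obtain ⟨χ, hχ⟩ := MulChar.exists_mulChar_orderOf (ZMod p) (R := ℂ) (n := r)
    (by rwa [ZMod.card]) (Complex.isPrimitiveRoot_exp r hr.ne_zero)
  have h1 : χ ≠ 1 := fun h => hr.one_lt.ne' (by rw [← hχ, h, orderOf_one])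
  have h2 : ∀ a : ZMod p, a ≠ 0 → (∃ x : ZMod p, x ^ r = a) → χ a = 1 := by
    rintro a ha ⟨x, rfl⟩
    have hx : x ≠ 0 := fun h => ha (by rw [h, zero_pow hr.ne_zero])
    rw [map_pow, ← MulChar.pow_apply' _ hr.ne_zero, ← hχ, pow_orderOf_eq_one,
      MulChar.one_apply (isUnit_iff_ne_zero.2 hx)]
  obtain ⟨n, hn0, hn, hn1⟩ := hK p χ h1
  by_cases h0 : (n : ZMod p) = 0
  · have hpn : p ≤ n := Nat.le_of_dvd hn0 ((ZMod.natCast_eq_zero_iff n p).1 h0)
    obtain ⟨u, hu⟩ := MulChar.ne_one_iff.1 h1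
    refine ⟨(u : ZMod p).val, (ZMod.val_lt _).le.trans (hpn.trans hn), fun h => hu ?_⟩
    rw [ZMod.natCast_zmod_val] at h
    exact h2 _ u.ne_zero h
  · exact ⟨n, hn, fun h => hn1 (h2 _ h0 h)⟩

end Vale.Agent.P319
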