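import Vale.Agent.P319.R1

/-! A1: branch-free linear algebra.  Rows have the width of the list `w`.
`elim`: for each `k` in `ks`, take as pivot the first row with nonzero entry `k` and clear the
entry `k` in all rows (the pivot row becomes zero).  `piv`: the list of the pivots. -/

namespace Vale.Agent.P319
open Vale.Agent.Common.TreeTM Vale.Agent.P337

/-- one step of the selection -/
def A1_step (R : RC) (q : ℕ) (h w : List ℕ) (s : El × List (List El)) (t : El × List (List El)) :
    El × List (List El) :=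
  (rmul R s.1 (rsub R (rone R) (nz R q t.1)),
    (idx h).map fun i => vadd R w (s.2.getD i []) (vsmul R w (rmul R s.1 (nz R q t.1)) (t.2.getD i [])))

/-- the initial state of the selection -/
def A1_init (R : RC) (h w : List ℕ) : El × List (List El) :=
  (rone R, (idx h).map fun _ => vadd R w [] [])

/-- the selection -/
def A1_sel (R : RC) (q : ℕ) (h w : List ℕ) (l : List (El × List (List El))) : List (List El) :=
  (l.foldl (A1_step R q h w) (A1_init R h w)).2

theorem A1_nmL_map {τ : Type} (R : RC) (n : ℕ) (h : List τ) (g : τ → List El)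
    (hg : ∀ i, NmV R n (g i)) : NmL R h.length n (h.map g) := by
  refine ⟨by simp, fun x hx => ?_⟩
  obtain ⟨i, -, rfl⟩ := List.mem_map.1 hx
  exact hg i

theorem A1_len_idx {τ : Type} (h : List τ) : (idx h).length = h.length := by simp [idx]

theorem A1_nm_step (R : RC) (q : ℕ) (h w : List ℕ) (s t : El × List (List El)) :
    Nm R (A1_step R q h w s t).1 ∧ NmL R h.length w.length (A1_step R q h w s t).2 :=
  ⟨nm_rmul _ _ _, A1_len_idx h ▸ A1_nmL_map R _ _ _ fun _ => nmV_vadd _ _ _ _⟩

theorem A1_nm_init (R : RC) (h w : List ℕ) :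
    Nm R (A1_init R h w).1 ∧ NmL R h.length w.length (A1_init R h w).2 :=
  ⟨nm_rone _, A1_len_idx h ▸ A1_nmL_map R _ _ _ fun _ => nmV_vadd _ _ _ _⟩

theorem A1_nm_sel (R : RC) (q : ℕ) (h w : List ℕ) (l : List (El × List (List El))) :
    NmL R h.length w.length (A1_sel R q h w l) :=
  (R1_fold (fun s : El × List (List El) => Nm R s.1 ∧ NmL R h.length w.length s.2) _
    (A1_nm_step R q h w) l _ (A1_nm_init R h w)).2

theorem A1_bd {α σ τ : Type} [Enc α] [Enc σ] [Enc τ] {R : α → RC} {h : α → List σ}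
    {w : α → List τ} (hR : TC 0 R) (hh : TC 0 h) (hw : TC 0 w) :
    Bd 0 fun x => 9 * ((h x).length + 1) * ((w x).length + 1) * sz (R x) ^ 2 :=
  ((((Bd.const 0 9).mul (hh.bd.add (Bd.const 0 1))).mul (hw.bd.add (Bd.const 0 1))).mul
    (hR.bd.mul hR.bd)).mono fun x => by
      have h1 := length_le_sz (h x)
      have h2 := length_le_sz (w x)
      rw [pow_two]
      gcongr

@[fun_prop] theorem A1_tc_sel {α : Type} [Enc α] {R : α → RC} {q : α → ℕ} {h w : α → List ℕ}
    {l : α → List (El × List (List El))} (hR : TC 0 R) (hq : TC 0 q) (hh : TC 0 h) (hw : TC 0 w)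
    (hl : TC 0 l) : TC 0 fun x => A1_sel (R x) (q x) (h x) (w x) (l x) := by
  unfold A1_sel
  refine TC.snd (TC.foldl_inv (f := fun x => A1_step (R x) (q x) (h x) (w x))
    (by unfold A1_step; fun_prop) (by unfold A1_init; fun_prop) hl
    (((R1_bd hR).add (A1_bd hR hh hw)).add (Bd.const 0 1))
    (fun x _ s => Nm (R x) s.1 ∧ NmL (R x) (h x).length (w x).length s.2)
    (fun _ => A1_nm_init _ _ _) (fun _ _ _ _ _ _ => A1_nm_step _ _ _ _ _ _) ?_)
  intro x k s _ hs
  have h1 := hs.1.sz_le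
  have h2 := hs.2.sz_le
  rw [sz_prod]
  omega

section
variable {Ω : Type} [Field Ω] {R : RC} {q : ℕ} {β : ℕ → Ω}

open Classical in
theorem A1_step_spec (H : IsHom R q β) (h w : List ℕ) (s t : El × List (List El)) :
    ev R β (A1_step R q h w s t).1 = (if ev R β t.1 = 0 then ev R β s.1 else 0) ∧
    ∀ i < h.length, ∀ k < w.length, vec R β ((A1_step R q h w s t).2.getD i []) k =
      vec R β (s.2.getD i []) k +
        if ev R β t.1 = 0 then 0 else ev R β s.1 * vec R β (t.2.getD i []) k := by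
  constructor
  · simp only [A1_step, H.rmul, H.rsub, H.rone, H.nz]
    split_ifs <;> simp
  · intro i hi k hk
    simp only [A1_step, R1_getD_idx, if_pos hi, H.vadd, H.vsmul, if_pos hk, H.rmul, H.nz]
    split_ifs <;> simp

theorem A1_fold_zero (H : IsHom R q β) (h w : List ℕ) (l : List (El × List (List El)))
    (hl : ∀ t ∈ l, ev R β t.1 = 0) : ∀ s : El × List (List El),
    ev R β (l.foldl (A1_step R q h w) s).1 = ev R β s.1 ∧
    ∀ i < h.length, ∀ k < w.length, vec R β ((l.foldl (A1_step R q h w) s).2.getD i []) k =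
      vec R β (s.2.getD i []) k := by
  induction l with
  | nil => exact fun _ => ⟨rfl, fun _ _ _ _ => rfl⟩
  | cons t l ih =>
    intro s
    obtain ⟨h1, h2⟩ := ih (fun t ht => hl t (List.mem_cons_of_mem _ ht)) (A1_step R q h w s t)
    obtain ⟨h3, h4⟩ := A1_step_spec H h w s t
    have h5 := hl t List.mem_cons_self
    rw [List.foldl_cons]
    refine ⟨by rw [h1, h3, if_pos h5], fun i hi k hk => ?_⟩
    rw [h2 i hi k hk, h4 i hi k hk, if_pos h5, add_zero]

theorem A1_fold_done (H : IsHom R q β) (h w : List ℕ) (l : List (El × List (List El))) :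
    ∀ s : El × List (List El), ev R β s.1 = 0 →
    ∀ i < h.length, ∀ k < w.length, vec R β ((l.foldl (A1_step R q h w) s).2.getD i []) k =
      vec R β (s.2.getD i []) k := by
  induction l with
  | nil => exact fun _ _ _ _ _ _ => rfl
  | cons t l ih =>
    intro s hs i hi k hk
    obtain ⟨h3, h4⟩ := A1_step_spec H h w s t
    rw [List.foldl_cons, ih _ (by rw [h3, hs, ite_self]) i hi k hk, h4 i hi k hk, hs, zero_mul,
      ite_self, add_zero]

theorem A1_init_spec (H : IsHom R q β) (h w : List ℕ) :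
    ev R β (A1_init R h w).1 = 1 ∧
    ∀ i < h.length, ∀ k < w.length, vec R β ((A1_init R h w).2.getD i []) k = 0 := by
  refine ⟨H.rone, fun i hi k hk => ?_⟩
  simp only [A1_init, R1_getD_idx, if_pos hi, H.vadd, if_pos hk]
  rw [vec_eq_zero R β (Nat.zero_le k), add_zero]

theorem A1_sel_zero (H : IsHom R q β) (h w : List ℕ) (l : List (El × List (List El)))
    (hl : ∀ t ∈ l, ev R β t.1 = 0) :
    ∀ i < h.length, ∀ k < w.length, vec R β ((A1_sel R q h w l).getD i []) k = 0 := by
  intro i hi k hk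
  rw [A1_sel, (A1_fold_zero H h w l hl _).2 i hi k hk, (A1_init_spec H h w).2 i hi k hk]

theorem A1_sel_spec (H : IsHom R q β) (h w : List ℕ) (l₁ : List (El × List (List El))) (c : El)
    (M : List (List El)) (l₂ : List (El × List (List El))) (h1 : ∀ t ∈ l₁, ev R β t.1 = 0)
    (hc : ev R β c ≠ 0) : ∀ i < h.length, ∀ k < w.length,
    vec R β ((A1_sel R q h w (l₁ ++ (c, M) :: l₂)).getD i []) k = vec R β (M.getD i []) k := by
  intro i hi k hk
  obtain ⟨a1, a2⟩ := A1_fold_zero H h w l₁ h1 (A1_init R h w)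
  obtain ⟨b1, b2⟩ := A1_init_spec H h w
  obtain ⟨c1, c2⟩ := A1_step_spec H h w (l₁.foldl (A1_step R q h w) (A1_init R h w)) (c, M)
  rw [A1_sel, List.foldl_append, List.foldl_cons,
    A1_fold_done H h w l₂ _ (by rw [c1, if_neg hc]) i hi k hk, c2 i hi k hk, if_neg hc,
    a2 i hi k hk, b2 i hi k hk, a1, b1, zero_add, one_mul]

end

/-- the first row with nonzero entry `k` -/
def A1_pv (R : RC) (q : ℕ) (w : List ℕ) (M : List (List El)) (k : ℕ) : List El :=
  vadd R w ((A1_sel R q [0] w (M.map fun v => (v.getD k [], [v]))).getD 0 []) []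

/-- clearing one column with a given pivot -/
def A1_clr (R : RC) (q : ℕ) (w : List ℕ) (M : List (List El)) (k : ℕ) (p : List El) :
    List (List El) :=
  M.map fun v => vadd R w v
    (vsmul R w (rneg R (rmul R (v.getD k []) (rinv R q (p.getD k [])))) p)

/-- the elimination -/
def A1_elim (R : RC) (q : ℕ) (w : List ℕ) (M : List (List El)) (ks : List ℕ) : List (List El) :=
  ks.foldl (fun N k => A1_clr R q w N k (A1_pv R q w N k)) (M.map fun v => vadd R w v [])

theorem A1_nm_clr (R : RC) (q : ℕ) (w : List ℕ) (M : List (List El)) (k : ℕ) (p : List El) :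
    NmL R M.length w.length (A1_clr R q w M k p) :=
  A1_nmL_map R _ _ _ fun _ => nmV_vadd _ _ _ _

theorem A1_nm_fold (R : RC) (q : ℕ) (w : List ℕ) (n : ℕ) (ks : List ℕ) :
    ∀ N : List (List El), NmL R n w.length N →
      NmL R n w.length (ks.foldl (fun N k => A1_clr R q w N k (A1_pv R q w N k)) N) := by
  induction ks with
  | nil => exact fun _ h => h
  | cons k ks ih => exact fun N h => ih _ (h.1 ▸ A1_nm_clr R q w N k _)

theorem A1_nm_elim (R : RC) (q : ℕ) (w : List ℕ) (M : List (List El)) (ks : List ℕ) :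
    NmL R M.length w.length (A1_elim R q w M ks) :=
  A1_nm_fold R q w _ ks _ (A1_nmL_map R _ _ _ fun _ => nmV_vadd _ _ _ _)

@[fun_prop] theorem A1_tc_pv {α : Type} [Enc α] {R : α → RC} {q k : α → ℕ} {w : α → List ℕ}
    {M : α → List (List El)} (hR : TC 0 R) (hq : TC 0 q) (hw : TC 0 w) (hM : TC 0 M)
    (hk : TC 0 k) : TC 0 fun x => A1_pv (R x) (q x) (w x) (M x) (k x) := by
  unfold A1_pv
  fun_prop

@[fun_prop] theorem A1_tc_elim {α : Type} [Enc α] {R : α → RC} {q : α → ℕ} {w ks : α → List ℕ}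
    {M : α → List (List El)} (hR : TC 0 R) (hq : TC 0 q) (hw : TC 0 w) (hM : TC 0 M)
    (hk : TC 0 ks) : TC 0 fun x => A1_elim (R x) (q x) (w x) (M x) (ks x) := by
  unfold A1_elim
  exact TC.foldl_inv
    (f := fun x N k => A1_clr (R x) (q x) (w x) N k (A1_pv (R x) (q x) (w x) N k))
    (by unfold A1_clr; fun_prop) (by fun_prop) hk (A1_bd hR hM hw)
    (fun x _ N => NmL (R x) (M x).length (w x).length N)
    (fun _ => A1_nmL_map _ _ _ _ fun _ => nmV_vadd _ _ _ _)
    (fun x _ N k _ h => h.1 ▸ A1_nm_clr (R x) (q x) (w x) N k _) (fun _ _ _ _ h => h.sz_le)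

section
variable {Ω : Type} [Field Ω] {R : RC} {q : ℕ} {β : ℕ → Ω}

theorem A1_norm (H : IsHom R q β) (w : List ℕ) {v : List El} (hv : v.length ≤ w.length) :
    vec R β (vadd R w v []) = vec R β v := by
  funext k
  rw [H.vadd]
  split_ifs with hk
  · rw [vec_eq_zero R β (v := []) (Nat.zero_le k), add_zero]
  · rw [vec_eq_zero R β (by omega)]

theorem A1_mem {M : List (List El)} {v : List El} (hv : v ∈ M) : vec R β v ∈ rsp R β M :=
  Submodule.subset_span ⟨v, hv, rfl⟩

theorem A1_rsp_zero {M : List (List El)} {k : ℕ} (h : ∀ v ∈ M, vec R β v k = 0) {u : ℕ → Ω}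
    (hu : u ∈ rsp R β M) : u k = 0 := by
  have : rsp R β M ≤ LinearMap.ker (LinearMap.proj (R := Ω) (φ := fun _ : ℕ => Ω) k) := by
    refine Submodule.span_le.2 ?_
    rintro _ ⟨v, hv, rfl⟩
    exact h v hv
  exact this hu

theorem A1_pv_spec (H : IsHom R q β) (w : List ℕ) (M : List (List El))
    (hM : ∀ v ∈ M, v.length ≤ w.length) (k : ℕ) :
    ((∀ v ∈ M, vec R β v k = 0) ∧ vec R β (A1_pv R q w M k) = 0) ∨
      (vec R β (A1_pv R q w M k) ∈ rsp R β M ∧ vec R β (A1_pv R q w M k) k ≠ 0) := by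
  classical
  by_cases h : ∀ v ∈ M, vec R β v k = 0
  · refine Or.inl ⟨h, funext fun j => ?_⟩
    rw [A1_pv, H.vadd]
    split_ifs with hj
    · rw [A1_sel_zero H [0] w _ (fun t ht => ?_) 0 (by simp) j hj,
        vec_eq_zero R β (v := []) (Nat.zero_le j), add_zero, Pi.zero_apply]
      obtain ⟨v, hv, rfl⟩ := List.mem_map.1 ht
      exact h v hv
    · rfl
  · right
    have hex : ∃ l₁ v l₂, M = l₁ ++ v :: l₂ ∧ (∀ u ∈ l₁, vec R β u k = 0) ∧ vec R β v k ≠ 0 := by
      clear hM
      induction M with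
      | nil => simp at h
      | cons v M ih =>
        by_cases hv : vec R β v k = 0
        · obtain ⟨l₁, u, l₂, rfl, h1, h2⟩ := ih fun h' => h fun u hu => by
            rcases List.mem_cons.1 hu with rfl | hu
            · exact hv
            · exact h' u hu
          refine ⟨v :: l₁, u, l₂, rfl, fun x hx => ?_, h2⟩
          rcases List.mem_cons.1 hx with rfl | hx
          · exact hv
          · exact h1 x hx
        · exact ⟨[], v, M, rfl, by simp, hv⟩
    obtain ⟨l₁, v, l₂, rfl, h1, h2⟩ := hex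
    have hv : v ∈ l₁ ++ v :: l₂ := by simp
    have e : vec R β (A1_pv R q w (l₁ ++ v :: l₂) k) = vec R β v := by
      funext j
      rw [A1_pv, H.vadd]
      split_ifs with hj
      · rw [List.map_append, List.map_cons,
          A1_sel_spec H [0] w _ _ _ _ (fun t ht => ?_) h2 0 (by simp) j hj,
          vec_eq_zero R β (v := []) (Nat.zero_le j), add_zero]
        · rfl
        · obtain ⟨u, hu, rfl⟩ := List.mem_map.1 ht
          exact h1 u hu
      · rw [vec_eq_zero R β ((hM v hv).trans (by omega))]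
    rw [e]
    exact ⟨A1_mem hv, h2⟩

/-- the clearing map -/
noncomputable def A1_T (P : ℕ → Ω) (k : ℕ) : (ℕ → Ω) →ₗ[Ω] (ℕ → Ω) :=
  LinearMap.id - (LinearMap.proj (R := Ω) (φ := fun _ : ℕ => Ω) k).smulRight ((P k)⁻¹ • P)

theorem A1_T_apply (P : ℕ → Ω) (k : ℕ) (u : ℕ → Ω) : A1_T P k u = u - (u k * (P k)⁻¹) • P := by
  simp [A1_T, smul_smul]

theorem A1_clr_rsp (H : IsHom R q β) (w : List ℕ) (M : List (List El))
    (hM : ∀ v ∈ M, v.length ≤ w.length) (k : ℕ) (p : List El) (hp : p.length ≤ w.length) :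
    rsp R β (A1_clr R q w M k p) = (rsp R β M).map (A1_T (vec R β p) k) := by
  have key : ∀ v ∈ M, vec R β (vadd R w v
      (vsmul R w (rneg R (rmul R (v.getD k []) (rinv R q (p.getD k [])))) p)) =
      A1_T (vec R β p) k (vec R β v) := by
    intro v hv
    funext j
    rw [A1_T_apply, H.vadd, H.vsmul, H.rneg, H.rmul, H.rinv, Pi.sub_apply, Pi.smul_apply,
      smul_eq_mul]
    split_ifs with hj
    · simp only [vec]
      ring
    · rw [vec_eq_zero R β (v := v) ((hM v hv).trans (by omega)),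
        vec_eq_zero R β (v := p) (k := j) (hp.trans (by omega)), mul_zero, sub_zero]
  rw [rsp, rsp, Submodule.map_span]
  congr 1
  ext u
  constructor
  · rintro ⟨_, hv', rfl⟩
    obtain ⟨v, hv, rfl⟩ := List.mem_map.1 hv'
    exact ⟨_, ⟨v, hv, rfl⟩, (key v hv).symm⟩
  · rintro ⟨_, ⟨v, hv, rfl⟩, rfl⟩
    exact ⟨_, List.mem_map.2 ⟨v, hv, rfl⟩, (key v hv).symm⟩

theorem A1_len_pv (R : RC) (q : ℕ) (w : List ℕ) (M : List (List El)) (k : ℕ) :
    (A1_pv R q w M k).length = w.length := (nmV_vadd _ _ _ _).1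

theorem A1_clr_spec (H : IsHom R q β) (w : List ℕ) (M : List (List El))
    (hM : ∀ v ∈ M, v.length ≤ w.length) (k : ℕ) (u : ℕ → Ω) :
    u ∈ rsp R β (A1_clr R q w M k (A1_pv R q w M k)) ↔ u ∈ rsp R β M ∧ u k = 0 := by
  rw [A1_clr_rsp H w M hM k _ (A1_len_pv R q w M k).le, Submodule.mem_map]
  constructor
  · rintro ⟨y, hy, rfl⟩
    rw [A1_T_apply]
    rcases A1_pv_spec H w M hM k with ⟨h1, h2⟩ | ⟨h1, h2⟩
    · rw [h2, smul_zero, sub_zero]
      exact ⟨hy, A1_rsp_zero h1 hy⟩
    · refine ⟨Submodule.sub_mem _ hy (Submodule.smul_mem _ _ h1), ?_⟩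
      rw [Pi.sub_apply, Pi.smul_apply, smul_eq_mul, mul_assoc, inv_mul_cancel₀ h2, mul_one,
        sub_self]
  · rintro ⟨h1, h2⟩
    exact ⟨u, h1, by rw [A1_T_apply, h2, zero_mul, zero_smul, sub_zero]⟩

theorem A1_fold_spec (H : IsHom R q β) (w : List ℕ) (ks : List ℕ) (u : ℕ → Ω) :
    ∀ N : List (List El), (∀ v ∈ N, v.length ≤ w.length) →
      (u ∈ rsp R β (ks.foldl (fun N k => A1_clr R q w N k (A1_pv R q w N k)) N) ↔
        u ∈ rsp R β N ∧ ∀ k ∈ ks, u k = 0) := by
  induction ks with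
  | nil => simp
  | cons k ks ih =>
    intro N hN
    rw [List.foldl_cons, ih _ fun v hv => ((A1_nm_clr R q w N k _).2 v hv).1.le,
      A1_clr_spec H w N hN k u]
    simp only [List.mem_cons, forall_eq_or_imp, and_assoc]

theorem A1_elim_spec (H : IsHom R q β) (w : List ℕ) (M : List (List El)) (ks : List ℕ)
    (hM : ∀ v ∈ M, v.length ≤ w.length) (u : ℕ → Ω) :
    u ∈ rsp R β (A1_elim R q w M ks) ↔ u ∈ rsp R β M ∧ ∀ k ∈ ks, u k = 0 := by
  have e : rsp R β (M.map fun v => vadd R w v []) = rsp R β M := by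
    rw [rsp, rsp]
    congr 1
    ext y
    constructor
    · rintro ⟨_, hv', rfl⟩
      obtain ⟨v, hv, rfl⟩ := List.mem_map.1 hv'
      exact ⟨v, hv, A1_norm H w (hM v hv)⟩
    · rintro ⟨v, hv, rfl⟩
      exact ⟨_, List.mem_map.2 ⟨v, hv, rfl⟩, (A1_norm H w (hM v hv)).symm⟩
  rw [A1_elim, A1_fold_spec H w ks u _ fun v hv => ?_, e]
  obtain ⟨v, -, rfl⟩ := List.mem_map.1 hv
  exact (nmV_vadd _ _ _ _).1.le

end

/-- the list of the pivots -/
def A1_piv (R : RC) (q : ℕ) (w : List ℕ) (M : List (List El)) : List (List El) :=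
  (idx w).map fun k => A1_pv R q w (A1_elim R q w M ((idx w).take k)) k

theorem A1_nm_piv (R : RC) (q : ℕ) (w : List ℕ) (M : List (List El)) :
    NmL R w.length w.length (A1_piv R q w M) := by
  have := A1_nmL_map R w.length (idx w)
    (fun k => A1_pv R q w (A1_elim R q w M ((idx w).take k)) k) fun _ => nmV_vadd _ _ _ _
  rwa [A1_len_idx] at this

theorem A1_piv_spec {Ω : Type} [Field Ω] {R : RC} {q : ℕ} {β : ℕ → Ω} (H : IsHom R q β)
    (w : List ℕ) (M : List (List El)) (hM : ∀ v ∈ M, v.length ≤ w.length) :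
    rsp R β (A1_piv R q w M) = rsp R β M := by
  have hE : ∀ ks, ∀ v ∈ A1_elim R q w M ks, v.length ≤ w.length := fun ks v hv =>
    ((A1_nm_elim R q w M ks).2 v hv).1.le
  apply le_antisymm
  · refine Submodule.span_le.2 ?_
    rintro _ ⟨_, hv, rfl⟩
    obtain ⟨k, -, rfl⟩ := List.mem_map.1 hv
    rcases A1_pv_spec H w _ (hE ((idx w).take k)) k with ⟨-, h2⟩ | ⟨h1, -⟩
    · rw [h2]
      exact Submodule.zero_mem _
    · exact ((A1_elim_spec H w M _ hM _).1 h1).1
  · have key : ∀ d j, j + d = w.length → ∀ u ∈ rsp R β M, (∀ k < j, u k = 0) →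
        u ∈ rsp R β (A1_piv R q w M) := by
      intro d
      induction d with
      | zero =>
        intro j hj u hu h0
        have : u = 0 := funext fun k => by
          by_cases hk : k < j
          · exact h0 k hk
          · exact A1_rsp_zero (fun v hv => vec_eq_zero R β ((hM v hv).trans (by omega))) hu
        rw [this]
        exact Submodule.zero_mem _
      | succ d ih =>
        intro j hj u hu h0
        have hmem : ∀ k, k ∈ (idx w).take j ↔ k < j := fun k => by
          rw [idx, List.take_range, List.mem_range]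
          omega
        have hP : vec R β (A1_pv R q w (A1_elim R q w M ((idx w).take j)) j) ∈
            rsp R β (A1_piv R q w M) :=
          A1_mem (List.mem_map.2 ⟨j, by simp only [idx, List.mem_range]; omega, rfl⟩)
        have hu' := (A1_elim_spec H w M ((idx w).take j) hM u).2
          ⟨hu, fun k hk => h0 k ((hmem k).1 hk)⟩
        have h1 : A1_T (vec R β (A1_pv R q w (A1_elim R q w M ((idx w).take j)) j)) j u ∈
            rsp R β (A1_clr R q w (A1_elim R q w M ((idx w).take j)) j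
              (A1_pv R q w (A1_elim R q w M ((idx w).take j)) j)) := by
          rw [A1_clr_rsp H w _ (hE _) j _ (A1_len_pv R q w _ j).le]
          exact Submodule.mem_map_of_mem hu'
        obtain ⟨h2, h3⟩ := (A1_clr_spec H w _ (hE _) j _).1 h1
        obtain ⟨h4, h5⟩ := (A1_elim_spec H w M _ hM _).1 h2
        have h6 := ih (j + 1) (by omega) _ h4 fun k hk => by
          rcases Nat.lt_succ_iff_lt_or_eq.1 hk with hk | rfl
          · exact h5 k ((hmem k).2 hk)
          · exact h3
        rw [A1_T_apply] at h6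
        have := Submodule.add_mem _ h6 (Submodule.smul_mem _ (u j *
          (vec R β (A1_pv R q w (A1_elim R q w M ((idx w).take j)) j) j)⁻¹) hP)
        rwa [sub_add_cancel] at this
    exact fun u hu => key w.length 0 (by omega) u hu fun k hk => absurd hk (Nat.not_lt_zero k)

/-- the first matrix of the list whose tag is nonzero (`h` rows of width `w`) -/
theorem exists_sel : ∃ sel : RC × ℕ × List ℕ × List ℕ × List (El × List (List El)) →
      List (List El), TC 0 sel ∧
    (∀ R q h w l, NmL R h.length w.length (sel (R, q, h, w, l))) ∧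
    ∀ {Ω : Type} [Field Ω] (R : RC) (q : ℕ) (β : ℕ → Ω), IsHom R q β → ∀ (h w : List ℕ)
      (l₁ : List (El × List (List El))) (c : El) (M : List (List El))
      (l₂ : List (El × List (List El))), (∀ t ∈ l₁, ev R β t.1 = 0) → ev R β c ≠ 0 →
      ∀ i < h.length, ∀ k < w.length,
        vec R β ((sel (R, q, h, w, l₁ ++ (c, M) :: l₂)).getD i []) k =
          vec R β (M.getD i []) k :=
  ⟨fun x => A1_sel x.1 x.2.1 x.2.2.1 x.2.2.2.1 x.2.2.2.2, by fun_prop,
    fun R q h w l => A1_nm_sel R q h w l,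
    fun _ _ _ H h w l₁ c M l₂ h1 hc => A1_sel_spec H h w l₁ c M l₂ h1 hc⟩

theorem exists_elim : ∃ elim : RC × ℕ × List ℕ × List (List El) × List ℕ → List (List El),
    TC 0 elim ∧
    (∀ R q w M ks, NmL R M.length w.length (elim (R, q, w, M, ks))) ∧
    ∀ {Ω : Type} [Field Ω] (R : RC) (q : ℕ) (β : ℕ → Ω), IsHom R q β → ∀ (w : List ℕ)
      (M : List (List El)) (ks : List ℕ), (∀ v ∈ M, v.length ≤ w.length) → ∀ u,
      u ∈ rsp R β (elim (R, q, w, M, ks)) ↔ u ∈ rsp R β M ∧ ∀ k ∈ ks, u k = 0 :=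
  ⟨fun x => A1_elim x.1 x.2.1 x.2.2.1 x.2.2.2.1 x.2.2.2.2, by fun_prop,
    fun R q w M ks => A1_nm_elim R q w M ks,
    fun _ _ _ H w M ks hM u => A1_elim_spec H w M ks hM u⟩

/-- a spanning list with exactly `w.length` rows -/
theorem exists_piv : ∃ piv : RC × ℕ × List ℕ × List (List El) → List (List El),
    TC 0 piv ∧
    (∀ R q w M, NmL R w.length w.length (piv (R, q, w, M))) ∧
    ∀ {Ω : Type} [Field Ω] (R : RC) (q : ℕ) (β : ℕ → Ω), IsHom R q β → ∀ (w : List ℕ)
      (M : List (List El)), (∀ v ∈ M, v.length ≤ w.length) →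
      rsp R β (piv (R, q, w, M)) = rsp R β M :=
  ⟨fun x => A1_piv x.1 x.2.1 x.2.2.1 x.2.2.2, by unfold A1_piv; fun_prop,
    fun R q w M => A1_nm_piv R q w M,
    fun _ _ _ H w M hM => A1_piv_spec H w M hM⟩

end Vale.Agent.P319
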