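import Vale.Agent.P319.R1

/-! A2: branch-free `l`-th roots (Tonelli-Shanks / Adleman-Manders-Miller) from a nonresidue `η`;
`l` is the length of the list `iL`. -/

namespace Vale.Agent.P319
open Vale.Agent.Common.TreeTM Vale.Agent.P337

namespace A2

/-- input: ring, field size, unary `l`, nonresidue, radicand -/
abbrev In := RC × ℕ × List ℕ × El × El

def zsel (a : In) (s : El × ℕ) : El :=
  rsum a.1 ((idx a.2.2.1).map fun j =>
    rmul a.1 (rsub a.1 (rone a.1) (nz a.1 a.2.1 (rsub a.1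
      (rmul a.1 (rpow a.1 a.2.2.2.1 ((a.2.1 - 1) / a.2.2.1.length * j))
        (rpow a.1 (rmul a.1 a.2.2.2.2 (rpow a.1 s.1 a.2.2.1.length)) (s.2 / a.2.2.1.length)))
      (rone a.1))))
      (rpow a.1 a.2.2.2.1 ((a.2.1 - 1) / a.2.2.1.length / s.2 * j)))

def step (a : In) (s : El × ℕ) : El × ℕ :=
  bif neq (s.2 % a.2.2.1.length) 0 then (rmul a.1 s.1 (zsel a s), s.2 / a.2.2.1.length) else s

def loop (a : In) : El × ℕ :=
  a.2.1.bits.foldl (fun s _ => step a s) (rone a.1, (a.2.1 - 1) / a.2.2.1.length)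

def fin (a : In) (s : El × ℕ) : El :=
  rmul a.1 (nz a.1 a.2.1 a.2.2.2.2) (rinv a.1 a.2.1 (rmul a.1
    (rpow a.1 (rmul a.1 a.2.2.2.2 (rpow a.1 s.1 a.2.2.1.length))
      ((s.2 ^ a.2.2.1.tail.length - 1) / a.2.2.1.length)) s.1))

theorem tc_zsel : TC 0 fun p : In × El × ℕ => zsel p.1 p.2 := by
  unfold zsel; fun_prop

theorem tc_step : TC 0 fun p : In × El × ℕ => step p.1 p.2 := by
  have h := tc_zsel
  unfold step; fun_prop

theorem tc_loop : TC 0 loop := by
  have hR : TC 0 fun a : In => a.1 := by fun_prop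
  have hq : TC 0 fun a : In => a.2.1 := by fun_prop
  refine TC.foldl_inv (f := fun a s (_ : Bool) => step a s)
    (i := fun a : In => (rone a.1, (a.2.1 - 1) / a.2.2.1.length)) (l := fun a : In => a.2.1.bits)
    (TC.comp (g := fun p : In × (El × ℕ) × Bool => (p.1, p.2.1)) tc_step (by fun_prop))
    (by fun_prop) (by fun_prop)
    (S := fun a => 7 * (sz a.1 * sz a.1) + (4 * sz a.2.1 + 2))
    (((Bd.const _ _).mul (hR.bd.mul hR.bd)).add (((Bd.const _ _).mul hq.bd).add (Bd.const _ _)))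
    (fun a _ s => Nm a.1 s.1 ∧ s.2 ≤ a.2.1)
    (fun a => ⟨nm_rone _, (Nat.div_le_self _ _).trans (Nat.sub_le _ _)⟩) ?_ ?_
  · intro a k s _ _ hs
    unfold step
    cases neq (s.2 % a.2.2.1.length) 0
    · exact hs
    · exact ⟨nm_rmul _ _ _, (Nat.div_le_self _ _).trans hs.2⟩
  · intro a k s _ hs
    have h1 := hs.1.sz_le
    have h2 := sz_nat_mono hs.2
    rw [sz_prod]
    rw [pow_two] at h1
    omega

theorem tc_fin : TC 0 fun p : In × El × ℕ => fin p.1 p.2 := by
  unfold fin; fun_prop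

variable {Ω : Type} [Field Ω] {R : RC} {q : ℕ} {β : ℕ → Ω}

/-- the loop invariant -/
def Inv (R : RC) (q : ℕ) (β : ℕ → Ω) (l : ℕ) (c : El) (k : ℕ) (s : El × ℕ) : Prop :=
  ev R β s.1 ≠ 0 ∧ s.2 ∣ (q - 1) / l ∧ (ev R β c * ev R β s.1 ^ l) ^ s.2 = 1 ∧
    (l ∣ s.2 → s.2 * 2 ^ k ≤ q)

theorem step_inv (h : IsHom R q β) {iL : List ℕ} {η c : El} (hl : iL.length.Prime)
    (hd : iL.length ∣ q - 1) (h0 : ev R β η ≠ 0) (h1 : ev R β η ^ ((q - 1) / iL.length) ≠ 1)
    {k : ℕ} {s : El × ℕ} (hs : Inv R q β iL.length c k s) :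
    Inv R q β iL.length c (k + 1) (step (R, q, iL, η, c) s) := by
  classical
  obtain ⟨x, e⟩ := s
  obtain ⟨i1, i2, i3, i4⟩ := hs
  simp only at i1 i2 i3 i4
  unfold step
  by_cases hle : iL.length ∣ e
  swap
  · have : neq (e % iL.length) 0 = false := by
      simp only [neq, decide_eq_false_iff_not]
      exact fun h' => hle (Nat.dvd_of_mod_eq_zero h')
    simp only [this, cond_false]
    exact ⟨i1, i2, i3, fun h' => absurd h' hle⟩
  have : neq (e % iL.length) 0 = true := by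
    simp only [neq, decide_eq_true_eq]
    exact Nat.mod_eq_zero_of_dvd hle
  simp only [this, cond_true]
  set l := iL.length with hldef
  have hq := h.two_lt
  have hη : ev R β η ^ (q - 1) = 1 := by
    have h2 := h.fix η
    have h3 : q = q - 1 + 1 := by omega
    rw [h3, pow_succ] at h2
    exact mul_right_cancel₀ h0 (h2.trans (one_mul _).symm)
  set ζ := ev R β η ^ ((q - 1) / l) with hζ
  have hζl : ζ ^ l = 1 := by rw [hζ, ← pow_mul, Nat.div_mul_cancel hd, hη]
  have := Fact.mk hl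
  have hprim : IsPrimitiveRoot ζ l := by
    have := orderOf_eq_prime hζl h1
    rw [← this]; exact IsPrimitiveRoot.orderOf ζ
  set y := (ev R β c * ev R β x ^ l) ^ (e / l) with hy
  have hyl : y ^ l = 1 := by rw [hy, ← pow_mul, Nat.div_mul_cancel hle, i3]
  have hy0 : y ≠ 0 := by
    intro h'; rw [h', zero_pow hl.ne_zero] at hyl; exact zero_ne_one hyl
  have : NeZero l := ⟨hl.ne_zero⟩
  obtain ⟨j, hj, hjy⟩ := hprim.eq_pow_of_pow_eq_one (ξ := y⁻¹) (by rw [inv_pow, hyl, inv_one])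
  have hz : ev R β (zsel (R, q, iL, η, c) (x, e)) = ev R β η ^ ((q - 1) / l / e * j) := by
    unfold zsel
    simp only [h.rsum, List.map_map, idx]
    have e1 : ∀ f : ℕ → Ω, ((List.range l).map f).sum = ∑ i ∈ Finset.range l, f i := fun f => by
      simp [Finset.sum, Finset.range, Multiset.range]
    rw [← hldef, e1, Finset.sum_eq_single j]
    · simp only [Function.comp, h.rmul, h.rsub, h.rone, h.nz, h.rpow]
      rw [pow_mul, ← hζ, ← hy, hjy, inv_mul_cancel₀ hy0]
      simp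
    · intro i hi hij
      simp only [Function.comp, h.rmul, h.rsub, h.rone, h.nz, h.rpow]
      rw [pow_mul, ← hζ, ← hy, if_neg]
      · simp
      · intro h'
        apply hij
        apply hprim.pow_inj (Finset.mem_range.1 hi) hj
        rw [hjy]
        exact eq_inv_of_mul_eq_one_left (sub_eq_zero.1 h')
    · intro h'; exact absurd (Finset.mem_range.2 hj) h'
  refine ⟨?_, ?_, ?_, ?_⟩
  · simp only [h.rmul, hz]
    exact mul_ne_zero i1 (pow_ne_zero _ h0)
  · exact (Nat.div_dvd_of_dvd hle).trans i2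
  · simp only [h.rmul, hz]
    have e2 : (ev R β η ^ ((q - 1) / l / e * j)) ^ e = ζ ^ j := by
      rw [hζ, ← pow_mul, ← pow_mul]
      congr 1
      rw [mul_right_comm, Nat.div_mul_cancel i2]
    rw [mul_pow (ev R β x), ← mul_assoc, mul_pow, ← hy, ← pow_mul, Nat.mul_div_cancel' hle, e2, hjy,
      mul_inv_cancel₀ hy0]
  · intro _
    have h2 := i4 hle
    have h3 : e / l * 2 ≤ e :=
      (Nat.mul_le_mul_left _ hl.two_le).trans (Nat.div_mul_le_self _ _)
    calc e / l * 2 ^ (k + 1) = e / l * 2 * 2 ^ k := by ring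
      _ ≤ e * 2 ^ k := Nat.mul_le_mul_right _ h3
      _ ≤ q := h2

theorem fold_inv (h : IsHom R q β) {iL : List ℕ} {η c : El} (hl : iL.length.Prime)
    (hd : iL.length ∣ q - 1) (h0 : ev R β η ≠ 0) (h1 : ev R β η ^ ((q - 1) / iL.length) ≠ 1) :
    ∀ (L : List Bool) (k : ℕ) (s : El × ℕ), Inv R q β iL.length c k s →
      Inv R q β iL.length c (k + L.length) (L.foldl (fun s _ => step (R, q, iL, η, c) s) s)
  | [], _, _, hs => hs
  | _ :: L, k, s, hs => by
    have := fold_inv h hl hd h0 h1 L (k + 1) _ (step_inv h hl hd h0 h1 hs)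
    rw [List.foldl_cons, List.length_cons]
    convert this using 1
    omega

end A2

theorem exists_root : ∃ root : RC × ℕ × List ℕ × El × El → El, TC 0 root ∧
    (∀ R q iL η c, Nm R (root (R, q, iL, η, c))) ∧
    ∀ {Ω : Type} [Field Ω] (R : RC) (q : ℕ) (β : ℕ → Ω), IsHom R q β → ∀ (iL : List ℕ) (η c : El),
      iL.length.Prime → iL.length ∣ q - 1 → ev R β η ≠ 0 →
      ev R β η ^ ((q - 1) / iL.length) ≠ 1 → ∀ d : Ω, d ^ q = d → d ^ iL.length = ev R β c →
      ev R β (root (R, q, iL, η, c)) ^ iL.length = ev R β c := by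
  refine ⟨fun a => A2.fin a (A2.loop a), ?_, fun R q iL η c => nm_rmul _ _ _, ?_⟩
  · have h1 := A2.tc_loop
    exact TC.comp (g := fun a : A2.In => (a, A2.loop a)) A2.tc_fin (by fun_prop)
  intro Ω _ R q β h iL η c hl hd h0 h1 d hdq hdc
  beta_reduce
  by_cases hc : ev R β c = 0
  · simp only [A2.fin, h.rmul, h.nz, hc, if_true, zero_mul]
    exact zero_pow hl.ne_zero
  have hq := h.two_lt
  have hd0 : d ≠ 0 := by
    intro h'; rw [h', zero_pow hl.ne_zero] at hdc; exact hc hdc.symm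
  have hd1 : d ^ (q - 1) = 1 := by
    have h3 : q = q - 1 + 1 := by omega
    rw [h3, pow_succ] at hdq
    exact mul_right_cancel₀ hd0 (hdq.trans (one_mul _).symm)
  have hI := A2.fold_inv (c := c) h hl hd h0 h1 q.bits 0 (rone R, (q - 1) / iL.length)
    ⟨by simp [h.rone], dvd_rfl, by
      simp only [h.rone, one_pow, mul_one]
      rw [← hdc, ← pow_mul, Nat.mul_div_cancel' hd, hd1], fun _ => by
      simp only [pow_zero, mul_one]
      exact (Nat.div_le_self _ _).trans (Nat.sub_le _ _)⟩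
  change A2.Inv R q β iL.length c _ (A2.loop (R, q, iL, η, c)) at hI
  generalize A2.loop (R, q, iL, η, c) = s at hI ⊢
  obtain ⟨x, t⟩ := s
  obtain ⟨i1, i2, i3, i4⟩ := hI
  simp only at i1 i2 i3 i4
  have ht0 : 0 < t := Nat.pos_of_dvd_of_pos i2
    (Nat.div_pos (Nat.le_of_dvd (by omega) hd) hl.pos)
  have hlt : ¬iL.length ∣ t := by
    intro h'
    have h2 := i4 h'
    rw [zero_add, Nat.size_eq_bits_len] at h2
    have h3 := Nat.lt_size_self q
    nlinarith
  have hF : iL.length ∣ t ^ (iL.length - 1) - 1 := by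
    have := Nat.ModEq.pow_card_sub_one_eq_one hl
      ((Nat.Prime.coprime_iff_not_dvd hl).2 hlt).symm
    exact (Nat.modEq_iff_dvd' (Nat.one_le_pow _ _ ht0)).1 this.symm
  simp only [A2.fin, h.rmul, h.nz, h.rinv, h.rpow, if_neg hc, one_mul, List.length_tail]
  set w := ev R β c * ev R β x ^ iL.length with hw
  have hw0 : w ≠ 0 := mul_ne_zero hc (pow_ne_zero _ i1)
  have h2 := hl.two_le
  have h4 : (w ^ ((t ^ (iL.length - 1) - 1) / iL.length)) ^ iL.length * w = 1 := by
    rw [← pow_mul, Nat.div_mul_cancel hF, ← pow_succ,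
      Nat.sub_add_cancel (Nat.one_le_pow _ _ ht0)]
    obtain ⟨m, hm⟩ : ∃ m, iL.length - 1 = m + 1 := ⟨iL.length - 2, by omega⟩
    rw [hm, pow_succ', pow_mul, i3, one_pow]
  rw [inv_pow, mul_pow]
  apply inv_eq_of_mul_eq_one_right
  rw [← h4, hw]; ring

end Vale.Agent.P319
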