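import Vale.Agent.P319.R1

/-! A3: the quotient ring code. -/

namespace Vale.Agent.P319
open Vale.Agent.Common.TreeTM Vale.Agent.P337

theorem A3_nmV_map (R : RC) (md : List El) (g : ℕ → El) (h : ∀ k, Nm R (g k)) :
    NmV R md.length ((idx md).map g) := by
  refine ⟨by simp [idx], fun x hx => ?_⟩
  obtain ⟨i, -, rfl⟩ := List.mem_map.1 hx
  exact h i

theorem A3_nmV_hstep (R : RC) (md acc : List El) (c : El) :
    NmV R md.length (hstep R md acc c) := A3_nmV_map _ _ _ fun _ => nm_rsub _ _ _

section tc
variable {α : Type} [Enc α] {R : α → RC} {a : α → El} {md cs : α → List El}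

@[fun_prop] theorem tc_slc (hR : TC 0 R) (hm : TC 0 md) (ha : TC 0 a) :
    TC 0 fun x => slc (R x) (md x) (a x) := by
  unfold slc
  fun_prop

@[fun_prop] theorem A3_tc_flat (hR : TC 0 R) (hm : TC 0 md) (hc : TC 0 cs) :
    TC 0 fun x => flat (R x) (md x) (cs x) := by
  unfold flat
  fun_prop

@[fun_prop] theorem A3_tc_hstep (hR : TC 0 R) (hm : TC 0 md) (hc : TC 0 cs) (ha : TC 0 a) :
    TC 0 fun x => hstep (R x) (md x) (cs x) (a x) := by
  unfold hstep
  fun_prop

@[fun_prop] theorem tc_hred (hR : TC 0 R) (hm : TC 0 md) (hc : TC 0 cs) :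
    TC 0 fun x => hred (R x) (md x) (cs x) := by
  unfold hred
  have hb : Bd 0 fun x => 8 * (sz (md x) + 1) * sz (R x) ^ 2 :=
    (((Bd.const 0 8).mul (hm.bd.add (Bd.const 0 1))).mul (hR.bd.mul hR.bd)).mono fun x => by
      rw [pow_two]
  exact TC.foldl_inv (f := fun x acc c => hstep (R x) (md x) acc c)
    (by fun_prop) (by fun_prop) (by fun_prop) hb (fun x _ s => NmV (R x) (md x).length s)
    (fun _ => A3_nmV_map _ _ _ fun _ => nm_rzero _) (fun _ _ _ _ _ _ => A3_nmV_hstep _ _ _ _)
    (fun x _ _ _ h => h.sz_le.trans (Nat.mul_le_mul_right _ (Nat.mul_le_mul_left _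
      (Nat.add_le_add_right (length_le_sz (md x)) 1))))

@[fun_prop] theorem tc_atT (hR : TC 0 R) (hm : TC 0 md) (hc : TC 0 cs) :
    TC 0 fun x => atT (R x) (md x) (cs x) := by
  unfold atT
  fun_prop

@[fun_prop] theorem tc_emb (hR : TC 0 R) (hm : TC 0 md) (ha : TC 0 a) :
    TC 0 fun x => emb (R x) (md x) (a x) := by
  unfold emb
  fun_prop

@[fun_prop] theorem tc_gen (hR : TC 0 R) (hm : TC 0 md) : TC 0 fun x => gen (R x) (md x) := by
  unfold gen
  fun_prop

@[fun_prop] theorem tc_quot (hR : TC 0 R) (hm : TC 0 md) : TC 0 fun x => quot (R x) (md x) := by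
  unfold quot
  fun_prop
end tc

theorem A3_length_blocks (n D : ℕ) (g : ℕ → ℕ → ℕ) :
    ((List.range n).flatMap fun c => (List.range D).map (g c)).length = n * D := by
  induction n with
  | zero => simp
  | succ n ih => simp [List.range_succ, List.flatMap_append, ih, add_mul]

theorem A3_getD_blocks (n D : ℕ) (g : ℕ → ℕ → ℕ) {c k : ℕ} (hc : c < n) (hk : k < D) :
    ((List.range n).flatMap fun c => (List.range D).map (g c)).getD (c * D + k) 0 = g c k := by
  induction n with
  | zero => omega
  | succ n ih =>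
    rw [List.range_succ, List.flatMap_append]
    rcases Nat.lt_succ_iff_lt_or_eq.1 hc with h | h
    · rw [List.getD_append, ih h]
      rw [A3_length_blocks]
      have := Nat.mul_le_mul_right D (Nat.succ_le_of_lt h)
      rw [Nat.succ_mul] at this
      omega
    · subst h
      rw [List.getD_append_right _ _ _ _ (by rw [A3_length_blocks]; omega), A3_length_blocks]
      simp [List.getD_eq_getElem?_getD, hk]

theorem A3_length_flat (R : RC) (md cs : List El) :
    (flat R md cs).length = dim R * md.length := A3_length_blocks _ _ _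

theorem A3_getD_flat (R : RC) (md cs : List El) {c k : ℕ} (hc : c < dim R) (hk : k < md.length) :
    (flat R md cs).getD (c * md.length + k) 0 = (cs.getD k []).getD c 0 :=
  A3_getD_blocks _ _ (fun c k => (cs.getD k []).getD c 0) hc hk

theorem dim_quot (R : RC) (md : List El) : dim (quot R md) = dim R * md.length := by
  rw [← A3_length_flat R md []]
  simp [dim, quot, idx]

theorem nmV_hred (R : RC) (md cs : List El) : NmV R md.length (hred R md cs) :=
  R1_fold (NmV R md.length) _ (fun _ _ => A3_nmV_hstep _ _ _ _) _ _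
    (A3_nmV_map _ _ _ fun _ => nm_rzero _)

theorem A3_getD_le {l : List ℕ} {b : ℕ} (h : ∀ x ∈ l, x ≤ b) (c : ℕ) : l.getD c 0 ≤ b := by
  by_cases hc : c < l.length
  · rw [List.getD_eq_getElem _ _ hc]
    exact h _ (List.getElem_mem hc)
  · rw [List.getD_eq_default _ _ (by omega)]
    exact Nat.zero_le _

theorem nm_atT (R : RC) (md cs : List El) : Nm (quot R md) (atT R md cs) := by
  refine ⟨by rw [dim_quot, atT, A3_length_flat], fun x hx => ?_⟩
  obtain ⟨c, -, hx⟩ := List.mem_flatMap.1 hx
  obtain ⟨k, -, rfl⟩ := List.mem_map.1 hx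
  show _ ≤ R.1
  refine A3_getD_le (fun y hy => ?_) c
  by_cases hk : k < (hred R md cs).length
  · rw [List.getD_eq_getElem _ _ hk] at hy
    exact ((nmV_hred R md cs).2 _ (List.getElem_mem hk)).2 y hy
  · rw [List.getD_eq_default _ _ (by omega)] at hy
    simp at hy

theorem length_slc (R : RC) (md : List El) (a : El) : (slc R md a).length = md.length := by
  simp [slc, idx]

variable {Ω : Type} [Field Ω] {R : RC} {q : ℕ} {β : ℕ → Ω}

open Polynomial

theorem coeff_pol (R : RC) (β : ℕ → Ω) (cs : List El) (k : ℕ) :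
    (pol R β cs).coeff k = ev R β (cs.getD k []) := by
  rw [pol, finsetSum_coeff]
  simp only [coeff_monomial]
  rw [Finset.sum_ite_eq' (Finset.range cs.length) k fun j => ev R β (cs.getD j [])]
  split_ifs with hk
  · rfl
  · rw [List.getD_eq_default _ _ (by simpa using hk), ev_nil]

theorem A3_degree_pol (R : RC) (β : ℕ → Ω) (cs : List El) :
    (pol R β cs).degree < cs.length := by
  rw [degree_lt_iff_coeff_zero]
  intro m hm
  rw [coeff_pol, List.getD_eq_default _ _ hm, ev_nil]

theorem monic_mpol (R : RC) (β : ℕ → Ω) (md : List El) : (mpol R β md).Monic :=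
  monic_X_pow_add (A3_degree_pol R β md)

theorem A3_degree_mpol (R : RC) (β : ℕ → Ω) (md : List El) :
    (mpol R β md).degree = md.length := by
  rw [mpol, degree_add_eq_left_of_degree_lt, degree_X_pow]
  rw [degree_X_pow]
  exact A3_degree_pol R β md

theorem natDegree_mpol (R : RC) (β : ℕ → Ω) (md : List El) :
    (mpol R β md).natDegree = md.length := natDegree_eq_of_degree_eq_some (A3_degree_mpol R β md)

theorem A3_pol_cons (R : RC) (β : ℕ → Ω) (c : El) (cs : List El) :
    pol R β (c :: cs) = C (ev R β c) + X * pol R β cs := by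
  ext k
  cases k with
  | zero => simp [coeff_pol]
  | succ k => simp [coeff_pol, coeff_X_mul]

theorem A3_pol_hstep (h : IsHom R q β) (md acc : List El) (c : El) (hD : 0 < md.length)
    (ha : acc.length = md.length) :
    pol R β (hstep R md acc c) =
      pol R β (c :: acc) - C (ev R β (acc.getD (md.length - 1) [])) * mpol R β md := by
  ext k
  rw [coeff_sub, coeff_C_mul, mpol, coeff_add, coeff_X_pow, coeff_pol, coeff_pol, coeff_pol,
    hstep, R1_getD_idx]
  split_ifs with h1 h2 h2
  · omega
  · rw [h.rsub, h.rmul, zero_add]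
  · subst h2
    obtain ⟨D, hD'⟩ : ∃ D, md.length = D + 1 := ⟨md.length - 1, by omega⟩
    rw [List.getD_eq_default md _ le_rfl, ev_nil, hD', List.getD_cons_succ]
    simp
  · rw [List.getD_eq_default md _ (by omega), List.getD_eq_default (c :: acc) _
      (by rw [List.length_cons]; omega), ev_nil]
    simp

theorem A3_hred_cons (R : RC) (md cs : List El) (c : El) :
    hred R md (c :: cs) = hstep R md (hred R md cs) c := by
  simp [hred]

theorem A3_dvd (h : IsHom R q β) (md cs : List El) :
    mpol R β md ∣ pol R β cs - pol R β (hred R md cs) := by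
  rcases Nat.eq_zero_or_pos md.length with hD | hD
  · have : mpol R β md = 1 := by
      rw [← (monic_mpol R β md).natDegree_eq_zero, natDegree_mpol, hD]
    rw [this]
    exact one_dvd _
  induction cs with
  | nil =>
    have : pol R β (hred R md []) = pol R β [] := by
      ext k
      rw [coeff_pol, coeff_pol]
      simp only [hred, List.reverse_nil, List.foldl_nil, R1_getD_idx, List.getD_nil]
      split_ifs
      · rw [ev_rzero, ev_nil]
      · rfl
    rw [this, sub_self]
    exact dvd_zero _
  | cons c cs ih =>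
    rw [A3_hred_cons, A3_pol_hstep h md _ c hD (nmV_hred R md cs).1, A3_pol_cons, A3_pol_cons]
    obtain ⟨u, hu⟩ := ih
    refine ⟨X * u + C (ev R β ((hred R md cs).getD (md.length - 1) [])), ?_⟩
    linear_combination X * hu

theorem IsHom.hred (h : IsHom R q β) (md cs : List El) :
    pol R β (hred R md cs) = pol R β cs %ₘ mpol R β md := by
  rw [modByMonic_eq_of_dvd_sub (monic_mpol R β md) (A3_dvd h md cs), eq_comm,
    modByMonic_eq_self_iff (monic_mpol R β md), A3_degree_mpol,
    ← (nmV_hred R md cs).1]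
  exact A3_degree_pol _ _ _

theorem A3_sum_blocks {M : Type} [AddCommMonoid M] (n D : ℕ) (f : ℕ → M) :
    ∑ i ∈ Finset.range (n * D), f i =
      ∑ c ∈ Finset.range n, ∑ k ∈ Finset.range D, f (c * D + k) := by
  induction n with
  | zero => simp
  | succ n ih => rw [Nat.succ_mul, Finset.sum_range_add, ih, Finset.sum_range_succ]

theorem A3_eval_pol (R : RC) (β : ℕ → Ω) (cs : List El) (α : Ω) :
    (pol R β cs).eval α = ∑ k ∈ Finset.range cs.length, ev R β (cs.getD k []) * α ^ k := by
  rw [pol, eval_finsetSum]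
  simp only [eval_monomial]

theorem ev_quot (R : RC) (β : ℕ → Ω) (md : List El) (α : Ω) (a : El) :
    ev (quot R md) (bq md β α) a = (pol R β (slc R md a)).eval α := by
  rw [A3_eval_pol, length_slc, ev, dim_quot, A3_sum_blocks, Finset.sum_comm]
  refine Finset.sum_congr rfl fun k hk => ?_
  have hk' := Finset.mem_range.1 hk
  rw [slc, R1_getD_idx, if_pos hk', R1_ev_map, Finset.sum_mul]
  refine Finset.sum_congr rfl fun c _ => ?_
  have e1 : (c * md.length + k) / md.length = c := by
    rw [Nat.add_comm, Nat.add_mul_div_right _ _ (by omega), Nat.div_eq_of_lt hk', zero_add]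
  have e2 : (c * md.length + k) % md.length = k := by
    rw [Nat.add_comm, Nat.add_mul_mod_self_right, Nat.mod_eq_of_lt hk']
  rw [bq, e1, e2, mul_assoc]

theorem A3_pol_slc_flat (R : RC) (β : ℕ → Ω) (md v : List El) (hv : v.length = md.length) :
    pol R β (slc R md (flat R md v)) = pol R β v := by
  ext k
  rw [coeff_pol, coeff_pol, slc, R1_getD_idx]
  split_ifs with hk
  · rw [R1_ev_map, ev]
    refine Finset.sum_congr rfl fun c hc => ?_
    rw [A3_getD_flat R md v (Finset.mem_range.1 hc) hk]
  · rw [List.getD_eq_default _ _ (by omega)]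

theorem IsHom.atT (h : IsHom R q β) {md : List El} {α : Ω} (hα : (mpol R β md).IsRoot α)
    (cs : List El) : ev (quot R md) (bq md β α) (atT R md cs) = (pol R β cs).eval α := by
  rw [ev_quot, Vale.Agent.P319.atT, A3_pol_slc_flat _ _ _ _ (nmV_hred R md cs).1]
  obtain ⟨u, hu⟩ := A3_dvd h md cs
  have := congrArg (eval α) hu
  rw [eval_sub, eval_mul, hα.eq_zero, zero_mul, sub_eq_zero] at this
  exact this.symm

theorem A3_pol_nil (R : RC) (β : ℕ → Ω) : pol R β [] = 0 := by simp [pol]

theorem IsHom.emb (h : IsHom R q β) {md : List El} {α : Ω} (hα : (mpol R β md).IsRoot α)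
    (a : El) : ev (quot R md) (bq md β α) (emb R md a) = ev R β a := by
  rw [Vale.Agent.P319.emb, h.atT hα, A3_pol_cons, A3_pol_nil]
  simp

theorem IsHom.gen (h : IsHom R q β) {md : List El} {α : Ω} (hα : (mpol R β md).IsRoot α) :
    ev (quot R md) (bq md β α) (gen R md) = α := by
  rw [Vale.Agent.P319.gen, h.atT hα, A3_pol_cons, A3_pol_cons, A3_pol_nil, h.rone, ev_nil]
  simp

theorem A3_eval_shift (R : RC) (β : ℕ → Ω) (l : List El) (s : El) (α : Ω) :
    (pol R β ((l.map fun _ => ([] : El)) ++ [s])).eval α = ev R β s * α ^ l.length := by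
  induction l with
  | nil => simp [A3_pol_cons, A3_pol_nil]
  | cons c l ih =>
    rw [List.map_cons, List.cons_append, A3_pol_cons, ev_nil, eval_add, eval_mul, ih, eval_C,
      eval_X, List.length_cons]
    ring

/-- `q` is a power of the characteristic -/
theorem IsHom.quot (h : IsHom R q β) (hp : R.1.Prime) {k : ℕ} (hq : q = R.1 ^ k)
    {md : List El} {α : Ω} (hα : (mpol R β md).IsRoot α) (hf : α ^ q = α) :
    IsHom (quot R md) q (bq md β α) := by
  refine ⟨h.pos, h.char, fun i hi j hj => ?_, ?_, fun a => ?_, h.two_lt⟩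
  · rw [dim_quot] at hi hj
    have hD : 0 < md.length := Nat.pos_of_mul_pos_left (Nat.zero_lt_of_lt hi)
    have hi' : i < (flat R md []).length := by rwa [A3_length_flat]
    have hj' : j < (flat R md []).length := by rwa [A3_length_flat]
    have e : sc (Vale.Agent.P319.quot R md) i j = Vale.Agent.P319.atT R md
        ((((md ++ md).take (i % md.length + j % md.length)).map fun _ => ([] : El)) ++
          [sc R (i / md.length) (j / md.length)]) := by
      simp only [sc, Vale.Agent.P319.quot, R1_getD_idx, if_pos hi', if_pos hj']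
    have h1 := Nat.mod_lt i hD
    have h2 := Nat.mod_lt j hD
    rw [e, h.atT hα, A3_eval_shift, List.length_take, List.length_append, min_eq_left (by omega),
      ← h.mul _ (Nat.div_lt_of_lt_mul (by rwa [mul_comm])) _
        (Nat.div_lt_of_lt_mul (by rwa [mul_comm])), bq, bq]
    ring
  · exact (h.emb hα (Vale.Agent.P319.rone R)).trans h.rone
  · have := Fact.mk hp
    have : CharP Ω R.1 := (CharP.charP_iff_prime_eq_zero hp).2 h.char
    rw [ev_quot, A3_eval_pol, hq, sum_pow_char_pow]
    refine Finset.sum_congr rfl fun j _ => ?_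
    rw [← hq, mul_pow, h.fix, ← pow_mul, mul_comm j, pow_mul, hf]

end Vale.Agent.P319
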