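import Mathlib

/-! BM: the mathematics of the reduction to split squarefree polynomials. -/

namespace Vale.Agent.P319
open Polynomial

theorem BM_card {p : ℕ} [Fact p.Prime] {g : (ZMod p)[X]} (hg : g ≠ 0) :
    Finite (AdjoinRoot g) ∧ Nat.card (AdjoinRoot g) = p ^ g.natDegree := by
  haveI := (AdjoinRoot.powerBasis hg).finite
  refine ⟨Module.finite_of_finite (ZMod p), ?_⟩
  rw [Module.natCard_eq_pow_finrank (K := ZMod p), (AdjoinRoot.powerBasis hg).finrank,
    AdjoinRoot.powerBasis_dim, Nat.card_zmod]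

theorem BM_trace {K : Type} [Field K] [Finite K] {p d : ℕ} (hp : p.Prime) (hd : 1 ≤ d)
    (hK : Nat.card K = p ^ d) : ∃ y : K, ∑ j ∈ Finset.range d, y ^ p ^ j ≠ 0 := by
  by_contra! h
  haveI := Fintype.ofFinite K
  obtain ⟨d, rfl⟩ := Nat.exists_eq_add_of_le' hd
  have h1 : (∑ j ∈ Finset.range d, (X : K[X]) ^ p ^ j).degree < (p ^ d : ℕ) :=
    (degree_sum_le _ _).trans_lt ((Finset.sup_lt_iff (WithBot.bot_lt_coe _)).2 fun j hj => by
      rw [degree_X_pow]
      exact_mod_cast Nat.pow_lt_pow_right hp.one_lt (Finset.mem_range.1 hj))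
  have h2 := monic_X_pow_add h1
  refine h2.ne_zero (eq_zero_of_natDegree_lt_card_of_eval_eq_zero _ (f := _root_.id)
    Function.injective_id (fun y => ?_) ?_)
  · simpa [eval_finsetSum, Finset.sum_range_succ, add_comm] using h y
  · rw [natDegree_add_eq_left_of_degree_lt (by rwa [degree_X_pow]), natDegree_X_pow,
      ← Nat.card_eq_fintype_card, hK]
    exact Nat.pow_lt_pow_right hp.one_lt (by omega)

/-- A reducible monic `g` either has a proper common factor with some `X ^ p ^ d - X`, or some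
trace `v` of a power of `X` has a split squarefree minimal polynomial of degree at least two. -/
theorem berlekamp {p : ℕ} [Fact p.Prime] {g : (ZMod p)[X]} (hg : g.Monic) (h0 : 0 < g.natDegree)
    (hr : ¬ Irreducible g) :
    ∃ d, 1 ≤ d ∧ d ≤ g.natDegree ∧
      ((¬ g ∣ X ^ p ^ d - X ∧ ¬ IsCoprime g (X ^ p ^ d - X)) ∨
      ∃ k < g.natDegree,
        2 ≤ (minpoly (ZMod p) (AdjoinRoot.mk g
          (∑ j ∈ Finset.range d, (X ^ k) ^ p ^ j))).natDegree ∧
        minpoly (ZMod p) (AdjoinRoot.mk g (∑ j ∈ Finset.range d, (X ^ k) ^ p ^ j)) ∣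
          X ^ p - X) := by
  have hp : p.Prime := Fact.out
  obtain ⟨g1, i1, h, rfl⟩ := exists_irreducible_of_natDegree_pos h0
  have hh : h ≠ 0 := right_ne_zero_of_mul hg.ne_zero
  have hu : ¬ IsUnit h := fun hu => hr ((irreducible_mul_isUnit hu).2 i1)
  obtain ⟨g2, i2, d2⟩ := WfDvdMonoid.exists_irreducible_factor hu hh
  have w1 : g1 ∣ X ^ p ^ g1.natDegree - X := by
    have := (i1.natDegree_dvd_iff_dvd_X_pow_card_pow_sub_X (n := g1.natDegree)).1 dvd_rfl
    rwa [Nat.card_zmod] at this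
  set d := g1.natDegree with hd
  have hd1 : 1 ≤ d := i1.natDegree_pos
  refine ⟨d, hd1, natDegree_le_of_dvd (dvd_mul_right _ _) hg.ne_zero, ?_⟩
  by_cases hw : g1 * h ∣ X ^ p ^ d - X
  swap
  · exact Or.inl ⟨hw, fun hc => i1.not_isUnit (hc.isUnit_of_dvd' (dvd_mul_right _ _) w1)⟩
  right
  have hc : IsCoprime g1 h :=
    ((galois_poly_separable p (p ^ d) (dvd_pow_self _ (by omega))).of_dvd hw).isCoprime
  set g := g1 * h
  haveI : Nontrivial (AdjoinRoot g) := AdjoinRoot.nontrivial _ (natDegree_pos_iff_degree_pos.1 h0).ne'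
  haveI := (AdjoinRoot.powerBasis hg.ne_zero).finite
  haveI : CharP (AdjoinRoot g) p := charP_of_injective_algebraMap
    (algebraMap (ZMod p) (AdjoinRoot g)).injective p
  have hF : ∀ y : AdjoinRoot g, y ^ p ^ d = y := fun y => by
    obtain ⟨b, rfl⟩ := AdjoinRoot.mk_surjective y
    have h1 : AdjoinRoot.root g ^ p ^ d = AdjoinRoot.root g := by
      have := AdjoinRoot.mk_eq_zero.2 hw
      rwa [map_sub, map_pow, AdjoinRoot.mk_X, sub_eq_zero] at this
    induction b using Polynomial.induction_on' with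
    | add a b ha hb => rw [map_add, add_pow_char_pow, ha, hb]
    | monomial n c =>
      rw [← C_mul_X_pow_eq_monomial, map_mul, map_pow, AdjoinRoot.mk_X, mul_pow, ← map_pow,
        ← map_pow, ZMod.pow_card_pow, pow_right_comm, h1]
  by_contra! hn
  have hT : ∀ y : AdjoinRoot g,
      ∑ j ∈ Finset.range d, y ^ p ^ j ∈ (algebraMap (ZMod p) (AdjoinRoot g)).range := by
    intro y
    have hy : y ∈ Submodule.span (ZMod p) (Set.range (AdjoinRoot.powerBasis hg.ne_zero).basis) := by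
      rw [Module.Basis.span_eq]; trivial
    induction hy using Submodule.span_induction with
    | mem y hy =>
      obtain ⟨k, rfl⟩ := hy
      by_contra hm
      have e : AdjoinRoot.mk g (∑ j ∈ Finset.range d, (X ^ (k : ℕ)) ^ p ^ j) =
          ∑ j ∈ Finset.range d, (AdjoinRoot.powerBasis hg.ne_zero).basis k ^ p ^ j := by
        simp
      refine hn k k.2 (e ▸ (minpoly.two_le_natDegree_iff (Algebra.IsIntegral.isIntegral _)).2 hm)
        (minpoly.dvd _ _ ?_)
      rw [e, map_sub, map_pow, aeval_X, sum_pow_char, sub_eq_zero]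
      simp only [← pow_mul, ← pow_succ]
      have h1 := Finset.sum_range_succ (fun j => (AdjoinRoot.powerBasis hg.ne_zero).basis k ^ p ^ j) d
      rw [Finset.sum_range_succ', hF, pow_zero, pow_one] at h1
      exact add_right_cancel h1
    | zero =>
      rw [Finset.sum_eq_zero fun j _ => zero_pow (pow_pos hp.pos _).ne']
      exact zero_mem _
    | add a b _ _ ha hb =>
      simp only [add_pow_char_pow, Finset.sum_add_distrib]
      exact add_mem ha hb
    | smul c a _ ha =>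
      simp only [Algebra.smul_def, mul_pow, ← map_pow, ZMod.pow_card_pow, ← Finset.mul_sum]
      exact mul_mem ⟨c, rfl⟩ ha
  haveI := Fact.mk i1
  obtain ⟨f1, c1⟩ := BM_card i1.ne_zero
  obtain ⟨y, hy⟩ := BM_trace hp hd1 c1
  have n2 : AdjoinRoot.mk g1 g2 ≠ 0 := fun h2 =>
    i1.not_isUnit (hc.isUnit_of_dvd' dvd_rfl ((AdjoinRoot.mk_eq_zero.1 h2).trans d2))
  obtain ⟨b, hb⟩ := AdjoinRoot.mk_surjective ((AdjoinRoot.mk g1 g2)⁻¹ * y)
  obtain ⟨c, hc'⟩ := hT (AdjoinRoot.mk g (g2 * b))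
  have e1 : g ∣ ∑ j ∈ Finset.range d, (g2 * b) ^ p ^ j - C c := by
    rw [← AdjoinRoot.mk_eq_zero, map_sub, map_sum, AdjoinRoot.mk_C, sub_eq_zero]
    simpa using hc'.symm
  have e2 : g2 ∣ C c := (dvd_iff_dvd_of_dvd_sub ((d2.mul_left g1).trans e1)).1
    (Finset.dvd_sum fun j _ => (dvd_mul_right _ _).trans (dvd_pow_self _ (pow_pos hp.pos _).ne'))
  obtain rfl : c = 0 := by
    by_contra h3
    exact i2.not_isUnit (isUnit_of_dvd_unit e2 (isUnit_C.2 (IsUnit.mk0 _ h3)))
  have e3 := AdjoinRoot.mk_eq_zero.2 ((dvd_mul_right g1 h).trans e1)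
  apply hy
  simpa [hb, n2] using e3

/-- A polynomial separating two roots of the minimal polynomial of `v` gives a zero divisor. -/
theorem zero_div {p : ℕ} [Fact p.Prime] {g v a : (ZMod p)[X]} (hg : g.Monic) {c c' : ZMod p}
    (hc : (minpoly (ZMod p) (AdjoinRoot.mk g v)).IsRoot c)
    (hc' : (minpoly (ZMod p) (AdjoinRoot.mk g v)).IsRoot c') (h1 : a.IsRoot c)
    (h2 : ¬ a.IsRoot c') : ¬ g ∣ a.comp v ∧ ¬ IsCoprime g (a.comp v) := by
  haveI := (AdjoinRoot.powerBasis hg.ne_zero).finite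
  have hi : IsIntegral (ZMod p) (AdjoinRoot.mk g v) := Algebra.IsIntegral.isIntegral _
  have e : AdjoinRoot.mk g (a.comp v) = aeval (AdjoinRoot.mk g v) a := by
    rw [← AdjoinRoot.aeval_eq, aeval_comp, AdjoinRoot.aeval_eq]
  refine ⟨fun h => h2 (hc'.dvd (minpoly.dvd _ _ (e ▸ AdjoinRoot.mk_eq_zero.2 h))), ?_⟩
  rintro ⟨s, t, hst⟩
  obtain ⟨μ, hμ⟩ := dvd_iff_isRoot.2 hc
  obtain ⟨a', rfl⟩ := dvd_iff_isRoot.2 h1
  have e1 := congrArg (AdjoinRoot.mk g) hst
  rw [map_add, map_mul, map_mul, AdjoinRoot.mk_self, mul_zero, zero_add, e, map_one] at e1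
  have e2 := minpoly.aeval (ZMod p) (AdjoinRoot.mk g v)
  rw [hμ, map_mul] at e2
  have e3 : aeval (AdjoinRoot.mk g v) μ = 0 := by
    rw [map_mul] at e1
    linear_combination (AdjoinRoot.mk g t * aeval (AdjoinRoot.mk g v) a') * e2 -
      aeval (AdjoinRoot.mk g v) μ * e1
  have h0 : μ ≠ 0 := by rintro rfl; exact minpoly.ne_zero hi (by rw [hμ, mul_zero])
  have := natDegree_le_of_dvd (minpoly.dvd _ _ e3) h0
  rw [hμ, natDegree_mul (X_sub_C_ne_zero _) h0, natDegree_X_sub_C] at this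
  omega

theorem natDegree_minpoly_le {p : ℕ} [Fact p.Prime] {g : (ZMod p)[X]} (hg : g.Monic)
    (y : AdjoinRoot g) :
    (minpoly (ZMod p) y).Monic ∧ (minpoly (ZMod p) y).natDegree ≤ g.natDegree := by
  haveI := (AdjoinRoot.powerBasis hg.ne_zero).finite
  refine ⟨minpoly.monic (Algebra.IsIntegral.isIntegral _), ?_⟩
  have := natDegree_le_of_dvd (minpoly.dvd (ZMod p) y (Algebra.aeval_self_charpoly_lmul y))
    (LinearMap.charpoly_monic _).ne_zero
  rwa [LinearMap.charpoly_natDegree, (AdjoinRoot.powerBasis hg.ne_zero).finrank,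
    AdjoinRoot.powerBasis_dim] at this

end Vale.Agent.P319
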