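import Mathlib

/-! The curve `y ^ l = f(x)` over an algebraically closed field: function field, points,
valuations, divisors. -/

namespace Vale.Agent.P319
open Polynomial

/-- The function field `L` of `y ^ l = f(x)`, `deg f = l * n1`, with its points. A point has
coordinates `px` (`none` at infinity) and `py` (the value of `y`, at infinity of `y / x ^ n1`). -/
structure Model (K L Pt : Type) [Field K] [Field L] [Algebra K L] where
  l : ℕ
  n1 : ℕ
  q0 : ℕ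
  f : K[X]
  ζ : K
  x : L
  y : L
  σ : L ≃ₐ[K] L
  Φ : L ≃+* L
  ord : Pt → L → ℤ
  s : Equiv.Perm Pt
  φ : Equiv.Perm Pt
  px : Pt → Option K
  py : Pt → K
  closed : IsAlgClosed K
  prime : l.Prime
  n1_pos : 0 < n1
  q0_pos : 0 < q0
  monic : f.Monic
  natDegree : f.natDegree = l * n1
  separable : f.Separable
  prim : IsPrimitiveRoot ζ l
  ζ_fix : ζ ^ q0 = ζ
  root_fix : ∀ α, f.IsRoot α → α ^ q0 = α
  yl : y ^ l = aeval x f
  gen : ∀ u : L, ∃ (d : K[X]) (g : ℕ → K[X]), d ≠ 0 ∧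
    aeval x d * u = ∑ b ∈ Finset.range l, aeval x (g b) * y ^ b
  indep : ∀ g : ℕ → K[X], ∑ b ∈ Finset.range l, aeval x (g b) * y ^ b = 0 → ∀ b < l, g b = 0
  σ_x : σ x = x
  σ_y : σ y = algebraMap K L ζ * y
  Φ_c : ∀ c, Φ (algebraMap K L c) = algebraMap K L (c ^ q0)
  Φ_x : Φ x = x
  Φ_y : Φ y = y
  ord_zero : ∀ Q, ord Q 0 = 0
  ord_mul : ∀ Q u v, u ≠ 0 → v ≠ 0 → ord Q (u * v) = ord Q u + ord Q v
  ord_add : ∀ Q u v, u ≠ 0 → v ≠ 0 → u + v ≠ 0 → min (ord Q u) (ord Q v) ≤ ord Q (u + v)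
  ord_c : ∀ Q c, ord Q (algebraMap K L c) = 0
  res : ∀ Q u, ord Q u = 0 → ∃ c, u = algebraMap K L c ∨ 1 ≤ ord Q (u - algebraMap K L c)
  ord_σ : ∀ Q u, ord (s Q) (σ u) = ord Q u
  ord_Φ : ∀ Q u, ord (φ Q) (Φ u) = ord Q u
  px_s : ∀ Q, px (s Q) = px Q
  py_s : ∀ Q, py (s Q) = ζ⁻¹ * py Q
  px_φ : ∀ Q, px (φ Q) = (px Q).map (· ^ q0)
  py_φ : ∀ Q, py (φ Q) = py Q ^ q0
  pt_eq : ∀ Q, py Q ^ l = (px Q).elim 1 fun a => f.eval a
  pt_inj : ∀ Q Q', px Q = px Q' → py Q = py Q' → Q = Q'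
  pt_ex : ∀ (o : Option K) (c : K), c ^ l = o.elim 1 (fun a => f.eval a) →
    ∃ Q, px Q = o ∧ py Q = c
  ord_x : ∀ Q a, px Q = some a → py Q ≠ 0 → ord Q (x - algebraMap K L a) = 1
  ord_y : ∀ Q a, px Q = some a → 1 ≤ ord Q (y - algebraMap K L (py Q))
  ord_xP : ∀ Q a, px Q = some a → py Q = 0 → ord Q (x - algebraMap K L a) = l
  ord_x_inf : ∀ Q, px Q = none → ord Q x = -1
  ord_y_inf : ∀ Q, px Q = none → 1 ≤ ord Q (y / x ^ n1 - algebraMap K L (py Q))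

namespace Model
variable {K L Pt : Type} [Field K] [Field L] [Algebra K L] (Y : Model K L Pt)

/-- the degree of `f` -/
def n : ℕ := Y.l * Y.n1
/-- `u` vanishes to order at least `k` at `Q` -/
def Ge (Q : Pt) (k : ℤ) (u : L) : Prop := u = 0 ∨ k ≤ Y.ord Q u
/-- `u` has the value `c` at `Q` -/
def Val (Q : Pt) (u : L) (c : K) : Prop := Y.Ge Q 1 (u - algebraMap K L c)

open Classical in
noncomputable def mkD (g : Pt → ℤ) : Pt →₀ ℤ :=
  if h : (Function.support g).Finite then Finsupp.ofSupportFinite g h else 0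
/-- principal divisor -/
noncomputable def dv (u : L) : Pt →₀ ℤ := mkD fun Q => Y.ord Q u
open Classical in
/-- the fibre at infinity -/
noncomputable def H : Pt →₀ ℤ := mkD fun Q => if Y.px Q = none then 1 else 0
open Classical in
/-- the sum of the ramification points -/
noncomputable def Ram : Pt →₀ ℤ := mkD fun Q => if Y.py Q = 0 then 1 else 0
/-- the rational point at infinity -/
noncomputable def inf : Pt := (Y.pt_ex none 1 (by simp)).choose
open Classical in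
/-- the ramification point over the root `α` -/
noncomputable def P (α : K) : Pt :=
  if h : ∃ Q, Y.px Q = some α ∧ Y.py Q = 0 then h.choose else Y.inf

/-- action of `σ` on divisors -/
noncomputable def sE : Module.End ℤ (Pt →₀ ℤ) := Finsupp.lmapDomain ℤ ℤ Y.s
/-- action of Frobenius on divisors -/
noncomputable def φE : Module.End ℤ (Pt →₀ ℤ) := Finsupp.lmapDomain ℤ ℤ Y.φ
noncomputable def lam : Module.End ℤ (Pt →₀ ℤ) := 1 - Y.sE
/-- `uE j = 1 + σ + ... + σ ^ (j - 1)` -/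
noncomputable def uE (j : ℕ) : Module.End ℤ (Pt →₀ ℤ) := ∑ i ∈ Finset.range j, Y.sE ^ i
/-- the divisors that are zero in `G = Pic / H` -/
noncomputable def Prin : Submodule ℤ (Pt →₀ ℤ) :=
  Submodule.span ℤ ({D | ∃ u, u ≠ 0 ∧ D = Y.dv u} ∪ {Y.H})
/-- the divisor does not contain ramification points -/
def Avoid (Z : Pt →₀ ℤ) : Prop := ∀ Q, Y.py Q = 0 → Z Q = 0

theorem Ge.add {Y : Model K L Pt} {Q : Pt} {k : ℤ} {u v : L} (hu : Y.Ge Q k u)
    (hv : Y.Ge Q k v) : Y.Ge Q k (u + v) := by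
  by_cases h0 : u = 0
  · simpa [h0] using hv
  by_cases h1 : v = 0
  · simpa [h1] using hu
  by_cases h2 : u + v = 0
  · exact Or.inl h2
  exact Or.inr (le_trans (le_min (hu.resolve_left h0) (hv.resolve_left h1))
    (Y.ord_add Q u v h0 h1 h2))

theorem Ge.smul {Y : Model K L Pt} {Q : Pt} {k : ℤ} {u : L} (c : K) (hu : Y.Ge Q k u) :
    Y.Ge Q k (c • u) := by
  by_cases h0 : u = 0
  · exact Or.inl (by simp [h0])
  by_cases h1 : c = 0
  · exact Or.inl (by simp [h1])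
  refine Or.inr ?_
  rw [Algebra.smul_def, Y.ord_mul Q _ _ (by simpa using h1) h0, Y.ord_c, zero_add]
  exact hu.resolve_left h0

/-- the Riemann-Roch space -/
def LL (D : Pt →₀ ℤ) : Submodule K L where
  carrier := {u | ∀ Q, Y.Ge Q (-D Q) u}
  add_mem' hu hv Q := (hu Q).add (hv Q)
  zero_mem' _ := Or.inl rfl
  smul_mem' c _ hu Q := (hu Q).smul c

/-- `W` consists of sections of `D` without common zero -/
def Bpf (W : Submodule K L) (D : Pt →₀ ℤ) : Prop :=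
  W ≤ Y.LL D ∧ ∀ Q, ∃ u ∈ W, u ≠ 0 ∧ Y.ord Q u = -D Q

/-- partial norm `∏_{i<j} σ ^ i ψ` -/
noncomputable def nj (ψ : L) (j : ℕ) : L := ∏ i ∈ Finset.range j, (Y.σ ^ i) ψ

/-- the function with coefficient vector `w`; `x ^ a * y ^ b` has index `b * N + a` -/
noncomputable def fn (N : ℕ) : (ℕ → K) →ₗ[K] L :=
  ∑ b ∈ Finset.range Y.l, ∑ a ∈ Finset.range N,
    (LinearMap.proj (b * N + a) : (ℕ → K) →ₗ[K] K).smulRight (Y.x ^ a * Y.y ^ b)

/-- the solution space of the division step (`β α` is the chosen root at the root `α` of `f`) -/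
def SS (Z : Pt →₀ ℤ) (e : ℕ) (β : K → K) (t : ℕ) (z : ℕ → L) : Prop :=
  (∀ j < Y.l, z j ∈ Y.LL (((j * e + (2 * Y.n + 1) : ℕ) : ℤ) • Y.H - Y.uE j Z -
    Finsupp.single Y.inf (t : ℤ))) ∧
  ∀ α, Y.f.IsRoot α → ∀ c < Y.l, Y.Ge (Y.P α) c
    (∑ j ∈ Finset.range Y.l, (Y.ζ ^ ((Y.l - j) * c) * β α ^ (Y.l - 1 - j)) • z j)

/-- the data of a solution of the division problem: `Z = lam E + div ψ + e H` -/
structure Sol (Z : Pt →₀ ℤ) (e : ℕ) (β : K → K) (ψ : L) (E : Pt →₀ ℤ) : Prop where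
  ne : ψ ≠ 0
  eq : Z = Y.lam E + Y.dv ψ + (e : ℤ) • Y.H
  avZ : Y.Avoid Z
  avE : Y.Avoid E
  β_ne : ∀ α, Y.f.IsRoot α → β α ≠ 0
  val : ∀ α, Y.f.IsRoot α → Y.Val (Y.P α) ψ (β α)

end Model
end Vale.Agent.P319
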