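import Vale.Agent.P319.A3
import Vale.Agent.P319.Curve

/-! Codes for functions and divisors on the curve. -/

namespace Vale.Agent.P319
open Vale.Agent.Common.TreeTM Vale.Agent.P337

/-- context: ring code, `q`, the polynomial `f`, `ζ`, nonresidue `η`, `l` and `N` in unary -/
abbrev Cx := RC × ℕ × List El × El × El × List ℕ × List ℕ
/-- matrices -/
abbrev Mx := List (List El)

def cR (c : Cx) : RC := c.1
def cq (c : Cx) : ℕ := c.2.1
def cmd (c : Cx) : List El := c.2.2.1
def cz (c : Cx) : El := c.2.2.2.1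
def cη (c : Cx) : El := c.2.2.2.2.1
def cL (c : Cx) : List ℕ := c.2.2.2.2.2.1
def cN (c : Cx) : List ℕ := c.2.2.2.2.2.2
/-- a list of length `l * N` -/
def wd (c : Cx) : List ℕ := (cL c).flatMap fun _ => cN c
/-- the ring code of `R[T] / f` -/
def cA (c : Cx) : RC := quot (cR c) (cmd c)
/-- base change to `R[T] / f` -/
def lift (c : Cx) : Cx :=
  (cA c, cq c, (cmd c).map (emb (cR c) (cmd c)), emb (cR c) (cmd c) (cz c),
    emb (cR c) (cmd c) (cη c), cL c, cN c)
/-- the `y ^ 0` component of a function as an element of `R[T] / f` -/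
def atP (c : Cx) (u : List El) : El := atT (cR c) (cmd c) (u.take (cN c).length)
/-- the standard level `(n + 1) ^ 6` -/
def lvM (c : Cx) : ℕ := ((cmd c).length + 1) ^ 6

section tc
variable {α : Type} [Enc α] {c : α → Cx} {u : α → List El}
@[fun_prop] theorem tc_cR (h : TC 0 c) : TC 0 fun a => cR (c a) := by unfold cR; fun_prop
@[fun_prop] theorem tc_cq (h : TC 0 c) : TC 0 fun a => cq (c a) := by unfold cq; fun_prop
@[fun_prop] theorem tc_cmd (h : TC 0 c) : TC 0 fun a => cmd (c a) := by unfold cmd; fun_prop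
@[fun_prop] theorem tc_cz (h : TC 0 c) : TC 0 fun a => cz (c a) := by unfold cz; fun_prop
@[fun_prop] theorem tc_cη (h : TC 0 c) : TC 0 fun a => cη (c a) := by unfold cη; fun_prop
@[fun_prop] theorem tc_cL (h : TC 0 c) : TC 0 fun a => cL (c a) := by unfold cL; fun_prop
@[fun_prop] theorem tc_cN (h : TC 0 c) : TC 0 fun a => cN (c a) := by unfold cN; fun_prop
@[fun_prop] theorem tc_wd (h : TC 0 c) : TC 0 fun a => wd (c a) := by unfold wd; fun_prop
@[fun_prop] theorem tc_cA (h : TC 0 c) : TC 0 fun a => cA (c a) := by unfold cA; fun_prop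
@[fun_prop] theorem tc_lift (h : TC 0 c) : TC 0 fun a => lift (c a) := by unfold lift; fun_prop
@[fun_prop] theorem tc_atP (h : TC 0 c) (hu : TC 0 u) : TC 0 fun a => atP (c a) (u a) := by
  unfold atP; fun_prop
@[fun_prop] theorem tc_lvM (h : TC 0 c) : TC 0 fun a => lvM (c a) := by
  have h1 : TC 0 fun a => (cmd (c a)).length + 1 := by fun_prop
  have h2 := (h1.mul h1).mul h1
  refine (h2.mul h2).of_eq fun a => ?_
  unfold lvM; ring
end tc

theorem length_wd (c : Cx) : (wd c).length = (cL c).length * (cN c).length := by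
  simp [wd, List.length_flatMap]

/-- shape of a function vector -/
def ShV (c : Cx) (u : List El) : Prop := NmV (cR c) (wd c).length u
/-- shape of a standard matrix -/
def Sh (c : Cx) (W : Mx) : Prop := NmL (cR c) (wd c).length (wd c).length W
/-- shape of a standard matrix with a degree tag -/
def ShS (c : Cx) (w : ℕ × Mx) : Prop :=
  w.1 ≤ (cL c).length * ((cmd c).length * (cmd c).length + 1) ∧ Sh c w.2

variable {K L Pt : Type} [Field K] [Field L] [Algebra K L]

/-- the context `c` describes the model `Y` under the homomorphism `b` -/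
structure Sem (Y : Model K L Pt) (m : ℕ) (c : Cx) (b : ℕ → K) : Prop where
  hom : IsHom (cR c) (cq c) b
  prime : (cR c).1.Prime
  qp : ∃ k, Y.q0 = (cR c).1 ^ k
  qm : cq c = Y.q0 ^ m
  m_pos : 0 < m
  f_eq : mpol (cR c) b (cmd c) = Y.f
  ζ_eq : ev (cR c) b (cz c) = Y.ζ
  l_eq : (cL c).length = Y.l
  η_ne : ev (cR c) b (cη c) ≠ 0
  η_non : ev (cR c) b (cη c) ^ ((cq c - 1) / Y.l) ≠ 1
  dvd : Y.l ∣ cq c - 1
  N_ge : (Y.n + 1) ^ 9 ≤ (cN c).length
  p_gt : Y.n * (Y.l * (cN c).length) < (cR c).1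

/-- value of an element of `R[T] / f` at `α` -/
def evA (c : Cx) (b : ℕ → K) (α : K) (a : El) : K := ev (cA c) (bq (cmd c) b α) a
/-- the function coded by a vector -/
noncomputable def fv (Y : Model K L Pt) (c : Cx) (b : ℕ → K) (u : List El) : L :=
  Y.fn (cN c).length (vec (cR c) b u)
/-- the space of functions spanned by the rows -/
noncomputable def Sp (Y : Model K L Pt) (c : Cx) (b : ℕ → K) (W : Mx) : Submodule K L :=
  Submodule.span K {u | ∃ v ∈ W, u = fv Y c b v}
/-- `W` represents the effective divisor `Z` -/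
def Rep (Y : Model K L Pt) (c : Cx) (b : ℕ → K) (W : Mx) (Z : Pt →₀ ℤ) : Prop :=
  0 ≤ Z ∧ Sp Y c b W = Y.LL ((((Y.n + 1) ^ 6 : ℕ) : ℤ) • Y.H - Z)
/-- the degree bound for represented divisors -/
def Small (Y : Model K L Pt) (Z : Pt →₀ ℤ) : Prop :=
  Finsupp.degree Z ≤ (((Y.n + 1) ^ 5 : ℕ) : ℤ)
/-- `w` represents the class of `D` by a reduced divisor of known degree -/
def Std (Y : Model K L Pt) (c : Cx) (b : ℕ → K) (w : ℕ × Mx) (D : Pt →₀ ℤ) : Prop :=
  ∃ Z, Rep Y c b w.2 Z ∧ Y.Avoid Z ∧ Finsupp.degree Z = w.1 ∧ w.1 ≤ Y.l * (Y.n ^ 2 + 1) ∧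
    Z - D ∈ Y.Prin

end Vale.Agent.P319
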