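import Vale.Agent.P319.Code
import Vale.Agent.P319.A1

/-! Folds with normalized states. -/

namespace Vale.Agent.P319
open Vale.Agent.Common.TreeTM Vale.Agent.P337

variable {α γ : Type} [Enc α] [Enc γ] {c : α → Cx}

theorem bd_Sh (hc : TC 0 c) : Bd 0 fun a =>
    9 * ((wd (c a)).length + 1) * ((wd (c a)).length + 1) * sz (cR (c a)) ^ 2 :=
  A1_bd (R := fun a => cR (c a)) (h := fun a => wd (c a)) (w := fun a => wd (c a))
    (by fun_prop) (by fun_prop) (by fun_prop)

theorem tc_fold_Sh (hc : TC 0 c) {f : α → Mx → γ → Mx} {i : α → Mx} {l : α → List γ}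
    (hf : TC 0 fun p : α × Mx × γ => f p.1 p.2.1 p.2.2) (hi : TC 0 i) (hl : TC 0 l)
    (h0 : ∀ a, Sh (c a) (i a)) (hs : ∀ a W x, Sh (c a) (f a W x)) :
    TC 0 fun a => (l a).foldl (f a) (i a) :=
  TC.foldl_inv hf hi hl (bd_Sh hc) (fun a _ W => Sh (c a) W) h0
    (fun a _ W x _ _ => hs a W x) fun _ _ _ _ h => NmL.sz_le h

theorem bd_ShS (hc : TC 0 c) : ∃ S : α → ℕ, Bd 0 S ∧ ∀ a w, ShS (c a) w → sz w ≤ S a := by
  have h1 : TC 0 fun a => (cL (c a)).length *
      ((cmd (c a)).length * (cmd (c a)).length + 1) := by fun_prop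
  refine ⟨_, ((((Bd.const 0 4).mul h1.bd).add (Bd.const 0 2)).add (bd_Sh hc)), fun a w h => ?_⟩
  have h2 := sz_nat_mono h.1
  have h3 := NmL.sz_le h.2
  rw [sz_prod]
  omega

theorem tc_fold_ShS (hc : TC 0 c) {f : α → ℕ × Mx → γ → ℕ × Mx} {i : α → ℕ × Mx}
    {l : α → List γ} (hf : TC 0 fun p : α × (ℕ × Mx) × γ => f p.1 p.2.1 p.2.2) (hi : TC 0 i)
    (hl : TC 0 l) (h0 : ∀ a, ShS (c a) (i a)) (hs : ∀ a W x, ShS (c a) (f a W x)) :
    TC 0 fun a => (l a).foldl (f a) (i a) := by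
  obtain ⟨S, h1, h2⟩ := bd_ShS hc
  exact TC.foldl_inv hf hi hl h1 (fun a _ W => ShS (c a) W) h0
    (fun a _ W x _ _ => hs a W x) fun a _ w _ h => h2 a w h

omit [Enc γ] in
theorem foldl_inv_len {β : Type} (P : ℕ → β → Prop) (f : β → γ → β) (l : List γ) (i : β)
    (h0 : P 0 i) (hs : ∀ k acc x, k < l.length → P k acc → P (k + 1) (f acc x)) :
    P l.length (l.foldl f i) := by
  have : ∀ k ≤ l.length, P k ((l.take k).foldl f i) := by
    intro k
    induction k with
    | zero => intro _; exact h0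
    | succ k ih =>
      intro hk
      rw [List.take_succ_eq_append_getElem (show k < l.length by omega), List.foldl_append]
      exact hs _ _ _ (by omega) (ih (by omega))
  simpa using this _ le_rfl

end Vale.Agent.P319
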