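import Vale.Agent.P319.T1v

/-! T1b: existence of the valuations, through embeddings into Laurent series. -/

namespace Vale.Agent.P319
open Polynomial

section

variable {K : Type} [Field K]

/-- power series as Laurent series -/
noncomputable def t1bι : PowerSeries K →ₐ[K] LaurentSeries K :=
  { HahnSeries.ofPowerSeries ℤ K with commutes' := fun _ => rfl }

/-- the constant coefficient -/
noncomputable def t1bc : PowerSeries K →ₐ[K] K :=
  { PowerSeries.constantCoeff (R := K) with commutes' := fun c => by simp }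

theorem t1bι_apply (s : PowerSeries K) : t1bι s = HahnSeries.ofPowerSeries ℤ K s := rfl

theorem t1bc_apply (s : PowerSeries K) : t1bc s = PowerSeries.constantCoeff s := rfl

theorem t1bι_inj : Function.Injective (t1bι (K := K)) := HahnSeries.ofPowerSeries_injective

theorem t1bc_X : t1bc (PowerSeries.X : PowerSeries K) = 0 := PowerSeries.constantCoeff_X

theorem t1bc_C (c : K) : t1bc (PowerSeries.C c) = c := PowerSeries.constantCoeff_C c

theorem t1bc_aeval (s : PowerSeries K) (g : K[X]) : t1bc (aeval s g) = g.eval (t1bc s) := by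
  rw [← aeval_algHom_apply, coe_aeval_eq_eval]

theorem t1b_alg (c : K) : algebraMap K (LaurentSeries K) c = HahnSeries.C c :=
  LaurentSeries.algebraMap_apply K c

theorem t1b_isVal : IsVal K fun s : LaurentSeries K => s.order where
  zero := HahnSeries.order_zero
  mul _ _ hu hw := HahnSeries.order_mul hu hw
  add _ _ _ _ h := HahnSeries.min_order_le_order_add h
  const c := by rw [t1b_alg, HahnSeries.order_C]
  res u h := by
    refine ⟨u.coeff 0, ?_⟩
    by_cases h0 : u - algebraMap K (LaurentSeries K) (u.coeff 0) = 0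
    · exact Or.inl (sub_eq_zero.1 h0)
    refine Or.inr ((HahnSeries.le_order_iff_forall h0).2 fun j hj => ?_)
    rw [t1b_alg, HahnSeries.coeff_sub, HahnSeries.C_apply]
    by_cases hj0 : j = 0
    · simp [hj0]
    · rw [HahnSeries.coeff_single_of_ne hj0, sub_zero]
      exact HahnSeries.coeff_eq_zero_of_lt_order (by omega)

theorem t1b_order_X : (t1bι (PowerSeries.X : PowerSeries K)).order = 1 := by
  rw [t1bι_apply, HahnSeries.ofPowerSeries_X, HahnSeries.order_single one_ne_zero]

theorem t1b_neg (s : PowerSeries K) {j : ℤ} (hj : j < 0) : (t1bι s).coeff j = 0 := by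
  rw [t1bι_apply, PowerSeries.coeff_coe, if_pos hj]

theorem t1b_zero (s : PowerSeries K) : (t1bι s).coeff 0 = t1bc s := by
  rw [t1bι_apply, PowerSeries.coeff_coe, if_neg (lt_irrefl _), t1bc_apply]
  simp

theorem t1b_order_pos {s : PowerSeries K} (h0 : t1bι s ≠ 0) (h : t1bc s = 0) :
    1 ≤ (t1bι s).order := by
  refine (HahnSeries.le_order_iff_forall h0).2 fun j hj => ?_
  by_cases hj0 : j = 0
  · rw [hj0, t1b_zero, h]
  · exact t1b_neg s (by omega)

theorem t1b_order_zero {s : PowerSeries K} (h : t1bc s ≠ 0) : (t1bι s).order = 0 := by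
  have h1 : (t1bι s).coeff 0 ≠ 0 := by rwa [t1b_zero]
  refine le_antisymm (HahnSeries.order_le_of_coeff_ne_zero h1) ?_
  exact (HahnSeries.le_order_iff_forall (HahnSeries.ne_zero_of_coeff_ne_zero h1)).2
    fun j hj => t1b_neg s hj

theorem t1b_hensel (F : (PowerSeries K)[X]) (hF : F.Monic) (c : K)
    (h0 : t1bc (F.eval (algebraMap K _ c)) = 0)
    (h1 : t1bc (F.derivative.eval (algebraMap K _ c)) ≠ 0) :
    ∃ B, F.eval B = 0 ∧ t1bc B = c := by
  obtain ⟨B, hB, hc⟩ := HenselianRing.is_henselian (I := Ideal.span {PowerSeries.X}) F hF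
    (algebraMap K _ c) (Ideal.mem_span_singleton.2 (PowerSeries.X_dvd_iff.2 h0))
    (IsUnit.map _ (PowerSeries.isUnit_iff_constantCoeff.2 (isUnit_iff_ne_zero.2 h1)))
  refine ⟨B, hB, ?_⟩
  have h2 : t1bc (B - algebraMap K _ c) = 0 :=
    PowerSeries.X_dvd_iff.1 (Ideal.mem_span_singleton.1 hc)
  rw [map_sub, AlgHom.commutes, sub_eq_zero] at h2
  exact h2

theorem t1b_root {l : ℕ} (hl : l ≠ 0) (hl' : (l : K) ≠ 0) (s : PowerSeries K) {c : K}
    (hc : c ^ l = t1bc s) (h0 : c ≠ 0) : ∃ B, B ^ l = s ∧ t1bc B = c := by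
  obtain ⟨B, h1, h2⟩ := t1b_hensel (X ^ l - C s) (monic_X_pow_sub_C _ hl) c
    (by simp [hc, t1bc_C]) (by simp [derivative_X_pow, hl', h0, t1bc_C])
  exact ⟨B, by simpa [sub_eq_zero] using h1, h2⟩

end

variable {K L : Type} [Field K] [Field L] [Algebra K L] {l n1 : ℕ} {f : K[X]} {x y : L}

theorem t1b_val (g : L →ₐ[K] LaurentSeries K) : IsVal K fun u => (g u).order :=
  t1b_isVal.comp (g : L →+* LaurentSeries K) id Function.surjective_id g.commutes

theorem FF.val_fin (h : FF K l n1 f x y) {a c : K} (hc : c ^ l = f.eval a) (h0 : c ≠ 0) :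
    ∃ v : L → ℤ, IsVal K v ∧ v (x - algebraMap K L a) = 1 ∧ 1 ≤ v (y - algebraMap K L c) := by
  have := h.closed
  obtain ⟨B, h1, h2⟩ := t1b_root h.prime.ne_zero h.l_ne
    (aeval (algebraMap K _ a + PowerSeries.X) f) (c := c)
    (by rw [t1bc_aeval, map_add, AlgHom.commutes, t1bc_X, add_zero]; exact hc) h0
  have e : t1bι (algebraMap K _ a + PowerSeries.X) - algebraMap K (LaurentSeries K) a =
      t1bι PowerSeries.X := by rw [map_add, AlgHom.commutes, add_sub_cancel_left]
  obtain ⟨g, gx, gy⟩ := h.univ (t1bι (algebraMap K _ a + PowerSeries.X)) (t1bι B)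
    (t1b_isVal.transcendental (a := a) (by rw [e, t1b_order_X]; exact one_ne_zero))
    (by rw [← map_pow, h1, aeval_algHom_apply])
  refine ⟨_, t1b_val g, by rw [map_sub, gx, AlgHom.commutes, e, t1b_order_X], ?_⟩
  have e2 : g (y - algebraMap K L c) = t1bι (B - algebraMap K _ c) := by
    rw [map_sub, map_sub, gy, AlgHom.commutes, AlgHom.commutes]
  have e3 : g (y - algebraMap K L c) ≠ 0 :=
    (map_ne_zero_iff g g.injective).2 (by simpa using h.y_sub_ne (C c))
  rw [e2] at e3 ⊢
  exact t1b_order_pos e3 (by rw [map_sub, h2, AlgHom.commutes]; exact sub_self _)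

theorem FF.val_ram (h : FF K l n1 f x y) {a : K} (ha : f.IsRoot a) :
    ∃ v : L → ℤ, IsVal K v ∧ v (x - algebraMap K L a) = l ∧ 1 ≤ v y := by
  have := h.closed
  obtain ⟨q, hq, hq0⟩ := h.exists_cofactor ha
  have hd : 0 < f.natDegree := by rw [h.natDegree]; exact Nat.mul_pos h.prime.pos h.n1_pos
  have hev : ∀ (r : K[X]) (s : PowerSeries K), (r.map (algebraMap K (PowerSeries K))).eval s =
      aeval s r := fun r s => eval_map_algebraMap r s
  obtain ⟨A, h1, h2⟩ := t1b_hensel
    (f.map (algebraMap K (PowerSeries K)) - C (PowerSeries.X ^ l))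
    ((h.monic.map _).sub_of_left (by
      rw [degree_map]
      exact degree_C_le.trans_lt (natDegree_pos_iff_degree_pos.1 hd))) a
    (by
      rw [eval_sub, hev, eval_C, map_sub, t1bc_aeval, map_pow, t1bc_X, AlgHom.commutes,
        zero_pow h.prime.ne_zero, sub_zero]
      exact ha)
    (by
      rw [derivative_sub, derivative_C, sub_zero, derivative_map, hev, t1bc_aeval, AlgHom.commutes]
      simpa using h.separable.aeval_derivative_ne_zero (x := a) (by simpa using ha))
  rw [eval_sub, hev, eval_C, sub_eq_zero] at h1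
  have hX : t1bι (PowerSeries.X : PowerSeries K) ≠ 0 :=
    (map_ne_zero_iff _ t1bι_inj).2 PowerSeries.X_ne_zero
  have e1 : t1bι (PowerSeries.X : PowerSeries K) ^ l =
      (t1bι A - algebraMap K _ a) * t1bι (aeval A q) := by
    rw [← map_pow, ← h1, hq, map_mul, map_mul, map_sub, aeval_X, aeval_C, map_sub, AlgHom.commutes]
  have e2 := pow_ne_zero l hX
  rw [e1] at e2
  have e3 : (t1bι A - algebraMap K (LaurentSeries K) a).order = l := by
    have h3 := t1b_isVal.mul _ _ (left_ne_zero_of_mul e2) (right_ne_zero_of_mul e2)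
    have h4 := t1b_isVal.pow (t1bι (PowerSeries.X : PowerSeries K)) l
    rw [← e1] at h3
    rw [h3, t1b_order_X, t1b_order_zero (by rwa [t1bc_aeval, h2])] at h4
    simpa using h4
  obtain ⟨g, gx, gy⟩ := h.univ (t1bι A) (t1bι PowerSeries.X)
    (t1b_isVal.transcendental (a := a) (by rw [e3]; exact_mod_cast h.prime.ne_zero))
    (by rw [← map_pow, ← h1, aeval_algHom_apply])
  exact ⟨_, t1b_val g, by rw [map_sub, gx, AlgHom.commutes, e3], by rw [gy, t1b_order_X]⟩

theorem FF.val_inf (h : FF K l n1 f x y) {c : K} (hc : c ^ l = 1) :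
    ∃ v : L → ℤ, IsVal K v ∧ v x = -1 ∧ 1 ≤ v (y / x ^ n1 - algebraMap K L c) := by
  have := h.closed
  have h0 : c ≠ 0 := by
    rintro rfl
    rw [zero_pow h.prime.ne_zero] at hc
    exact zero_ne_one hc
  obtain ⟨B, h1, h2⟩ := t1b_root h.prime.ne_zero h.l_ne (aeval PowerSeries.X f.reverse) (c := c)
    (by rw [t1bc_aeval, t1bc_X, ← coeff_zero_eq_eval_zero, coeff_zero_reverse, h.monic, hc]) h0
  have hX : t1bι (PowerSeries.X : PowerSeries K) ≠ 0 :=
    (map_ne_zero_iff _ t1bι_inj).2 PowerSeries.X_ne_zero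
  have e1 : ((t1bι (PowerSeries.X : PowerSeries K))⁻¹).order = -1 := by
    have := t1b_isVal.inv (t1bι (PowerSeries.X : PowerSeries K))
    rwa [t1b_order_X] at this
  obtain ⟨g, gx, gy⟩ := h.univ (t1bι PowerSeries.X)⁻¹ (t1bι B * (t1bι PowerSeries.X)⁻¹ ^ n1)
    (t1b_isVal.transcendental (a := 0) (by rw [map_zero, sub_zero, e1]; decide))
    (by
      let _ := invertibleOfNonzero (inv_ne_zero hX)
      have h3 := eval₂_reverse_mul_pow (algebraMap K (LaurentSeries K)) (t1bι PowerSeries.X)⁻¹ f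
      rw [invOf_eq_inv, inv_inv, h.natDegree] at h3
      rw [mul_pow, ← map_pow, h1, ← aeval_algHom_apply, ← pow_mul, mul_comm n1 l]
      exact h3)
  refine ⟨_, t1b_val g, by rw [gx, e1], ?_⟩
  have e2 : g (y / x ^ n1 - algebraMap K L c) = t1bι (B - algebraMap K _ c) := by
    rw [map_sub, map_sub, map_div₀, map_pow, gy, gx, AlgHom.commutes, AlgHom.commutes,
      mul_div_cancel_right₀ _ (pow_ne_zero _ (inv_ne_zero hX))]
  have e3 : g (y / x ^ n1 - algebraMap K L c) ≠ 0 := by
    refine (map_ne_zero_iff g g.injective).2 fun h3 => h.y_sub_ne (C c * X ^ n1) ?_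
    rw [sub_eq_zero, div_eq_iff (pow_ne_zero _ h.x_ne)] at h3
    simp [h3]
  rw [e2] at e3 ⊢
  exact t1b_order_pos e3 (by rw [map_sub, h2, AlgHom.commutes]; exact sub_self _)

end Vale.Agent.P319
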