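import Vale.Agent.P319.T1v

/-! T1c: uniqueness of the valuations, through common expansions in a uniformizer. -/

namespace Vale.Agent.P319
open Polynomial

variable {K L : Type} [Field K] [Field L] [Algebra K L] {l n1 : ℕ} {f : K[X]} {x y : L}
  {v v' : L → ℤ}

theorem IsVal.add_eq (hv : IsVal K v) {a r : L} (ha : a ≠ 0) (hr : r = 0 ∨ v a < v r) :
    a + r ≠ 0 ∧ v (a + r) = v a := by
  by_cases h0 : r = 0
  · simp [h0, ha]
  have h1 := hr.resolve_left h0
  have h2 : a + r ≠ 0 := fun h => by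
    rw [eq_neg_of_add_eq_zero_left h, hv.neg] at h1
    exact lt_irrefl _ h1
  have h3 := hv.add a r ha h0 h2
  have h4 := hv.add (a + r) (-r) h2 (neg_ne_zero.2 h0) (by simpa using ha)
  rw [add_neg_cancel_right, hv.neg] at h4
  exact ⟨h2, by omega⟩

/-- order at least `k` for both valuations -/
def T1cG (v v' : L → ℤ) (k : ℤ) (u : L) : Prop := u = 0 ∨ (k ≤ v u ∧ k ≤ v' u)

section

variable (hv : IsVal K v) (hv' : IsVal K v')
include hv hv'

theorem t1c_add {k : ℤ} {u w : L} (hu : T1cG v v' k u) (hw : T1cG v v' k w) :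
    T1cG v v' k (u + w) := by
  by_cases h0 : u = 0
  · simpa [h0] using hw
  by_cases h1 : w = 0
  · simpa [h1] using hu
  by_cases h2 : u + w = 0
  · exact Or.inl h2
  have := hv.add u w h0 h1 h2
  have := hv'.add u w h0 h1 h2
  have := hu.resolve_left h0
  have := hw.resolve_left h1
  exact Or.inr (by omega)

theorem t1c_mul {k m : ℤ} {u w : L} (hu : T1cG v v' k u) (hw : T1cG v v' m w) :
    T1cG v v' (k + m) (u * w) := by
  by_cases h0 : u = 0
  · exact Or.inl (by simp [h0])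
  by_cases h1 : w = 0
  · exact Or.inl (by simp [h1])
  have := hv.mul u w h0 h1
  have := hv'.mul u w h0 h1
  have := hu.resolve_left h0
  have := hw.resolve_left h1
  exact Or.inr (by omega)

theorem t1c_c (c : K) : T1cG v v' 0 (algebraMap K L c) :=
  Or.inr ⟨(hv.const c).ge, (hv'.const c).ge⟩

omit hv hv' in
theorem t1c_mono {k m : ℤ} {u : L} (h : m ≤ k) (hu : T1cG v v' k u) : T1cG v v' m u :=
  hu.imp id fun h' => ⟨h.trans h'.1, h.trans h'.2⟩

theorem t1c_pow {u : L} (hu : T1cG v v' 1 u) (k : ℕ) : T1cG v v' k (u ^ k) := by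
  induction k with
  | zero => simpa using t1c_c hv hv' 1
  | succ k ih =>
    rw [pow_succ]
    exact_mod_cast t1c_mul hv hv' ih hu

theorem t1c_aeval {z : L} (hz : T1cG v v' 0 z) (g : K[X]) : T1cG v v' 0 (aeval z g) := by
  induction g using Polynomial.recOnHorner with
  | M0 => exact Or.inl (map_zero _)
  | MC p a _ _ ih =>
    rw [map_add, aeval_C]
    exact t1c_add hv hv' ih (t1c_c hv hv' a)
  | MX p _ ih =>
    rw [map_mul, aeval_X]
    simpa using t1c_mul hv hv' ih hz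

theorem t1c_value {z : L} {c : K} (hz : T1cG v v' 1 (z - algebraMap K L c)) (g : K[X]) :
    T1cG v v' 1 (aeval z g - algebraMap K L (g.eval c)) := by
  have h0 : T1cG v v' 0 z := by
    simpa using t1c_add hv hv' (t1c_mono zero_le_one hz) (t1c_c hv hv' c)
  obtain ⟨q, hq⟩ := X_sub_C_dvd_sub_C_eval (a := c) (p := g)
  have h1 := congrArg (aeval z) hq
  rw [map_sub, aeval_C, map_mul, map_sub, aeval_X, aeval_C] at h1
  rw [h1]
  simpa using t1c_mul hv hv' hz (t1c_aeval hv hv' h0 q)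

theorem t1c_unit {u : L} {c : K} (hc : c ≠ 0) (hu : T1cG v v' 1 (u - algebraMap K L c)) :
    u ≠ 0 ∧ v u = 0 ∧ v' u = 0 := by
  have h0 : algebraMap K L c ≠ 0 := by simpa using hc
  have h1 := hv.add_eq h0 (hu.imp id fun h => by rw [hv.const]; omega)
  have h2 := hv'.add_eq h0 (hu.imp id fun h => by rw [hv'.const]; omega)
  rw [add_sub_cancel, hv.const] at h1
  rw [add_sub_cancel, hv'.const] at h2
  exact ⟨h1.1, h1.2, h2.2⟩

variable {π : L} (h1 : v π = 1) (h1' : v' π = 1)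
include h1 h1'

/-- elements with a common expansion up to order `k` -/
def t1cO (k : ℕ) : Subalgebra K L where
  carrier := {u | ∃ g : K[X], T1cG v v' k (u - aeval π g)}
  mul_mem' := by
    rintro u w ⟨g, hg⟩ ⟨g', hg'⟩
    have hπ : T1cG v v' 0 π := Or.inr (by omega)
    have h2 : T1cG v v' 0 w := by
      simpa using t1c_add hv hv' (t1c_mono (Int.natCast_nonneg k) hg') (t1c_aeval hv hv' hπ g')
    refine ⟨g * g', ?_⟩
    have e : u * w - aeval π (g * g') = (u - aeval π g) * w + aeval π g * (w - aeval π g') := by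
      rw [map_mul]
      ring
    rw [e]
    exact t1c_add hv hv' (by simpa using t1c_mul hv hv' hg h2)
      (by simpa using t1c_mul hv hv' (t1c_aeval hv hv' hπ g) hg')
  add_mem' := by
    rintro u w ⟨g, hg⟩ ⟨g', hg'⟩
    refine ⟨g + g', ?_⟩
    rw [map_add, add_sub_add_comm]
    exact t1c_add hv hv' hg hg'
  algebraMap_mem' c := ⟨C c, Or.inl (by simp)⟩

theorem t1c_π (k : ℕ) : π ∈ t1cO hv hv' h1 h1' k := ⟨X, Or.inl (by simp)⟩

theorem t1c_of_G {k : ℕ} {u : L} (h : T1cG v v' k u) : u ∈ t1cO hv hv' h1 h1' k :=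
  ⟨0, by simpa using h⟩

theorem t1c_aeval_mem {k : ℕ} {z : L} (hz : z ∈ t1cO hv hv' h1 h1' k) (g : K[X]) :
    aeval z g ∈ t1cO hv hv' h1 h1' k := by
  rw [aeval_eq_sum_range]
  exact Subalgebra.sum_mem _ fun i _ => Subalgebra.smul_mem _ (Subalgebra.pow_mem _ hz i) _

theorem t1c_succ {k : ℕ} {u : L} (hu : u ∈ t1cO hv hv' h1 h1' k) :
    π * u ∈ t1cO hv hv' h1 h1' (k + 1) := by
  obtain ⟨g, hg⟩ := hu
  refine ⟨X * g, ?_⟩
  rw [map_mul, aeval_X, ← mul_sub, Nat.cast_add, add_comm]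
  exact t1c_mul hv hv' (Or.inr ⟨h1.ge, h1'.ge⟩) hg

theorem t1c_inv {k : ℕ} {u : L} (hu : u ∈ t1cO hv hv' h1 h1' k) {c : K} (hc : c ≠ 0)
    (h : T1cG v v' 1 (u - algebraMap K L c)) : u⁻¹ ∈ t1cO hv hv' h1 h1' k := by
  obtain ⟨u0, u1, u2⟩ := t1c_unit hv hv' hc h
  have hc' : algebraMap K L c ≠ 0 := by simpa using hc
  obtain ⟨t, ht⟩ : ∃ t, t = algebraMap K L (-c⁻¹) * (u - algebraMap K L c) := ⟨_, rfl⟩
  have t1 : T1cG v v' 1 t := by
    rw [ht]
    simpa using t1c_mul hv hv' (t1c_c hv hv' (-c⁻¹)) h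
  have t2 : t ∈ t1cO hv hv' h1 h1' k := by
    rw [ht]
    exact mul_mem (Subalgebra.algebraMap_mem _ _) (sub_mem hu (Subalgebra.algebraMap_mem _ _))
  have e1 : u = algebraMap K L c * (1 - t) := by
    rw [ht, map_neg, map_inv₀]
    field_simp
    ring
  have e2 : u⁻¹ = algebraMap K L c⁻¹ * ∑ i ∈ Finset.range k, t ^ i + t ^ k * u⁻¹ := by
    have h3 := mul_neg_geom_sum t k
    rw [map_inv₀]
    field_simp
    linear_combination (-algebraMap K L c) * h3 - (∑ i ∈ Finset.range k, t ^ i) * e1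
  rw [e2]
  refine add_mem (mul_mem (Subalgebra.algebraMap_mem _ _)
    (Subalgebra.sum_mem _ fun i _ => Subalgebra.pow_mem _ t2 i)) (t1c_of_G hv hv' h1 h1' ?_)
  simpa using t1c_mul hv hv' (t1c_pow hv hv' t1 k)
    (show T1cG v v' 0 u⁻¹ from Or.inr (by rw [hv.inv, hv'.inv]; omega))

theorem t1c_poly (g : K[X]) : v (aeval π g) = v' (aeval π g) := by
  by_cases hg : g = 0
  · simp [hg, hv.zero, hv'.zero]
  have hπ : π ≠ 0 := fun h => by
    rw [h, hv.zero] at h1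
    exact zero_ne_one h1
  obtain ⟨q, hq, hn⟩ := exists_eq_pow_rootMultiplicity_mul_and_not_dvd g hg 0
  have h2 : q.eval 0 ≠ 0 := fun h => hn (dvd_iff_isRoot.2 h)
  obtain ⟨u0, u1, u2⟩ := t1c_unit hv hv' h2
    (t1c_value hv hv' (z := π) (c := 0) (Or.inr (by simp [h1, h1'])) q)
  rw [hq, map_mul, map_pow, map_sub, aeval_X, aeval_C, map_zero, sub_zero,
    hv.mul _ _ (pow_ne_zero _ hπ) u0, hv'.mul _ _ (pow_ne_zero _ hπ) u0, hv.pow, hv'.pow, h1, h1',
    u1, u2]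

theorem t1c_eq {u : L} (hu : ∀ k, u ∈ t1cO hv hv' h1 h1' k) : v u = v' u := by
  by_cases h0 : u = 0
  · rw [h0, hv.zero, hv'.zero]
  obtain ⟨g, hg⟩ := hu ((v u).toNat + (v' u).toNat + 1)
  have hg' : aeval π g - u = 0 ∨ (v u < v (aeval π g - u) ∧ v' u < v' (aeval π g - u)) := by
    rw [← neg_sub, neg_eq_zero, hv.neg, hv'.neg]
    exact hg.imp id fun h => by omega
  have h2 := (hv.add_eq h0 (hg'.imp id And.left)).2
  have h3 := (hv'.add_eq h0 (hg'.imp id And.right)).2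
  rw [add_sub_cancel] at h2 h3
  rw [← h2, ← h3]
  exact t1c_poly hv hv' h1 h1' g

theorem t1c_root {z : L} {c : K} (hl : (l : K) ≠ 0) (hc : c ≠ 0) {r : K[X]}
    (hr : z ^ l = aeval π r) (hr0 : r.eval 0 = c ^ l) (hz : T1cG v v' 1 (z - algebraMap K L c))
    (k : ℕ) : z ∈ t1cO hv hv' h1 h1' k := by
  obtain ⟨q, hq⟩ := X_sub_C_dvd_sub_C_eval (a := c) (p := (X ^ l : K[X]))
  obtain ⟨r1, hr1⟩ := X_sub_C_dvd_sub_C_eval (a := 0) (p := r)
  have hq0 : q.eval c ≠ 0 := by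
    have h2 := congrArg (fun P => (derivative P).eval c) hq
    simp only [derivative_sub, derivative_X_pow, derivative_C, derivative_mul, derivative_X,
      eval_add, eval_mul, eval_sub, eval_X, eval_C, eval_pow, sub_self, zero_mul, add_zero,
      sub_zero, one_mul] at h2
    rw [← h2]
    exact mul_ne_zero hl (pow_ne_zero _ hc)
  have hval := t1c_value hv hv' hz q
  have h3 := congrArg (aeval z) hq
  have h4 := congrArg (aeval π) hr1
  simp only [map_sub, map_mul, map_pow, aeval_X, aeval_C, eval_pow, eval_X, map_zero, sub_zero,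
    hr0] at h3 h4
  have e : z = algebraMap K L c + π * (aeval π r1 * (aeval z q)⁻¹) := by
    have := (t1c_unit hv hv' hq0 hval).1
    field_simp
    linear_combination h4 - h3 + hr
  induction k with
  | zero =>
    exact t1c_of_G hv hv' h1 h1' (by
      simpa using t1c_add hv hv' (t1c_mono zero_le_one hz) (t1c_c hv hv' c))
  | succ k ih =>
    rw [e]
    exact add_mem (Subalgebra.algebraMap_mem _ _) (t1c_succ hv hv' h1 h1'
      (mul_mem (t1c_aeval_mem hv hv' h1 h1' (t1c_π hv hv' h1 h1' k) r1)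
        (t1c_inv hv hv' h1 h1' (t1c_aeval_mem hv hv' h1 h1' ih q) hq0 hval)))

end

theorem FF.t1c_ext (h : FF K l n1 f x y) (hv : IsVal K v) (hv' : IsVal K v') (S : Subalgebra K L)
    (hS : ∀ u ∈ S, v u = v' u) (hx : ∃ a ∈ S, ∃ b ∈ S, b ≠ 0 ∧ x = a / b)
    (hy : ∃ a ∈ S, ∃ b ∈ S, b ≠ 0 ∧ y = a / b) : v = v' := by
  let T : Subalgebra K L :=
    { carrier := {u | ∃ a ∈ S, ∃ b ∈ S, b ≠ 0 ∧ u = a / b}
      mul_mem' := by
        rintro _ _ ⟨a, ha, b, hb, h0, rfl⟩ ⟨a', ha', b', hb', h0', rfl⟩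
        exact ⟨_, mul_mem ha ha', _, mul_mem hb hb', mul_ne_zero h0 h0', div_mul_div_comm ..⟩
      add_mem' := by
        rintro _ _ ⟨a, ha, b, hb, h0, rfl⟩ ⟨a', ha', b', hb', h0', rfl⟩
        exact ⟨_, add_mem (mul_mem ha hb') (mul_mem hb ha'), _, mul_mem hb hb', mul_ne_zero h0 h0',
          div_add_div _ _ h0 h0'⟩
      algebraMap_mem' := fun c => ⟨_, S.algebraMap_mem c, 1, one_mem _, one_ne_zero, by simp⟩ }
  have hT : ∀ u ∈ T, v u = v' u := by
    rintro _ ⟨a, ha, b, hb, h0, rfl⟩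
    by_cases ha0 : a = 0
    · simp [ha0, hv.zero, hv'.zero]
    rw [hv.div ha0 h0, hv'.div ha0 h0, hS a ha, hS b hb]
  have ha : ∀ g : K[X], aeval x g ∈ T := fun g => by
    rw [aeval_eq_sum_range]
    exact Subalgebra.sum_mem _ fun i _ => Subalgebra.smul_mem _ (Subalgebra.pow_mem T hx i) _
  funext u
  by_cases h0 : u = 0
  · rw [h0, hv.zero, hv'.zero]
  obtain ⟨d, g, hd, he⟩ := h.gen u
  have h1 := hT _ (Subalgebra.sum_mem T (t := Finset.range l) fun b _ =>
    mul_mem (ha (g b)) (Subalgebra.pow_mem T hy b))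
  rw [← he, hv.mul _ _ (h.aeval_ne hd) h0, hv'.mul _ _ (h.aeval_ne hd) h0, hT _ (ha d)] at h1
  exact add_left_cancel h1

theorem FF.t1c_fin (h : FF K l n1 f x y) (hv : IsVal K v) (hv' : IsVal K v') {π : L}
    (h1 : v π = 1) (h1' : v' π = 1) {x' y' b b' : L} (hx : ∀ k, x' ∈ t1cO hv hv' h1 h1' k)
    (hy : ∀ k, y' ∈ t1cO hv hv' h1 h1' k) (hb : ∀ k, b ∈ t1cO hv hv' h1 h1' k)
    (hb' : ∀ k, b' ∈ t1cO hv hv' h1 h1' k) (h0 : b ≠ 0) (h0' : b' ≠ 0) (ex : x = x' / b)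
    (ey : y = y' / b') : v = v' :=
  h.t1c_ext hv hv' (⨅ k, t1cO hv hv' h1 h1' k)
    (fun _ hu => t1c_eq hv hv' h1 h1' (Algebra.mem_iInf.1 hu))
    ⟨x', Algebra.mem_iInf.2 hx, b, Algebra.mem_iInf.2 hb, h0, ex⟩
    ⟨y', Algebra.mem_iInf.2 hy, b', Algebra.mem_iInf.2 hb', h0', ey⟩

theorem FF.uniq_fin (h : FF K l n1 f x y) {a c : K} (hc : c ^ l = f.eval a) (h0 : c ≠ 0)
    (hv : IsVal K v) (hv' : IsVal K v') (h1 : v (x - algebraMap K L a) = 1)
    (h2 : 1 ≤ v (y - algebraMap K L c)) (h1' : v' (x - algebraMap K L a) = 1)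
    (h2' : 1 ≤ v' (y - algebraMap K L c)) : v = v' := by
  refine h.t1c_fin hv hv' h1 h1' (x' := x) (y' := y) (fun k => ?_)
    (t1c_root hv hv' h1 h1' h.l_ne h0 (r := f.comp (X + C a)) ?_ ?_ (Or.inr ⟨h2, h2'⟩))
    (fun _ => one_mem _) (fun _ => one_mem _) one_ne_zero one_ne_zero (div_one _).symm
    (div_one _).symm
  · simpa using add_mem (t1c_π hv hv' h1 h1' k) (Subalgebra.algebraMap_mem _ a)
  · simp [aeval_comp, h.yl]
  · simp [eval_comp, hc]

theorem FF.uniq_ram (h : FF K l n1 f x y) {a : K} (ha : f.IsRoot a)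
    (hv : IsVal K v) (hv' : IsVal K v') (h1 : v (x - algebraMap K L a) = l)
    (h1' : v' (x - algebraMap K L a) = l) : v = v' := by
  obtain ⟨q, hq, hq0⟩ := h.exists_cofactor ha
  have hl : (1 : ℤ) ≤ l := by exact_mod_cast h.prime.one_le
  have hval := t1c_value hv hv' (z := x) (c := a) (Or.inr (by omega)) q
  obtain ⟨u0, u1, u2⟩ := t1c_unit hv hv' hq0 hval
  have e : y ^ l = (x - algebraMap K L a) * aeval x q := by
    rw [h.yl, hq, map_mul, map_sub, aeval_X, aeval_C]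
  have y1 : v y = 1 := by
    have h3 := congrArg v e
    rw [hv.pow, hv.mul _ _ (h.x_sub_ne a) u0, h1, u1, add_zero] at h3
    exact (mul_eq_left₀ (by omega)).1 h3
  have y1' : v' y = 1 := by
    have h3 := congrArg v' e
    rw [hv'.pow, hv'.mul _ _ (h.x_sub_ne a) u0, h1', u2, add_zero] at h3
    exact (mul_eq_left₀ (by omega)).1 h3
  refine h.t1c_fin hv hv' y1 y1' (x' := x) (y' := y) (fun k => ?_) (t1c_π hv hv' y1 y1')
    (fun _ => one_mem _) (fun _ => one_mem _) one_ne_zero one_ne_zero (div_one _).symm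
    (div_one _).symm
  have e' : x = algebraMap K L a + y * (y ^ (l - 1) * (aeval x q)⁻¹) := by
    rw [← mul_assoc, ← pow_succ', Nat.sub_add_cancel h.prime.one_le, e]
    field_simp
    ring
  induction k with
  | zero =>
    exact t1c_of_G hv hv' y1 y1' (by
      simpa using t1c_add hv hv' (k := 0) (u := x - algebraMap K L a) (Or.inr (by omega))
        (t1c_c hv hv' a))
  | succ k ih =>
    rw [e']
    exact add_mem (Subalgebra.algebraMap_mem _ _) (t1c_succ hv hv' y1 y1'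
      (mul_mem (Subalgebra.pow_mem _ (t1c_π hv hv' y1 y1' k) _)
        (t1c_inv hv hv' y1 y1' (t1c_aeval_mem hv hv' y1 y1' ih q) hq0 hval)))

theorem FF.uniq_inf (h : FF K l n1 f x y) {c : K} (hc : c ^ l = 1)
    (hv : IsVal K v) (hv' : IsVal K v') (h1 : v x = -1)
    (h2 : 1 ≤ v (y / x ^ n1 - algebraMap K L c)) (h1' : v' x = -1)
    (h2' : 1 ≤ v' (y / x ^ n1 - algebraMap K L c)) : v = v' := by
  have h0 : c ≠ 0 := by
    rintro rfl
    rw [zero_pow h.prime.ne_zero] at hc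
    exact zero_ne_one hc
  have p1 : v x⁻¹ = 1 := by rw [hv.inv, h1, neg_neg]
  have p1' : v' x⁻¹ = 1 := by rw [hv'.inv, h1', neg_neg]
  have hx := h.x_ne
  refine h.t1c_fin hv hv' p1 p1' (x' := 1) (y' := y / x ^ n1) (b := x⁻¹) (b' := x⁻¹ ^ n1)
    (fun _ => one_mem _)
    (t1c_root hv hv' p1 p1' h.l_ne h0 (r := f.reverse) ?_ ?_ (Or.inr ⟨h2, h2'⟩))
    (t1c_π hv hv' p1 p1') (fun k => Subalgebra.pow_mem _ (t1c_π hv hv' p1 p1' k) _)
    (inv_ne_zero hx) (pow_ne_zero _ (inv_ne_zero hx)) (by simp)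
    (by rw [inv_pow, div_inv_eq_mul, div_mul_cancel₀ _ (pow_ne_zero _ hx)])
  · let _ := invertibleOfNonzero hx
    have h3 := eval₂_reverse_mul_pow (algebraMap K L) x f
    rw [invOf_eq_inv, h.natDegree] at h3
    rw [div_pow, h.yl, ← pow_mul, mul_comm n1 l, div_eq_iff (pow_ne_zero _ hx)]
    exact h3.symm
  · rw [← coeff_zero_eq_eval_zero, coeff_zero_reverse, h.monic, hc]

end Vale.Agent.P319
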