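import Vale.Agent.P319.T1a
import Vale.Agent.P319.T1b
import Vale.Agent.P319.T1c

/-! T1d: existence of the model. -/

namespace Vale.Agent.P319
open Polynomial

section

variable {K L : Type} [Field K] [Field L] [Algebra K L] {l n1 : ℕ} {f : K[X]} {x y : L}

/-- the valuation attached to the point with coordinates `o`, `c` -/
structure T1dSpec (l n1 : ℕ) (x y : L) (o : Option K) (c : K) (v : L → ℤ) : Prop where
  val : IsVal K v
  ox : ∀ a, o = some a → c ≠ 0 → v (x - algebraMap K L a) = 1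
  oy : ∀ a, o = some a → 1 ≤ v (y - algebraMap K L c)
  oxP : ∀ a, o = some a → c = 0 → v (x - algebraMap K L a) = l
  oxi : o = none → v x = -1
  oyi : o = none → 1 ≤ v (y / x ^ n1 - algebraMap K L c)

theorem t1d_root (h : FF K l n1 f x y) {a : K} (hc : (0 : K) ^ l = f.eval a) : f.IsRoot a := by
  rw [zero_pow h.prime.ne_zero] at hc
  exact hc.symm

theorem t1d_exists (h : FF K l n1 f x y) (o : Option K) (c : K)
    (hc : c ^ l = o.elim 1 fun a => f.eval a) : ∃ v, T1dSpec l n1 x y o c v := by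
  cases o with
  | none =>
    obtain ⟨v, h1, h2, h3⟩ := h.val_inf hc
    exact ⟨v, h1, nofun, nofun, nofun, fun _ => h2, fun _ => h3⟩
  | some a =>
    by_cases h0 : c = 0
    · subst h0
      obtain ⟨v, h1, h2, h3⟩ := h.val_ram (t1d_root h hc)
      refine ⟨v, h1, fun _ _ h => absurd rfl h, fun _ _ => by simpa using h3, ?_, nofun, nofun⟩
      rintro _ ⟨⟩ _
      exact h2
    · obtain ⟨v, h1, h2, h3⟩ := h.val_fin hc h0
      refine ⟨v, h1, ?_, fun _ _ => h3, fun _ _ h => absurd h h0, nofun, nofun⟩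
      rintro _ ⟨⟩ _
      exact h2

theorem t1d_unique (h : FF K l n1 f x y) {o : Option K} {c : K}
    (hc : c ^ l = o.elim 1 fun a => f.eval a) {v v' : L → ℤ} (h1 : T1dSpec l n1 x y o c v)
    (h2 : T1dSpec l n1 x y o c v') : v = v' := by
  cases o with
  | none => exact h.uniq_inf hc h1.val h2.val (h1.oxi rfl) (h1.oyi rfl) (h2.oxi rfl) (h2.oyi rfl)
  | some a =>
    by_cases h0 : c = 0
    · subst h0
      exact h.uniq_ram (t1d_root h hc) h1.val h2.val (h1.oxP a rfl rfl) (h2.oxP a rfl rfl)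
    · exact h.uniq_fin hc h0 h1.val h2.val (h1.ox a rfl h0) (h1.oy a rfl) (h2.ox a rfl h0)
        (h2.oy a rfl)

theorem T1dSpec.comp {o : Option K} {c : K} {v : L → ℤ} (G : L →+* L) (τ : K →+* K)
    (hτ : Function.Surjective τ) (hG : ∀ c, G (algebraMap K L c) = algebraMap K L (τ c))
    {e : K} (he : e ≠ 0) (hx : G x = x) (hy : G y = algebraMap K L e * y)
    (h : T1dSpec l n1 x y (o.map τ) (e⁻¹ * τ c) v) : T1dSpec l n1 x y o c fun u => v (G u) := by
  have he' : algebraMap K L e ≠ 0 := by simpa using he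
  have key : ∀ z, algebraMap K L e * z - algebraMap K L (τ c) =
      algebraMap K L e * (z - algebraMap K L (e⁻¹ * τ c)) := fun z => by
    rw [mul_sub, ← map_mul, mul_inv_cancel_left₀ he]
  refine ⟨h.val.comp G τ hτ hG, ?_, ?_, ?_, ?_, ?_⟩
  · rintro a rfl h0
    rw [map_sub, hx, hG]
    exact h.ox _ rfl (by simpa [he] using h0)
  · rintro a rfl
    rw [map_sub, hy, hG, key, h.val.cmul he]
    exact h.oy _ rfl
  · rintro a rfl h0
    rw [map_sub, hx, hG]
    exact h.oxP _ rfl (by simp [h0])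
  · rintro rfl
    rw [hx]
    exact h.oxi rfl
  · rintro rfl
    rw [map_sub, map_div₀, map_pow, hx, hy, hG, mul_div_assoc, key, h.val.cmul he]
    exact h.oyi rfl

end

theorem exists_model (K : Type) [Field K] [IsAlgClosed K] {p k l n1 : ℕ} [Fact p.Prime]
    [CharP K p] (hl : l.Prime) (hn : 0 < n1) {f : K[X]} (hm : f.Monic)
    (hd : f.natDegree = l * n1) (hs : f.Separable) {ζ : K} (hζ : IsPrimitiveRoot ζ l)
    (hζq : ζ ^ p ^ k = ζ) (hr : ∀ α, f.IsRoot α → α ^ p ^ k = α) :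
    ∃ (L Pt : Type) (_ : Field L) (_ : Algebra K L) (Y : Model K L Pt),
      Y.l = l ∧ Y.n1 = n1 ∧ Y.q0 = p ^ k ∧ Y.f = f ∧ Y.ζ = ζ := by
  obtain ⟨L, _, _, x, y, σ, Φ, h, σx, σy, Φc, Φx, Φy⟩ := exists_FF K hl hn hm hd hs hζ hr
  have hζ0 : ζ ≠ 0 := hζ.ne_zero hl.ne_zero
  let Pt : Type := {z : Option K × K // z.2 ^ l = z.1.elim 1 fun a => f.eval a}
  choose ord hord using fun Q : Pt => t1d_exists h Q.1.1 Q.1.2 Q.2
  let F : K ≃+* K := iterateFrobeniusEquiv K p k
  have hF : ∀ c, F c = c ^ p ^ k := fun _ => rfl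
  have hf : ∀ a, f.eval (F a) = F (f.eval a) := fun a => by
    conv_lhs => rw [← t1a_map_frob hm hr]
    exact eval_map_apply (iterateFrobenius K p k) a
  let s : Equiv.Perm Pt := Equiv.subtypeEquiv
    (Equiv.prodCongr (Equiv.refl _) (Equiv.mulLeft₀ ζ⁻¹ (inv_ne_zero hζ0))) fun z => by
      change _ ↔ (ζ⁻¹ * z.2) ^ l = z.1.elim 1 fun a => f.eval a
      rw [mul_pow, inv_pow, hζ.pow_eq_one, inv_one, one_mul]
  let φ : Equiv.Perm Pt := Equiv.subtypeEquiv
    (Equiv.prodCongr (Equiv.optionCongr F.toEquiv) F.toEquiv) fun z => by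
      change _ ↔ F z.2 ^ l = (z.1.map F).elim 1 fun a => f.eval a
      rw [← map_pow, ← F.injective.eq_iff]
      rcases z with ⟨_ | a, c⟩
      · simp
      · simp [hf]
  refine ⟨L, Pt, inferInstance, inferInstance,
    { l := l, n1 := n1, q0 := p ^ k, f := f, ζ := ζ, x := x, y := y, σ := σ, Φ := Φ, ord := ord
      s := s, φ := φ, px := fun Q => Q.1.1, py := fun Q => Q.1.2, closed := h.closed, prime := hl
      n1_pos := hn, q0_pos := pow_pos (Fact.out : p.Prime).pos k, monic := hm, natDegree := hd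
      separable := hs, prim := hζ, ζ_fix := hζq, root_fix := hr, yl := h.yl, gen := h.gen
      indep := h.indep, σ_x := σx, σ_y := σy, Φ_c := Φc, Φ_x := Φx, Φ_y := Φy
      ord_zero := fun Q => (hord Q).val.zero, ord_mul := fun Q => (hord Q).val.mul
      ord_add := fun Q => (hord Q).val.add, ord_c := fun Q => (hord Q).val.const
      res := fun Q => (hord Q).val.res, ord_σ := fun Q u => ?_, ord_Φ := fun Q u => ?_
      px_s := fun _ => rfl, py_s := fun _ => rfl, px_φ := fun _ => rfl, py_φ := fun _ => rfl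
      pt_eq := fun Q => Q.2, pt_inj := fun Q Q' h1 h2 => Subtype.ext (Prod.ext h1 h2)
      pt_ex := fun o c hc => ⟨⟨(o, c), hc⟩, rfl, rfl⟩
      ord_x := fun Q => (hord Q).ox, ord_y := fun Q => (hord Q).oy, ord_xP := fun Q => (hord Q).oxP
      ord_x_inf := fun Q => (hord Q).oxi, ord_y_inf := fun Q => (hord Q).oyi },
    rfl, rfl, rfl, rfl, rfl⟩
  · refine congrFun (t1d_unique h Q.2 (T1dSpec.comp (σ : L →+* L) (RingHom.id K)
      Function.surjective_id σ.commutes hζ0 σx σy ?_) (hord Q)) u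
    rw [RingHom.coe_id, Option.map_id_apply]
    exact hord (s Q)
  · refine congrFun (t1d_unique h Q.2 (T1dSpec.comp (Φ : L →+* L) (F : K →+* K)
      F.surjective Φc one_ne_zero Φx (by simpa using Φy) ?_) (hord Q)) u
    rw [inv_one, one_mul]
    exact hord (φ Q)

end Vale.Agent.P319
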