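import Vale.Agent.P319.CoreA
import Vale.Agent.P319.T1d

/-! Core: the splitting algorithm. -/

namespace Vale.Agent.P319
open Vale.Agent.Common.TreeTM Vale.Agent.P337 Finsupp

/-- splitting off the power of `l` -/
def valStep (l : ℕ) (s : ℕ × List ℕ) (_ : El) : ℕ × List ℕ :=
  cond (neq (s.1 % l) 0) (s.1 / l, 0 :: s.2) s

theorem tc_val : TC 0 fun a : ℕ × List El => a.2.foldl (valStep a.1) (a.2.length, []) := by
  have h1 : TC 0 fun a : ℕ × List El => a.2.length := by fun_prop
  have h2 : TC 0 fun a : ℕ × List El => a.2 := by fun_prop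
  refine TC.foldl_inv (f := fun a : ℕ × List El => valStep a.1) (by unfold valStep; fun_prop)
    (by fun_prop) h2 ((((Bd.const 0 4).mul h1.bd).add ((Bd.const 0 2).mul h2.bd)).add
      (Bd.const 0 3)) (fun a k s => s.1 ≤ a.2.length ∧ sz s.2 ≤ 2 * k + 1)
    (fun a => ⟨le_rfl, by simp [sz_lnil]⟩) (fun a k s x _ h => ?_) fun a k s hk h => ?_
  · unfold valStep
    cases neq (s.1 % a.1) 0
    · exact ⟨h.1, by have := h.2; simp only [cond_false]; omega⟩
    · refine ⟨(Nat.div_le_self _ _).trans h.1, ?_⟩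
      have h0 : sz (0 : ℕ) = 1 := rfl
      have := h.2
      simp only [cond_true, sz_lcons]
      omega
  · have := sz_nat_mono h.1
    have := length_le_sz a.2
    have := h.2
    rw [sz_prod]
    omega

theorem val_spec {l : ℕ} (hl : 2 ≤ l) (md : List El) (h0 : 0 < md.length) :
    md.length = l ^ (md.foldl (valStep l) (md.length, [])).2.length *
      (md.foldl (valStep l) (md.length, [])).1 ∧
    ¬l ∣ (md.foldl (valStep l) (md.length, [])).1 := by
  have key := foldl_inv_len (fun k (s : ℕ × List ℕ) => md.length = l ^ s.2.length * s.1 ∧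
    (¬l ∣ s.1 ∨ s.2.length = k)) (valStep l) md (md.length, []) (by simp) ?_
  · refine ⟨key.1, fun h => ?_⟩
    have h1 := key.1
    rw [key.2.resolve_left (not_not.2 h)] at h1
    have h2 : md.length < l ^ md.length := Nat.lt_pow_self (by omega)
    have h3 : 0 < (md.foldl (valStep l) (md.length, [])).1 := by
      by_contra h4
      rw [show (md.foldl (valStep l) (md.length, [])).1 = 0 by omega] at h1
      omega
    nlinarith
  · rintro k s x - ⟨h1, h2⟩
    unfold valStep neq
    by_cases h : s.1 % l = 0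
    · have h3 := Nat.dvd_of_mod_eq_zero h
      simp only [h, decide_true, cond_true, List.length_cons]
      refine ⟨?_, Or.inr (by rw [h2.resolve_left (not_not.2 h3)])⟩
      rw [pow_succ, mul_assoc, Nat.mul_div_cancel' h3]
      exact h1
    · simp only [h, decide_false, cond_false]
      exact ⟨h1, Or.inl fun h3 => h (Nat.mod_eq_zero_of_dvd h3)⟩

def cube (u : List ℕ) : List ℕ := u.flatMap fun _ => u.flatMap fun _ => u

theorem length_cube (u : List ℕ) : (cube u).length = u.length ^ 3 := by
  simp [cube, List.length_flatMap]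
  ring

@[fun_prop] theorem tc_cube {α : Type} [Enc α] {u : α → List ℕ} (h : TC 0 u) :
    TC 0 fun a => cube (u a) := by
  unfold cube
  fun_prop

theorem exists_core : ∃ core : RC × ℕ × List El × El × El × List ℕ → List (List El), TC 0 core ∧
    ∀ (K : Type) [Field K] [IsAlgClosed K] (R : RC) (q : ℕ) (md : List El) (z η : El)
      (iL : List ℕ) (b : ℕ → K) (d m : ℕ), IsHom R q b → R.1.Prime → q = (R.1 ^ d) ^ m → 0 < m →
      iL.length.Prime → iL.length ∣ md.length → 0 < md.length →
      (∀ s, iL.length ^ s ∣ md.length → iL.length ^ s ∣ m) → (mpol R b md).Separable →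
      (∀ α, (mpol R b md).IsRoot α → α ^ R.1 ^ d = α) →
      IsPrimitiveRoot (ev R b z) iL.length → ev R b z ^ R.1 ^ d = ev R b z →
      ev R b η ≠ 0 → ev R b η ^ ((q - 1) / iL.length) ≠ 1 → (md.length + 1) ^ 11 ≤ R.1 →
      ∃ g ∈ core (R, q, md, z, η, iL), ∃ α α', (mpol R b md).IsRoot α ∧ (mpol R b md).IsRoot α' ∧
        (pol R b g).eval α = 0 ∧ (pol R b g).eval α' ≠ 0 := by
  obtain ⟨F, tF, hF⟩ := exists_coreM
  obtain ⟨V, hV⟩ : ∃ V : ℕ × List El → ℕ × List ℕ,
    V = fun a => a.2.foldl (valStep a.1) (a.2.length, []) := ⟨_, rfl⟩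
  have tV : TC 0 V := hV ▸ tc_val
  refine ⟨fun a => F ((a.1, a.2.1, a.2.2.1, a.2.2.2.1, a.2.2.2.2.1, a.2.2.2.2.2,
    cube (cube (0 :: idx a.2.2.1))), (V (a.2.2.2.2.2.length, a.2.2.1)).2,
    (idx a.2.2.1).take (V (a.2.2.2.2.2.length, a.2.2.1)).1), by fun_prop, ?_⟩
  intro K _ _ R q md z η iL b d m hom hp hq hm hl hln hn hs hsep hr hζ hζq hη hη' hbig
  have := Fact.mk hp
  have : CharP K R.1 := (CharP.charP_iff_prime_eq_zero hp).2 hom.char
  obtain ⟨n1, hn1⟩ := hln
  obtain ⟨L, Pt, _, _, Y, e1, e2, e3, e4, e5⟩ := exists_model K (p := R.1) (k := d) (n1 := n1) hl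
    (Nat.pos_of_ne_zero fun h => by simp [h] at hn1; simp [hn1] at hn) (monic_mpol R b md)
    (by rw [natDegree_mpol, hn1]) hsep hζ hζq hr
  have en : Y.n = md.length := by rw [Model.n, e1, e2, hn1]
  have hN : (cube (cube (0 :: idx md))).length = (md.length + 1) ^ 9 := by
    simp only [length_cube, List.length_cons, idx, List.length_range]
    ring
  have hS : Sem Y m (R, q, md, z, η, iL, cube (cube (0 :: idx md))) b := by
    refine ⟨hom, hp, ⟨d, e3⟩, by rw [e3]; exact hq, hm, e4.symm, e5.symm, e1.symm, hη,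
      by rw [e1]; exact hη', ?_, by rw [en]; exact hN.ge, ?_⟩
    · rw [e1]
      refine hζ.dvd_of_pow_eq_one _ (mul_left_cancel₀ (hζ.ne_zero hl.ne_zero) ?_)
      have := hom.two_lt
      change _ * _ ^ (q - 1) = _
      rw [← pow_succ', Nat.sub_add_cancel (by omega), hom.fix, mul_one]
    · change Y.n * (Y.l * (cube (cube (0 :: idx md))).length) < R.1
      have h1 := Y.l_le_n
      rw [hN, en] at *
      calc md.length * (Y.l * (md.length + 1) ^ 9)
          < (md.length + 1) * ((md.length + 1) * (md.length + 1) ^ 9) := by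
            gcongr <;> omega
        _ = (md.length + 1) ^ 11 := by ring
        _ ≤ R.1 := hbig
  obtain ⟨v1, v2⟩ := val_spec hl.two_le md hn
  have v3 : ((idx md).take (V (iL.length, md)).1).length = (V (iL.length, md)).1 := by
    rw [List.length_take, idx, List.length_range, hV]
    refine min_eq_left ?_
    conv_rhs => rw [v1]
    exact Nat.le_mul_of_pos_left _ (pow_pos hl.pos _)
  have := hF Y m _ b hS (V (iL.length, md)).2 ((idx md).take (V (iL.length, md)).1)
    (by rw [v3, en, e1, hV]; exact v1) (by rw [v3, e1, hV]; exact v2)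
    (by rw [e1, hV]; exact hs _ (Dvd.intro _ v1.symm))
  rw [e4] at this
  exact this

end Vale.Agent.P319
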