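import Vale.Agent.P319.G4bA

/-! G4b: the linear system `SS t`, `t = iT.length`.  `e = n * n + 1`.  For `j < l` let
`B j = lvl (j e + 2 n + 1) (gmul iT (gU (take j iL) W) repInf)`.  For `r ∈ B j` form the row
(`r` placed in block `j` of `l` blocks of width `wd`) `++` (for `c' < l`, `i < c'` the `n` entries
`slc (emb ζ ^ ((l - j) c') * β ^ (l - 1 - j) * atT (block i of r))`; pad with zeros for `i ≥ c'`).
Eliminate the second part (A1), select the first nonzero row (A1 `sel` with tags `nzV`), cut it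
into `l` blocks.  The conditions: `ge_fn` and `Sem.slc_eq_zero`. -/

namespace Vale.Agent.P319
open Vale.Agent.Common.TreeTM Vale.Agent.P337 Finsupp

section
variable {K L Pt : Type} [Field K] [Field L] [Algebra K L] {Y : Model K L Pt} {m : ℕ} {c : Cx}
  {b : ℕ → K}

/-- block `j` of a long vector as a function -/
noncomputable def G4bT (Y : Model K L Pt) (c : Cx) (j : ℕ) : (ℕ → K) →ₗ[K] L :=
  (Y.fn (cN c).length).comp (LinearMap.funLeft K K fun k => j * (wd c).length + k)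

theorem G4b_T_apply (j : ℕ) (u : ℕ → K) :
    G4bT Y c j u = Y.fn (cN c).length fun k => u (j * (wd c).length + k) := rfl

theorem G4b_fn_congr {N : ℕ} {u v : ℕ → K} (h : ∀ k < Y.l * N, u k = v k) :
    Y.fn N u = Y.fn N v := by
  rw [← sub_eq_zero, ← map_sub, Model.fn_eq_zero]
  intro k hk
  simp [h k hk]

theorem G4b_T_row (h : Sem Y m c b) (β : El) (j : ℕ) (r : List El) {j' : ℕ} (hj : j' < Y.l) :
    G4bT Y c j' (vec (cR c) b (G4brow c β j r)) = if j' = j then fv Y c b r else 0 := by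
  rw [G4b_T_apply, G4b_fn_congr (v := fun k => if j' = j then vec (cR c) b r k else 0)
    fun k hk => G4b_row1 β j r (by rw [h.l_eq]; exact hj) (by rw [h.wd_eq]; exact hk)]
  split_ifs
  · rfl
  · exact map_zero _

/-- the value of the condition `(d, i)` at `α` -/
def G4bLam (Y : Model K L Pt) (c : Cx) (β : K) (d i : ℕ) (α : K) (u : ℕ → K) : K :=
  ∑ a ∈ Finset.range (cN c).length, (∑ j ∈ Finset.range Y.l,
    Y.ζ ^ ((Y.l - j) * d) * β ^ (Y.l - 1 - j) * u (j * (wd c).length + (i * (cN c).length + a))) *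
      α ^ a

theorem G4b_ge {α : K} (hα : Y.f.IsRoot α) (β : K) {d : ℕ} (hd : d < Y.l) (u : ℕ → K) :
    Y.Ge (Y.P α) d (∑ j ∈ Finset.range Y.l,
      (Y.ζ ^ ((Y.l - j) * d) * β ^ (Y.l - 1 - j)) • G4bT Y c j u) ↔
      ∀ i < d, G4bLam Y c β d i α u = 0 := by
  simp only [G4b_T_apply, ← map_smul, ← map_sum]
  rw [Model.ge_fn _ hα hd.le]
  simp only [G4bLam, Finset.sum_apply, Pi.smul_apply, smul_eq_mul]

def G4bInv (Y : Model K L Pt) (c : Cx) (b : ℕ → K) (β : El) (u : ℕ → K) : Prop :=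
  ∀ α, Y.f.IsRoot α → ∀ d < Y.l, ∀ i < Y.l, ∑ k ∈ Finset.range Y.n,
    u ((d * Y.l + i) * Y.n + k + (G4bw1 c).length) * α ^ k =
      if i < d then G4bLam Y c (evA c b α β) d i α u else 0

theorem G4b_inv_row (h : Sem Y m c b) (β : El) {j : ℕ} (hj : j < Y.l) (r : List El) :
    G4bInv Y c b β (vec (cR c) b (G4brow c β j r)) := by
  intro α hα d hd i hi
  have := G4b_row2 (b := b) β j r (h.l_eq ▸ hd) (h.l_eq ▸ hi) α
  rw [h.l_eq, h.n_eq] at this
  rw [this]
  split_ifs
  · rw [G4b_evA h hα, G4bLam, Finset.mul_sum]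
    refine Finset.sum_congr rfl fun a ha => ?_
    have ha' := Finset.mem_range.1 ha
    rw [Finset.sum_congr rfl fun j' hj' => by
      rw [G4b_row1 β j r (by rw [h.l_eq]; exact Finset.mem_range.1 hj')
        (by rw [h.wd_eq]; nlinarith)]]
    simp only [mul_ite, mul_zero, Finset.sum_ite_eq', Finset.mem_range, hj, if_true]
    ring
  · rfl

theorem G4b_inv {β : El} {M : Mx} (hM : ∀ v ∈ M, G4bInv Y c b β (vec (cR c) b v)) {u : ℕ → K}
    (hu : u ∈ rsp (cR c) b M) : G4bInv Y c b β u := by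
  induction hu using Submodule.span_induction with
  | mem u hu =>
    obtain ⟨v, hv, rfl⟩ := hu
    exact hM v hv
  | zero => intro α _ d _ i _; simp [G4bLam]
  | add u v _ _ h1 h2 =>
    intro α hα d hd i hi
    have e1 := h1 α hα d hd i hi
    have e2 := h2 α hα d hd i hi
    simp only [G4bLam, Pi.add_apply, add_mul, mul_add, Finset.sum_add_distrib] at e1 e2 ⊢
    rw [e1, e2]
    split_ifs <;> simp
  | smul a u _ h1 =>
    intro α hα d hd i hi
    have e1 := h1 α hα d hd i hi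
    have e2 : G4bLam Y c (evA c b α β) d i α (a • u) =
        a * G4bLam Y c (evA c b α β) d i α u := by
      simp only [G4bLam, Pi.smul_apply, smul_eq_mul, Finset.mul_sum, Finset.sum_mul]
      exact Finset.sum_congr rfl fun _ _ => Finset.sum_congr rfl fun _ _ => by ring
    simp only [e2, Pi.smul_apply, smul_eq_mul, mul_assoc, ← Finset.mul_sum, e1]
    split_ifs <;> simp

theorem G4b_poly (g : ℕ → K) (hg : ∀ α, Y.f.IsRoot α → ∑ k ∈ Finset.range Y.n, g k * α ^ k = 0) :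
    ∀ k < Y.n, g k = 0 := by
  classical
  intro k hk
  have h1 : ∑ k ∈ Finset.range Y.n, Polynomial.monomial k (g k) = 0 := by
    refine Polynomial.eq_zero_of_degree_lt_of_eval_finset_eq_zero Y.f.roots.toFinset ?_ ?_
    · rw [Model.card_roots, Polynomial.degree_lt_iff_coeff_zero]
      intro j hj
      rw [Polynomial.finsetSum_coeff]
      refine Finset.sum_eq_zero fun i hi => ?_
      have := Finset.mem_range.1 hi
      rw [Polynomial.coeff_monomial, if_neg (by omega)]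
    · intro α hα
      rw [Polynomial.eval_finsetSum]
      simp only [Polynomial.eval_monomial]
      exact hg α ((Polynomial.mem_roots Y.monic.ne_zero).1 (Multiset.mem_toFinset.1 hα))
  have h2 := congrArg (Polynomial.coeff · k) h1
  simpa [Polynomial.finsetSum_coeff, Polynomial.coeff_monomial, hk] using h2
end

theorem G4b_solve : ∃ F : Cx × El × List Mx → Mx, TC 0 F ∧
    (∀ c β B, NmL (cR c) (cL c).length (wd c).length (F (c, β, B))) ∧
    ∀ {K L Pt : Type} [Field K] [Field L] [Algebra K L] (Y : Model K L Pt) (m : ℕ) (c : Cx)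
      (b : ℕ → K), Sem Y m c b → ∀ (β : El) (B : List Mx) (S : (ℕ → L) → Prop),
      (∀ z, S z ↔ (∀ j < Y.l, z j ∈ Sp Y c b (B.getD j [])) ∧
        ∀ α, Y.f.IsRoot α → ∀ d < Y.l, Y.Ge (Y.P α) d (∑ j ∈ Finset.range Y.l,
          (Y.ζ ^ ((Y.l - j) * d) * evA c b α β ^ (Y.l - 1 - j)) • z j)) →
      S (fun j => fv Y c b ((F (c, β, B)).getD j [])) ∧
      ∀ z, S z → (∃ j < Y.l, z j ≠ 0) → ∃ j < Y.l, fv Y c b ((F (c, β, B)).getD j []) ≠ 0 := by
  obtain ⟨fr, tfr, hfr⟩ := G4b_frow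
  obtain ⟨el, tel, sel, hel⟩ := exists_elim
  refine ⟨fun a => (idx (cL a.1)).map fun j => vsmul (cR a.1) (wd a.1) (rone (cR a.1))
    ((idx (wd a.1)).map fun k => (fr (cR a.1, cq a.1, G4bw1 a.1 ++ G4bw2 a.1,
      el (cR a.1, cq a.1, G4bw1 a.1 ++ G4bw2 a.1,
        (idx (cL a.1)).flatMap fun j => (a.2.2.getD j []).map (G4brow a.1 a.2.1 j),
        (idx (G4bw2 a.1)).map (· + (G4bw1 a.1).length)))).getD (j * (wd a.1).length + k) []),
    by fun_prop, fun c β B => ?_, ?_⟩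
  · have := A1_nmL_map (cR c) (wd c).length (idx (cL c)) _ fun j => nmV_vsmul (cR c) (rone (cR c))
      ((idx (wd c)).map fun k => (fr (cR c, cq c, G4bw1 c ++ G4bw2 c,
      el (cR c, cq c, G4bw1 c ++ G4bw2 c,
        (idx (cL c)).flatMap fun j => (B.getD j []).map (G4brow c β j),
        (idx (G4bw2 c)).map (· + (G4bw1 c).length)))).getD (j * (wd c).length + k) []) (wd c)
    rwa [A1_len_idx] at this
  intro K L Pt _ _ _ Y m c b h β B S hS
  beta_reduce
  set M : Mx := (idx (cL c)).flatMap fun j => (B.getD j []).map (G4brow c β j) with hM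
  set ks := (idx (G4bw2 c)).map (· + (G4bw1 c).length) with hks
  set w := G4bw1 c ++ G4bw2 c with hw
  have memM : ∀ v, v ∈ M ↔ ∃ j < Y.l, ∃ r ∈ B.getD j [], G4brow c β j r = v := by
    intro v
    simp only [hM, List.mem_flatMap, List.mem_map, idx, List.mem_range, h.l_eq]
  have hel' := hel (cR c) (cq c) b h.hom w M ks fun v hv => by
    obtain ⟨j, -, r, -, rfl⟩ := (memM v).1 hv
    simp [G4brow, idx, hw]
  have hks' : ∀ u : ℕ → K, (∀ k ∈ ks, u k = 0) ↔
      ∀ k < Y.l * Y.l * Y.n, u (k + (G4bw1 c).length) = 0 := by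
    intro u
    simp only [hks, List.mem_map, idx, List.mem_range, G4b_w2, h.l_eq, h.n_eq]
    exact ⟨fun h1 k hk => h1 _ ⟨k, hk, rfl⟩, by rintro h1 _ ⟨k, hk, rfl⟩; exact h1 k hk⟩
  have hinv : ∀ u ∈ rsp (cR c) b M, G4bInv Y c b β u := fun u hu => G4b_inv (fun v hv => by
    obtain ⟨j, hj, r, -, rfl⟩ := (memM v).1 hv
    exact G4b_inv_row h β hj r) hu
  obtain ⟨u, hu, hu0, hu1⟩ := hfr (cR c) (cq c) b h.hom w (el (cR c, cq c, w, M, ks))
    fun v hv => ((sel _ _ _ _ _).2 v hv).1.le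
  obtain ⟨hu2, hu3⟩ := (hel' u).1 hu
  have hw1 : (G4bw1 c).length = Y.l * (wd c).length := by rw [G4b_w1, h.l_eq]
  have hout : ∀ j < Y.l, fv Y c b (((idx (cL c)).map fun j => vsmul (cR c) (wd c) (rone (cR c))
      ((idx (wd c)).map fun k => (fr (cR c, cq c, w, el (cR c, cq c, w, M, ks))).getD
        (j * (wd c).length + k) [])).getD j []) = G4bT Y c j u := by
    intro j hj
    rw [R1_getD_idx, if_pos (h.l_eq ▸ hj), h.fv_vsmul, h.hom.rone, one_smul, G4b_T_apply, fv]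
    refine G4b_fn_congr fun k hk => ?_
    rw [← h.wd_eq] at hk
    rw [vec, R1_getD_idx, if_pos hk]
    refine hu1 _ ?_
    rw [hw, List.length_append, hw1]
    nlinarith
  refine ⟨(hS _).2 ⟨fun j hj => ?_, fun α hα d hd => ?_⟩, fun z hz ⟨j0, hj0, hz0⟩ => ?_⟩
  · rw [hout j hj]
    refine (Submodule.span_le (p := (Sp Y c b (B.getD j [])).comap (G4bT Y c j))).2 ?_ hu2
    rintro _ ⟨v, hv, rfl⟩
    obtain ⟨j', -, r, hr, rfl⟩ := (memM v).1 hv
    change G4bT Y c j _ ∈ Sp Y c b (B.getD j [])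
    rw [G4b_T_row h β j' r hj]
    split_ifs with e
    · exact fv_mem_Sp (e ▸ hr)
    · exact zero_mem _
  · rw [Finset.sum_congr rfl fun j hj => by rw [hout j (Finset.mem_range.1 hj)], G4b_ge hα _ hd]
    intro i hi
    have := hinv u hu2 α hα d hd i (by omega)
    rw [if_pos hi] at this
    rw [← this]
    refine Finset.sum_eq_zero fun k hk => ?_
    have hk' := Finset.mem_range.1 hk
    have : d * Y.l + i + 1 ≤ Y.l * Y.l := by nlinarith
    rw [(hks' u).1 hu3 _ (by nlinarith), zero_mul]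
  obtain ⟨z1, z2⟩ := (hS z).1 hz
  have hex : ∀ j, ∃ v ∈ rsp (cR c) b M, j < Y.l → ∀ j' < Y.l,
      G4bT Y c j' v = if j' = j then z j else 0 := by
    intro j
    by_cases hj : j < Y.l
    swap
    · exact ⟨0, zero_mem _, fun h' => absurd h' hj⟩
    obtain ⟨a, ha⟩ := mem_Sp.1 (z1 j hj)
    refine ⟨∑ i ∈ Finset.range (B.getD j []).length,
      a i • vec (cR c) b (G4brow c β j ((B.getD j []).getD i [])), sum_mem fun i hi =>
        Submodule.smul_mem _ _ (Submodule.subset_span ⟨_, (memM _).2 ⟨j, hj, _, ?_, rfl⟩, rfl⟩),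
      fun _ j' hj' => ?_⟩
    · rw [List.getD_eq_getElem _ _ (Finset.mem_range.1 hi)]
      exact List.getElem_mem _
    · simp only [map_sum, map_smul, G4b_T_row h β j _ hj']
      split_ifs
      · exact ha.symm
      · simp
  choose v hv1 hv2 using hex
  have hv3 : ∑ j ∈ Finset.range Y.l, v j ∈ rsp (cR c) b M := sum_mem fun j _ => hv1 j
  have hv4 : ∀ j < Y.l, G4bT Y c j (∑ j ∈ Finset.range Y.l, v j) = z j := by
    intro j hj
    rw [map_sum, Finset.sum_congr rfl fun i hi => hv2 i (Finset.mem_range.1 hi) j hj]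
    simp [hj]
  have hv5 : ∑ j ∈ Finset.range Y.l, v j ∈ rsp (cR c) b (el (cR c, cq c, w, M, ks)) := by
    refine (hel' _).2 ⟨hv3, (hks' _).2 fun k hk => ?_⟩
    have hl : 0 < Y.l := Y.prime.pos
    have hn : 0 < Y.n := lt_of_lt_of_le hl Y.l_le_n
    have hk1 : k / Y.n < Y.l * Y.l := Nat.div_lt_of_lt_mul (by rw [mul_comm]; exact hk)
    have hk2 : k / Y.n / Y.l < Y.l := Nat.div_lt_of_lt_mul hk1
    have := G4b_poly (fun i => (∑ j ∈ Finset.range Y.l, v j)
      ((k / Y.n / Y.l * Y.l + k / Y.n % Y.l) * Y.n + i + (G4bw1 c).length)) (fun α hα => by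
        rw [hinv _ hv3 α hα _ hk2 _ (Nat.mod_lt _ hl)]
        split_ifs with e
        · refine (G4b_ge hα _ hk2 _).1 ?_ _ e
          rw [Finset.sum_congr rfl fun j hj => by rw [hv4 j (Finset.mem_range.1 hj)]]
          exact z2 α hα _ hk2
        · rfl) (k % Y.n) (Nat.mod_lt _ hn)
    rwa [Nat.div_add_mod', Nat.div_add_mod'] at this
  have hu4 : u ≠ 0 := hu0 fun e => by
    rw [e, Submodule.mem_bot] at hv5
    exact hz0 (by rw [← hv4 j0 hj0, hv5, map_zero])
  by_contra hcon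
  push Not at hcon
  refine hu4 (funext fun k => ?_)
  change u k = 0
  by_cases hk : k < (G4bw1 c).length
  · rw [hw1] at hk
    have hp : 0 < (wd c).length := Nat.pos_of_ne_zero fun e => by simp [e] at hk
    have hk1 : k / (wd c).length < Y.l := Nat.div_lt_of_lt_mul (by rw [mul_comm]; exact hk)
    have e := hcon _ hk1
    rw [hout _ hk1, G4b_T_apply, Model.fn_eq_zero] at e
    have := e (k % (wd c).length) (by rw [← h.wd_eq]; exact Nat.mod_lt _ hp)
    rwa [Nat.div_add_mod'] at this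
  by_cases hk' : k < w.length
  · rw [hw, List.length_append, G4b_w2, h.l_eq, h.n_eq] at hk'
    have := (hks' u).1 hu3 (k - (G4bw1 c).length) (by omega)
    rwa [Nat.sub_add_cancel (by omega)] at this
  · refine (Submodule.span_le (p := LinearMap.ker (LinearMap.proj k : (ℕ → K) →ₗ[K] K))).2 ?_ hu
    rintro _ ⟨v, hv, rfl⟩
    exact vec_eq_zero _ _ (by rw [((sel _ _ _ _ _).2 v hv).1]; omega)

theorem exists_sst : ∃ F : Cx × El × Mx × List ℕ → Mx, TC 0 F ∧
    (∀ c β W iT, NmL (cR c) (cL c).length (wd c).length (F (c, β, W, iT))) ∧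
    ∀ {K L Pt : Type} [Field K] [Field L] [Algebra K L] (Y : Model K L Pt) (m : ℕ) (c : Cx)
      (b : ℕ → K), Sem Y m c b → ∀ (β : El) (W : Mx) (iT : List ℕ) (Z : Pt →₀ ℤ),
      Rep Y c b W Z → degree Z = ((Y.l * (Y.n ^ 2 + 1) : ℕ) : ℤ) →
      iT.length ≤ Y.l * (2 * Y.n + 1) →
      Y.SS Z (Y.n ^ 2 + 1) (fun α => evA c b α β) iT.length
        (fun j => fv Y c b ((F (c, β, W, iT)).getD j [])) ∧
      ∀ z, Y.SS Z (Y.n ^ 2 + 1) (fun α => evA c b α β) iT.length z → (∃ j < Y.l, z j ≠ 0) →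
        ∃ j < Y.l, fv Y c b ((F (c, β, W, iT)).getD j []) ≠ 0 := by
  obtain ⟨F, tF, sF, hF⟩ := G4b_solve
  obtain ⟨lvl, tlvl, -, hlvl⟩ := exists_lvl
  obtain ⟨gU, tgU, -, hgU⟩ := exists_gU
  obtain ⟨gm, tgm, -, hgm⟩ := exists_gmul
  obtain ⟨ri, tri, -, hri⟩ := exists_repInf
  refine ⟨fun a => F (a.1, a.2.1, (idx (cL a.1)).map fun j => lvl (a.1,
    j * ((cmd a.1).length * (cmd a.1).length + 1) + (2 * (cmd a.1).length + 1),
    gm (a.1, a.2.2.2, gU (a.1, (cL a.1).take j, a.2.2.1), ri a.1))), by fun_prop,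
    fun c β W iT => sF _ _ _, ?_⟩
  intro K L Pt _ _ _ Y m c b h β W iT Z hZ hd hT
  refine hF Y m c b h β _ _ fun z => and_congr_left' (forall₂_congr fun j hj => ?_)
  have hl := Y.l_le_n
  have e : ((cL c).take j).length = j := by rw [List.length_take, h.l_eq]; omega
  have s1 : j * (Y.l * (Y.n ^ 2 + 1)) + iT.length ≤ (Y.n + 1) ^ 5 := by
    calc _ ≤ Y.n * (Y.n * (Y.n ^ 2 + 1)) + Y.n * (2 * Y.n + 1) := by
          gcongr
          · omega
          · exact hT.trans (by gcongr)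
      _ ≤ _ := by ring_nf; omega
  have r1 := hgU Y m c b h ((cL c).take j) W Z hZ (by
    unfold Small
    rw [Model.degree_uE, hd, e]
    exact_mod_cast (by omega : j * (Y.l * (Y.n ^ 2 + 1)) ≤ _))
  have r2 := hgm Y m c b h iT _ _ _ _ r1 (hri Y m c b h) (by
    unfold Small
    rw [map_add, Model.degree_uE, hd, e, map_zsmul, degree_single, smul_eq_mul, mul_one]
    exact_mod_cast s1)
  rw [R1_getD_idx, if_pos (h.l_eq ▸ hj), hlvl Y m c b h _ _ _ ?_ r2, e, h.n_eq, smul_single,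
    smul_eq_mul, mul_one, pow_two, sub_sub]
  rw [h.n_eq]
  calc _ ≤ Y.n * (Y.n * Y.n + 1) + (2 * Y.n + 1) := by gcongr; omega
    _ ≤ _ := by ring_nf; omega

end Vale.Agent.P319
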