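import Vale.Agent.P319.T3

/-! T8a: reduced basis and its dual.  Let `N k = LL (k H + (l - 1) Ram - E)`.  Among the tuples
`(e r, w r)`, `w r ∈ N (e r)`, `det (σ ^ j (w r)) ≠ 0` take one minimizing `∑ e r` (exists:
`w r = h(x) y ^ r`, Vandermonde; `N k = ⊥` for very negative `k`).  Let `B` be the inverse matrix,
`w' r = B r 0`; then `B r j = σ ^ j (w' r)`, and every `u` is `∑ g r * w r` with
`g r = ∑_j σ ^ j (w' r * u)` fixed by `σ`.
(A) if `u ∈ N k` and `g r ≠ 0` then `e r ≤ k` (replace `w r` by `u`; `det` is multiplied by `g r`).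
(B) if `u` satisfies the conditions of `N k` at the points over `a` (resp. at infinity), then `g r`
has no pole there (resp. order `≥ e r - k`): otherwise the leading terms give
`∑ κ r * w r / (x - a)` (resp. `∑ κ r * x ^ (e_max - e r) * w r`) in `N (e_max - 1)`.
(A function fixed by `σ` has the same order and value at all points of a fibre; the order is a
multiple of the order of `x - a`.)
(C) if `w' r` violated the bound at `Q`, choose `u` of exact order at `Q` and of huge order at the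
other points of the fibre (powers of `y - py Q'`, resp. `y / x ^ n1 - py Q'`), at a ramification
point `u = y ^ c`, `-l < c ≤ 0`, `l ∣ c + ord (w' r)`; then `g r` has a pole of too large order. -/

namespace Vale.Agent.P319
open Polynomial Finsupp
namespace Model
variable {K L Pt : Type} [Field K] [Field L] [Algebra K L] {Y : Model K L Pt}

/-- `w'` is the dual basis of `w` -/
def T8aD (Y : Model K L Pt) (w w' : ℕ → L) : Prop :=
  ∀ i < Y.l, ∀ j < Y.l, ∑ r ∈ Finset.range Y.l, (Y.σ ^ i) (w' r) * (Y.σ ^ j) (w r) =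
    if i = j then 1 else 0

/-- the trace -/
noncomputable def T8aT (Y : Model K L Pt) (v : L) : L := ∑ j ∈ Finset.range Y.l, (Y.σ ^ j) v

theorem T8a_fix {g : L} (h : Y.σ g = g) (j : ℕ) : (Y.σ ^ j) g = g := by
  induction j with
  | zero => simp
  | succ j ih => rw [pow_succ, AlgEquiv.mul_apply, h, ih]

theorem T8aT_fixed (v : L) : Y.σ (T8aT Y v) = T8aT Y v := by
  have h := Finset.sum_range_succ (fun j => (Y.σ ^ j) v) Y.l
  rw [Finset.sum_range_succ', Y.σ_pow_l, pow_zero, add_left_inj] at h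
  rw [T8aT, map_sum, ← h]
  refine Finset.sum_congr rfl fun j _ => ?_
  rw [pow_succ', AlgEquiv.mul_apply]

theorem T8aD.ne {w w' : ℕ → L} (h : T8aD Y w w') {r : ℕ} (hr : r < Y.l) : w r ≠ 0 := by
  intro h0
  let A : Matrix (Fin Y.l) (Fin Y.l) L := Matrix.of fun r j => (Y.σ ^ j.1) (w r)
  let B : Matrix (Fin Y.l) (Fin Y.l) L := Matrix.of fun i r => (Y.σ ^ i.1) (w' r)
  have h1 : B * A = 1 := by
    ext i j
    have := h i i.2 j j.2
    rw [Finset.sum_range] at this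
    simp only [Matrix.mul_apply, A, B, Matrix.of_apply, this, Matrix.one_apply, Fin.ext_iff]
  have h3 : A * B = 1 := mul_eq_one_comm.1 h1
  have h2 : (A * B) ⟨r, hr⟩ ⟨r, hr⟩ = 1 := by rw [h3, Matrix.one_apply_eq]
  simp [Matrix.mul_apply, A, h0] at h2

theorem T8aD.repr {w w' : ℕ → L} (h : T8aD Y w w') (u : L) :
    u = ∑ r ∈ Finset.range Y.l, T8aT Y (w' r * u) * w r := by
  have hl : 0 < Y.l := by have := Y.two_le; omega
  simp only [T8aT, Finset.sum_mul]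
  rw [Finset.sum_comm]
  have : ∀ i ∈ Finset.range Y.l, ∑ r ∈ Finset.range Y.l, (Y.σ ^ i) (w' r * u) * w r =
      if i = 0 then (Y.σ ^ i) u else 0 := by
    intro i hi
    have h1 := h i (Finset.mem_range.1 hi) 0 hl
    simp only [pow_zero, AlgEquiv.one_apply] at h1
    rw [← boole_mul, ← h1, Finset.sum_mul]
    exact Finset.sum_congr rfl fun r _ => by rw [map_mul]; ring
  rw [Finset.sum_congr rfl this]
  simp [hl]

theorem T8aD.swap {w w' g : ℕ → L} (h : T8aD Y w w') (hg : ∀ r, Y.σ (g r) = g r) {r0 : ℕ}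
    (hr : r0 < Y.l) (h0 : g r0 ≠ 0) :
    ∃ w'', T8aD Y (Function.update w r0 (∑ r ∈ Finset.range Y.l, g r * w r)) w'' := by
  refine ⟨Function.update (fun r => w' r - g r / g r0 * w' r0) r0 (w' r0 / g r0),
    fun i hi j hj => ?_⟩
  have hm := Finset.mem_range.2 hr
  rw [← h i hi j hj, ← Finset.add_sum_erase _ _ hm, ← Finset.add_sum_erase _ _ hm,
    ← Finset.add_sum_erase _ _ hm, Function.update_self, Function.update_self]
  have e : ∑ r ∈ (Finset.range Y.l).erase r0,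
      (Y.σ ^ i) (Function.update (fun r => w' r - g r / g r0 * w' r0) r0 (w' r0 / g r0) r) *
      (Y.σ ^ j) (Function.update w r0
        (g r0 * w r0 + ∑ r ∈ (Finset.range Y.l).erase r0, g r * w r) r) =
      ∑ r ∈ (Finset.range Y.l).erase r0, (Y.σ ^ i) (w' r) * (Y.σ ^ j) (w r) -
        (Y.σ ^ i) (w' r0) / g r0 * ∑ r ∈ (Finset.range Y.l).erase r0, g r * (Y.σ ^ j) (w r) := by
    rw [Finset.mul_sum, ← Finset.sum_sub_distrib]
    refine Finset.sum_congr rfl fun r hr => ?_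
    have := Finset.ne_of_mem_erase hr
    rw [Function.update_of_ne this, Function.update_of_ne this]
    simp only [map_sub, map_mul, map_div₀, T8a_fix (hg _)]
    ring
  rw [e]
  simp only [map_add, map_sum, map_mul, map_div₀, T8a_fix (hg _)]
  field_simp
  ring

theorem T8a_bound (D : Pt →₀ ℤ) :
    ∃ u, u ≠ 0 ∧ Y.σ u = u ∧ ∃ m : ℕ, u ∈ Y.LL ((m : ℤ) • Y.H + D) := by
  classical
  have key : ∀ Z, 0 ≤ Z → ∃ u, u ≠ 0 ∧ Y.σ u = u ∧ ∃ m : ℕ, u ∈ Y.LL ((m : ℤ) • Y.H - Z) := by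
    have h1 : (1 : L) ∈ Y.LL Y.H := by
      simpa using mono_mem_LL (Y := Y) (a := 0) (b := 0) (m := 1) (by simp)
    refine T3_ind ⟨1, one_ne_zero, map_one _, 1, by simpa using h1⟩ ?_
    rintro Z R - ⟨u, hu, hσ, m, hm⟩
    obtain ⟨v, hv, hv', hR⟩ : ∃ v, v ≠ 0 ∧ Y.σ v = v ∧ v ∈ Y.LL (Y.H - single R 1) := by
      cases hR : Y.px R with
      | none =>
        exact ⟨1, one_ne_zero, map_one _,
          T3_sub_single h1 (Or.inr (by rw [H_inf hR, ord_one]; simp))⟩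
      | some a =>
        refine ⟨_, Y.x_sub_ne a, by simp [Y.σ_x], T3_sub_single (T3_x_sub a) ?_⟩
        simpa [H_fin (Y := Y) (Q := R) (by simp [hR]), Val] using val_x hR
    refine ⟨u * v, mul_ne_zero hu hv, by rw [map_mul, hσ, hv'], m + 1, ?_⟩
    convert mul_mem_LL hm hR using 2
    push_cast
    module
  obtain ⟨u, hu, hσ, m, hm⟩ := key (-D ⊔ 0) le_sup_right
  refine ⟨u, hu, hσ, m, LL_mono ?_ hm⟩
  rw [sub_eq_add_neg]
  exact add_le_add le_rfl (neg_le.1 le_sup_left)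

theorem T8a_init (D : Pt →₀ ℤ) : ∃ (e : ℕ → ℤ) (w w' : ℕ → L),
    (∀ r < Y.l, w r ∈ Y.LL (e r • Y.H + D)) ∧ T8aD Y w w' := by
  obtain ⟨u, hu, hσ, m, hm⟩ := T8a_bound (Y := Y) D
  refine ⟨fun r => (Y.n1 * r : ℕ) + m, fun r => Y.y ^ r * u,
    fun r => (algebraMap K L Y.l * (Y.y ^ r * u))⁻¹, fun r _ => ?_, fun i hi j hj => ?_⟩
  · have := mul_mem_LL (mono_mem_LL (Y := Y) (a := 0) (b := r) (m := Y.n1 * r) (by simp)) hm
    rw [pow_zero, one_mul] at this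
    convert this using 2
    module
  · have hz := Y.ζ_ne
    have e : ∀ r ∈ Finset.range Y.l,
        (Y.σ ^ i) (algebraMap K L Y.l * (Y.y ^ r * u))⁻¹ * (Y.σ ^ j) (Y.y ^ r * u) =
        algebraMap K L ((Y.l : K)⁻¹ * (Y.ζ ^ j / Y.ζ ^ i) ^ r) := by
      intro r _
      have h1 := Y.y_ne
      have h2 : algebraMap K L Y.ζ ≠ 0 := by simpa using hz
      have h3 : algebraMap K L Y.l ≠ 0 := (_root_.map_ne_zero _).2 Y.l_ne
      simp only [map_inv₀, map_mul, map_pow, AlgEquiv.commutes, T8a_fix hσ, Y.σ_pow_y, map_div₀,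
        mul_pow, div_pow]
      field_simp
    rw [Finset.sum_congr rfl e, ← map_sum, ← Finset.mul_sum]
    split_ifs with h
    · simp [h, div_self (pow_ne_zero j hz), inv_mul_cancel₀ Y.l_ne]
    · have h1 : Y.ζ ^ j / Y.ζ ^ i ≠ 1 := fun hc =>
        h (Y.prim.pow_inj hi hj ((div_eq_one_iff_eq (pow_ne_zero i hz)).1 hc).symm)
      have h2 : (Y.ζ ^ j / Y.ζ ^ i) ^ Y.l = 1 := by
        rw [div_pow, ← pow_mul, ← pow_mul, mul_comm j, mul_comm i, pow_mul, pow_mul,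
          Y.prim.pow_eq_one]
        simp
      rw [geom_sum_eq h1, h2]
      simp

/-- a reduced basis -/
structure T8aR (Y : Model K L Pt) (D : Pt →₀ ℤ) (e : ℕ → ℤ) (w w' : ℕ → L) : Prop where
  mem : ∀ r < Y.l, w r ∈ Y.LL (e r • Y.H + D)
  dual : T8aD Y w w'
  red : ∀ (g : ℕ → L) (k : ℤ), (∀ r, Y.σ (g r) = g r) →
    ∑ r ∈ Finset.range Y.l, g r * w r ∈ Y.LL (k • Y.H + D) → ∀ r < Y.l, g r ≠ 0 → e r ≤ k

theorem T8a_min (D : Pt →₀ ℤ) : ∃ e w w', T8aR Y D e w w' := by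
  obtain ⟨S, ⟨e, w, w', h1, h2, rfl⟩, hmin⟩ := Int.exists_least_of_bdd
    (P := fun S => ∃ (e : ℕ → ℤ) (w w' : ℕ → L), (∀ r < Y.l, w r ∈ Y.LL (e r • Y.H + D)) ∧
      T8aD Y w w' ∧ S = ∑ r ∈ Finset.range Y.l, e r)
    ⟨∑ _r ∈ Finset.range Y.l, -|degree D|, by
      rintro _ ⟨e, w, w', h1, h2, rfl⟩
      refine Finset.sum_le_sum fun r hr => ?_
      have hr := Finset.mem_range.1 hr
      have h3 : 0 ≤ degree (e r • Y.H + D) := by
        by_contra hc
        have := h1 r hr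
        rw [LL_eq_bot (not_le.1 hc)] at this
        exact h2.ne hr this
      rw [map_add, map_zsmul, degree_H, smul_eq_mul] at h3
      have h4 : (2 : ℤ) ≤ Y.l := by exact_mod_cast Y.two_le
      have := le_abs_self (degree D)
      have := abs_nonneg (degree D)
      nlinarith⟩
    (by
      obtain ⟨e, w, w', h1, h2⟩ := T8a_init (Y := Y) D
      exact ⟨_, e, w, w', h1, h2, rfl⟩)
  refine ⟨e, w, w', h1, h2, fun g k hg hu r0 hr h0 => ?_⟩
  obtain ⟨w'', h3⟩ := h2.swap hg hr h0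
  have := hmin _ ⟨Function.update e r0 k, _, w'', fun r hr => ?_, h3, rfl⟩
  · have hm := Finset.mem_range.2 hr
    rw [Finset.sum_update_of_mem hm, ← Finset.add_sum_erase _ _ hm, Finset.sdiff_singleton_eq_erase]
      at this
    omega
  · by_cases h : r = r0
    · subst h
      simpa using hu
    · simpa [Function.update_of_ne h] using h1 r hr

theorem T8a_fib {g : L} {Q Q' : Pt} {k : ℤ} (hg : Y.σ g = g) (h : Y.px Q = Y.px Q')
    (h1 : Y.Ge Q k g) : Y.Ge Q' k g := by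
  obtain ⟨j, -, rfl⟩ := fibre h
  rw [← T8a_fix hg j]
  exact (ge_σ_pow j).2 h1

/-- leading coefficients of a family of rational functions of `x` -/
theorem T8a_lead {Q0 : Pt} {t : L} (ht : Y.σ t = t) (ht0 : t ≠ 0) (hpos : 0 < Y.ord Q0 t)
    (hdiv : ∀ g, Y.σ g = g → Y.ord Q0 t ∣ Y.ord Q0 g) (G : ℕ → L) (hG : ∀ r, Y.σ (G r) = G r)
    (hbad : ∃ r < Y.l, ¬ Y.Ge Q0 0 (G r)) :
    ∃ (M : ℕ) (κ : ℕ → K), (∃ r < Y.l, κ r ≠ 0) ∧ ∀ r < Y.l, ∀ Q, Y.px Q0 = Y.px Q →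
      Y.Ge Q 0 (t ^ M * G r - algebraMap K L (κ r) / t) := by
  classical
  have hex : ∃ M : ℕ, ∀ r < Y.l, Y.Ge Q0 0 (t ^ M * G r) := by
    refine ⟨∑ r ∈ Finset.range Y.l, (-Y.ord Q0 (G r)).toNat, fun r hr => ?_⟩
    refine ((ge_ord.pow _).mul ge_ord).mono ?_
    have h1 := Finset.single_le_sum (f := fun r => (-Y.ord Q0 (G r)).toNat)
      (fun _ _ => Nat.zero_le _) (Finset.mem_range.2 hr)
    generalize ∑ r ∈ Finset.range Y.l, (-Y.ord Q0 (G r)).toNat = M at h1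
    have h2 : -Y.ord Q0 (G r) ≤ M := by omega
    nlinarith
  have h0 : Nat.find hex ≠ 0 := by
    intro hc
    obtain ⟨r, hr, h⟩ := hbad
    have := Nat.find_spec hex r hr
    rw [hc] at this
    exact h (by simpa using this)
  obtain ⟨M, hM⟩ := Nat.exists_eq_succ_of_ne_zero h0
  have h1 := Nat.find_spec hex
  have h2 := Nat.find_min hex (m := M) (by omega)
  rw [hM] at h1
  choose! κ hκ using fun r hr => (h1 r hr).exists_val
  have key : ∀ r < Y.l, Y.Ge Q0 0 (t ^ M * G r - algebraMap K L (κ r) / t) := by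
    intro r hr
    have e : t ^ M * G r - algebraMap K L (κ r) / t =
        (t ^ M.succ * G r - algebraMap K L (κ r)) * t⁻¹ := by
      rw [pow_succ]
      field_simp
    rw [e]
    rcases hκ r hr with h | h
    · exact Or.inl (by rw [h, zero_mul])
    · refine (ge_ord.mul ge_ord).mono ?_
      have := Int.le_of_dvd (by omega) (hdiv (t ^ M.succ * G r - algebraMap K L (κ r))
        (by simp [ht, hG]))
      rw [ord_inv]
      omega
  refine ⟨M, κ, ?_, fun r hr Q hQ => T8a_fib (by simp [ht, hG]) hQ (key r hr)⟩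
  by_contra hc
  push Not at hc
  exact h2 fun r hr => by simpa [hc r hr] using key r hr

theorem T8a_max (e : ℕ → ℤ) {κ : ℕ → K} (h : ∃ r < Y.l, κ r ≠ 0) :
    ∃ r0 < Y.l, κ r0 ≠ 0 ∧ ∀ r < Y.l, κ r ≠ 0 → e r ≤ e r0 := by
  classical
  obtain ⟨r, hr, h⟩ := h
  obtain ⟨r0, h0, h1⟩ := ((Finset.range Y.l).filter fun r => κ r ≠ 0).exists_max_image e
    ⟨r, by simp [hr, h]⟩
  simp only [Finset.mem_filter, Finset.mem_range] at h0 h1
  exact ⟨r0, h0.1, h0.2, fun r hr h => h1 r ⟨hr, h⟩⟩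

theorem T8aR.fin {D : Pt →₀ ℤ} {e : ℕ → ℤ} {w w' g : ℕ → L} (h : T8aR Y D e w w')
    (hg : ∀ r, Y.σ (g r) = g r) {a : K} {Q0 : Pt} (h0 : Y.px Q0 = some a)
    (hu : ∀ Q, Y.px Q = some a → Y.Ge Q (-D Q) (∑ r ∈ Finset.range Y.l, g r * w r)) :
    ∀ r < Y.l, Y.Ge Q0 0 (g r) := by
  by_contra hc
  push Not at hc
  have ht : Y.σ (Y.x - algebraMap K L a) = Y.x - algebraMap K L a := by simp [Y.σ_x]
  have ht0 := Y.x_sub_ne a
  obtain ⟨M, κ, h1, h2⟩ := T8a_lead ht ht0 ((val_x h0).resolve_left ht0) (fun g hg => by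
    by_cases hy : Y.py Q0 = 0
    · rw [Y.ord_xP Q0 a h0 hy]
      exact dvd_ord_of_fixed hy hg
    · rw [Y.ord_x Q0 a h0 hy]
      exact one_dvd _) g hg hc
  obtain ⟨r0, hr0, hκ, hmax⟩ := T8a_max e h1
  have := h.red (fun r => algebraMap K L (κ r) / (Y.x - algebraMap K L a)) (e r0 - 1)
    (fun r => by simp [ht]) (fun Q => ?_) r0 hr0 (div_ne_zero (by simpa using hκ) ht0)
  · omega
  by_cases hQ : Y.px Q = some a
  · have hH : Y.H Q = 0 := H_fin (by simp [hQ])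
    have e1 : ∑ r ∈ Finset.range Y.l, algebraMap K L (κ r) / (Y.x - algebraMap K L a) * w r =
        (Y.x - algebraMap K L a) ^ M * ∑ r ∈ Finset.range Y.l, g r * w r -
        ∑ r ∈ Finset.range Y.l, ((Y.x - algebraMap K L a) ^ M * g r -
          algebraMap K L (κ r) / (Y.x - algebraMap K L a)) * w r := by
      rw [Finset.mul_sum, ← Finset.sum_sub_distrib]
      exact Finset.sum_congr rfl fun r _ => by ring
    rw [e1]
    refine Ge.sub (((Ge.pow (val_x hQ) M).mul (hu Q hQ)).mono (by simp [hH]))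
      (Ge.sum fun r hr => ?_)
    have hr := Finset.mem_range.1 hr
    exact ((h2 r hr Q (h0.trans hQ.symm)).mul (h.mem r hr Q)).mono (by simp [hH])
  refine Ge.sum fun r hr => ?_
  have hr := Finset.mem_range.1 hr
  by_cases hk : κ r = 0
  · exact Or.inl (by simp [hk])
  have hle := hmax r hr hk
  rw [div_eq_mul_inv]
  refine ((ge_c.mul ge_ord).mul (h.mem r hr Q)).mono ?_
  rw [ord_inv]
  cases hQ' : Y.px Q with
  | none =>
    have := ord_aeval_inf hQ' (X_sub_C_ne_zero a)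
    simp only [map_sub, aeval_X, aeval_C, natDegree_X_sub_C] at this
    simp [this, H_inf hQ']
    omega
  | some a' =>
    have hv := ((val_x hQ').sub (val_c (c := a))).ord_eq
      (sub_ne_zero.2 fun hc => hQ (by rw [hQ', hc]))
    simp [hv.2, H_fin (Y := Y) (Q := Q) (by simp [hQ'])]

theorem T8aR.inf {D : Pt →₀ ℤ} {e : ℕ → ℤ} {w w' g : ℕ → L} (h : T8aR Y D e w w')
    (hg : ∀ r, Y.σ (g r) = g r) {Q0 : Pt} (h0 : Y.px Q0 = none)
    (hu : ∀ Q, Y.px Q = none → Y.Ge Q (-D Q) (∑ r ∈ Finset.range Y.l, g r * w r)) :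
    ∀ r < Y.l, Y.Ge Q0 (e r) (g r) := by
  have hx := Y.x_ne
  suffices H : ∀ r < Y.l, Y.Ge Q0 0 (Y.x ^ e r * g r) by
    intro r hr
    have := (ge_ord (Y := Y) (Q := Q0) (u := Y.x ^ (-e r))).mul (H r hr)
    rw [← mul_assoc, ← zpow_add₀ hx, ord_zpow, Y.ord_x_inf Q0 h0] at this
    simpa using this
  by_contra hc
  push Not at hc
  have ho : ∀ Q, Y.px Q = none → Y.ord Q Y.x⁻¹ = 1 := fun Q hQ => by
    rw [ord_inv, Y.ord_x_inf Q hQ, neg_neg]
  obtain ⟨M, κ, h1, h2⟩ := T8a_lead (Y := Y) (Q0 := Q0) (t := Y.x⁻¹) (by simp [Y.σ_x])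
    (inv_ne_zero hx) (by rw [ho Q0 h0]; exact one_pos) (fun g _ => by rw [ho Q0 h0]; exact one_dvd _)
    (fun r => Y.x ^ e r * g r) (fun r => by simp [Y.σ_x, hg]) hc
  obtain ⟨r0, hr0, hκ, hmax⟩ := T8a_max e h1
  have := h.red (fun r => algebraMap K L (κ r) * Y.x ^ (e r0 - e r)) (e r0 - 1)
    (fun r => by simp [Y.σ_x]) (fun Q => ?_) r0 hr0
    (mul_ne_zero (by simpa using hκ) (zpow_ne_zero _ hx))
  · omega
  cases hQ : Y.px Q with
  | none =>
    have hH : Y.H Q = 1 := H_inf hQ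
    have e1 : ∑ r ∈ Finset.range Y.l, algebraMap K L (κ r) * Y.x ^ (e r0 - e r) * w r =
        Y.x ^ (e r0 - 1) * (Y.x⁻¹ ^ M * ∑ r ∈ Finset.range Y.l, g r * w r) -
        ∑ r ∈ Finset.range Y.l, Y.x ^ (e r0 - 1 - e r) * ((Y.x⁻¹ ^ M * (Y.x ^ e r * g r) -
          algebraMap K L (κ r) / Y.x⁻¹) * w r) := by
      rw [Finset.mul_sum, Finset.mul_sum, ← Finset.sum_sub_distrib]
      refine Finset.sum_congr rfl fun r _ => ?_
      have := zpow_ne_zero (e r) hx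
      simp only [zpow_sub₀ hx, zpow_one]
      field_simp
      ring
    rw [e1]
    refine Ge.sub ((ge_ord.mul ((ge_ord.pow M).mul (hu Q hQ))).mono ?_) (Ge.sum fun r hr => ?_)
    · simp [ord_zpow, ho Q hQ, Y.ord_x_inf Q hQ, hH]
      omega
    have hr := Finset.mem_range.1 hr
    refine (ge_ord.mul ((h2 r hr Q (h0.trans hQ.symm)).mul (h.mem r hr Q))).mono ?_
    simp [ord_zpow, Y.ord_x_inf Q hQ, hH]
    omega
  | some a =>
    refine Ge.sum fun r hr => ?_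
    have hr := Finset.mem_range.1 hr
    by_cases hk : κ r = 0
    · exact Or.inl (by simp [hk])
    obtain ⟨j, hj⟩ := Int.eq_ofNat_of_zero_le (sub_nonneg.2 (hmax r hr hk))
    rw [hj, zpow_natCast]
    refine ((ge_c.mul ((val_x hQ).ge.pow j)).mul (h.mem r hr Q)).mono ?_
    simp [H_fin (Y := Y) (Q := Q) (by simp [hQ])]

/-- separating the points of an unramified fibre -/
theorem T8a_sep {Q : Pt} (h : Y.py Q ≠ 0) (m : ℤ) (N : Pt → ℤ) : ∃ u, u ≠ 0 ∧ Y.ord Q u = m ∧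
    ∀ Q', Y.px Q = Y.px Q' → Q' ≠ Q → Y.Ge Q' (N Q') u := by
  obtain ⟨t, z, ht, ht', ho, hz⟩ : ∃ t z : L, t ≠ 0 ∧ Y.σ t = t ∧ Y.ord Q t = 1 ∧
      ∀ Q', Y.px Q = Y.px Q' → Y.Val Q' z (Y.py Q') := by
    cases hQ : Y.px Q with
    | none =>
      exact ⟨Y.x⁻¹, Y.y / Y.x ^ Y.n1, inv_ne_zero Y.x_ne, by simp [Y.σ_x],
        by rw [ord_inv, Y.ord_x_inf Q hQ, neg_neg], fun Q' h' => Or.inr (Y.ord_y_inf Q' h'.symm)⟩
    | some a =>
      exact ⟨_, Y.y, Y.x_sub_ne a, by simp [Y.σ_x], Y.ord_x Q a hQ h, fun Q' h' => val_y h'.symm⟩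
  have hp : ∀ Q', Y.px Q = Y.px Q' → Y.Val Q'
      (∏ j ∈ Finset.Ico 1 Y.l, (z - algebraMap K L (Y.py ((Y.s ^ j) Q))))
      (∏ j ∈ Finset.Ico 1 Y.l, (Y.py Q' - Y.py ((Y.s ^ j) Q))) :=
    fun Q' h' => Val.prod fun j _ => (hz Q' h').sub val_c
  have h1 := (hp Q rfl).ord_eq (Finset.prod_ne_zero_iff.2 fun j hj => sub_ne_zero.2 fun hc => by
    have hj := Finset.mem_Ico.1 hj
    have := free h (i := 0) (j := j) (by omega) hj.2
      (by simpa using Y.pt_inj _ _ (px_s_pow j).symm hc)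
    omega)
  refine ⟨t ^ m * (∏ j ∈ Finset.Ico 1 Y.l, (z - algebraMap K L (Y.py ((Y.s ^ j) Q)))) ^
    (∑ j ∈ Finset.range Y.l, (N ((Y.s ^ j) Q) - m).toNat),
    mul_ne_zero (zpow_ne_zero _ ht) (pow_ne_zero _ h1.1), ?_, fun Q' h' hne => ?_⟩
  · rw [Y.ord_mul Q _ _ (zpow_ne_zero _ ht) (pow_ne_zero _ h1.1), ord_zpow, ord_pow, ho, h1.2]
    simp
  · have h2 := hp Q' h'
    obtain ⟨j, hj, rfl⟩ := fibre h'
    have hj0 : j ≠ 0 := by
      rintro rfl
      exact hne (by simp)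
    rw [Finset.prod_eq_zero (i := j) (f := fun i => Y.py ((Y.s ^ j) Q) - Y.py ((Y.s ^ i) Q))
      (Finset.mem_Ico.2 ⟨by omega, hj⟩) (sub_self _), val_zero_iff] at h2
    have h3 : Y.Ge ((Y.s ^ j) Q) m (t ^ m) :=
      T8a_fib (by simp [ht']) h' (Or.inr (by rw [ord_zpow, ho, mul_one]))
    refine (h3.mul (h2.pow _)).mono ?_
    have h4 := Finset.single_le_sum (f := fun j => (N ((Y.s ^ j) Q) - m).toNat)
      (fun _ _ => Nat.zero_le _) (Finset.mem_range.2 hj)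
    generalize ∑ j ∈ Finset.range Y.l, (N ((Y.s ^ j) Q) - m).toNat = S at h4
    omega

theorem T8a_tr_unram {Q : Pt} (h : Y.py Q ≠ 0) {v : L} {k : ℤ} (h1 : Y.Ge Q k (T8aT Y v))
    (h2 : ∀ Q', Y.px Q = Y.px Q' → Q' ≠ Q → Y.Ge Q' k v) : Y.Ge Q k v := by
  have hl : 0 < Y.l := by have := Y.two_le; omega
  have e : v = T8aT Y v - ∑ j ∈ (Finset.range Y.l).erase 0, (Y.σ ^ j) v := by
    rw [T8aT, ← Finset.add_sum_erase _ _ (Finset.mem_range.2 hl)]
    simp
  rw [e]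
  refine h1.sub (Ge.sum fun j hj => ?_)
  have hj0 := Finset.ne_of_mem_erase hj
  have hj := Finset.mem_range.1 (Finset.mem_of_mem_erase hj)
  have e2 : (Y.s ^ j) ((Y.s ^ (Y.l - j)) Q) = Q := by
    rw [← Equiv.Perm.mul_apply, ← pow_add, Nat.add_sub_cancel' hj.le, Y.s_pow_l]
    rfl
  rw [← e2]
  refine (ge_σ_pow j).2 (h2 _ (px_s_pow _).symm fun hc => ?_)
  have := free h (i := Y.l - j) (j := 0) (by omega) hl (by simpa using hc)
  omega

theorem T8a_tr_ram {Q : Pt} (h : Y.py Q = 0) {v : L} (hv : v ≠ 0) (hd : (Y.l : ℤ) ∣ Y.ord Q v) :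
    T8aT Y v ≠ 0 ∧ Y.ord Q (T8aT Y v) = Y.ord Q v := by
  have hs : ∀ j : ℕ, (Y.s ^ j) Q = Q := fun j =>
    Function.IsFixedPt.perm_pow (s_ram h) j
  have key : ∀ j : ℕ, Y.Val Q ((Y.σ ^ j) v / v) 1 := by
    intro j
    induction j with
    | zero => simpa [div_self hv] using val_c (Y := Y) (Q := Q) (c := 1)
    | succ j ih =>
      have h0 : (Y.σ ^ j) v ≠ 0 := (_root_.map_ne_zero _).2 hv
      have h1 := val_σ_div h h0
      have h2 := ord_σ_pow (Y := Y) (Q := Q) (u := v) j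
      rw [hs] at h2
      rw [h2, (Y.prim.zpow_eq_one_iff_dvd _).2 hd] at h1
      have h3 := h1.mul ih
      rwa [div_mul_div_cancel₀ h0, mul_one, ← AlgEquiv.mul_apply, ← pow_succ'] at h3
  have h1 := (Val.sum (S := Finset.range Y.l) fun j _ => key j).ord_eq (by simpa using Y.l_ne)
  rw [← Finset.sum_div] at h1
  have h2 : T8aT Y v ≠ 0 := fun hc => h1.1 (by rw [← T8aT, hc, zero_div])
  refine ⟨h2, ?_⟩
  have := h1.2
  rw [← T8aT, ord_div h2 hv] at this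
  omega

theorem exists_reduced {E : Pt →₀ ℤ} (hE : Y.Avoid E) : ∃ (e : ℕ → ℤ) (w w' : ℕ → L),
    (∀ r < Y.l, w r ∈ Y.LL (e r • Y.H + ((Y.l - 1 : ℕ) : ℤ) • Y.Ram - E)) ∧
    (∀ r < Y.l, w' r ∈ Y.LL (-e r • Y.H + E)) ∧
    ∀ i < Y.l, ∀ j < Y.l, ∑ r ∈ Finset.range Y.l, (Y.σ ^ i) (w' r) * (Y.σ ^ j) (w r) =
      if i = j then 1 else 0 := by
  obtain ⟨e, w, w', h⟩ := T8a_min (Y := Y) (((Y.l - 1 : ℕ) : ℤ) • Y.Ram - E)
  refine ⟨e, w, w', fun r hr => by rw [add_sub_assoc]; exact h.mem r hr, fun r hr Q => ?_, h.dual⟩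
  by_cases hw : w' r = 0
  · exact Or.inl hw
  refine Or.inr ?_
  by_cases hy : Y.py Q = 0
  · obtain ⟨α, hα, rfl⟩ := eq_P hy
    have hl : (2 : ℤ) ≤ Y.l := by exact_mod_cast Y.two_le
    have h1 := Int.emod_nonneg (Y.ord (Y.P α) (w' r)) (show (Y.l : ℤ) ≠ 0 by omega)
    have h2 := Int.emod_lt_of_pos (Y.ord (Y.P α) (w' r)) (show (0 : ℤ) < Y.l by omega)
    have h3 := Int.dvd_self_sub_emod (x := Y.ord (Y.P α) (w' r)) (m := Y.l)
    generalize Y.ord (Y.P α) (w' r) % Y.l = c at h1 h2 h3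
    have hu : Y.y ^ (-c) ≠ 0 := zpow_ne_zero _ Y.y_ne
    have ho : Y.ord (Y.P α) (w' r * Y.y ^ (-c)) = Y.ord (Y.P α) (w' r) - c := by
      rw [Y.ord_mul _ _ _ hw hu, ord_zpow, ord_y_ram hy]
      ring
    have h4 := h.fin (g := fun r => T8aT Y (w' r * Y.y ^ (-c))) (fun r => T8aT_fixed _) (px_P hα)
      (fun Q hQ => by
        rw [← h.dual.repr]
        obtain ⟨j, -, rfl⟩ := fibre ((px_P hα).trans hQ.symm)
        rw [Function.IsFixedPt.perm_pow (s_ram hy) j]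
        refine Or.inr ?_
        simp only [ord_zpow, ord_y_ram hy, Finsupp.sub_apply, Finsupp.smul_apply, Ram_ram hy,
          hE _ hy, smul_eq_mul]
        omega) r hr
    have h5 := T8a_tr_ram hy (mul_ne_zero hw hu) (by rwa [ho])
    have h6 := h4.resolve_left h5.1
    rw [h5.2, ho] at h6
    simp only [Finsupp.add_apply, Finsupp.smul_apply, H_ram hy, hE _ hy, smul_eq_mul]
    omega
  obtain ⟨u, hu, ho, h1⟩ := T8a_sep hy (E Q)
    fun Q' => max (E Q') (e r * Y.H Q - Y.ord Q' (w' r))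
  have h2 : ∀ Q', Y.px Q = Y.px Q' → Y.Ge Q' (-(((Y.l - 1 : ℕ) : ℤ) • Y.Ram - E) Q')
      (∑ r ∈ Finset.range Y.l, T8aT Y (w' r * u) * w r) := by
    intro Q' h'
    rw [← h.dual.repr]
    have hy' : Y.py Q' ≠ 0 := by
      obtain ⟨j, -, rfl⟩ := fibre h'
      rw [py_s_pow]
      exact mul_ne_zero (pow_ne_zero _ (inv_ne_zero Y.ζ_ne)) hy
    simp only [Finsupp.sub_apply, Finsupp.smul_apply, Ram_unram hy', smul_zero, zero_sub, neg_neg]
    by_cases hQ : Q' = Q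
    · exact Or.inr (by rw [hQ, ho])
    · exact (h1 Q' h' hQ).mono (le_max_left _ _)
  have h3 : Y.Ge Q (e r * Y.H Q) (T8aT Y (w' r * u)) := by
    cases hQ : Y.px Q with
    | none =>
      rw [H_inf hQ, mul_one]
      exact h.inf (g := fun r => T8aT Y (w' r * u)) (fun r => T8aT_fixed _) hQ
        (fun Q' h' => h2 Q' (hQ.trans h'.symm)) r hr
    | some a =>
      rw [H_fin (by simp [hQ]), mul_zero]
      exact h.fin (g := fun r => T8aT Y (w' r * u)) (fun r => T8aT_fixed _) hQ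
        (fun Q' h' => h2 Q' (hQ.trans h'.symm)) r hr
  have h4 := (T8a_tr_unram hy h3 fun Q' h' hne =>
    (ge_ord.mul ((h1 Q' h' hne).mono (le_max_right _ _))).mono (by simp)).resolve_left
    (mul_ne_zero hw hu)
  rw [Y.ord_mul _ _ _ hw hu, ho] at h4
  simp only [Finsupp.add_apply, Finsupp.smul_apply, smul_eq_mul]
  linarith

end Model
end Vale.Agent.P319
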