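import Vale.Agent.P319.T8a

/-! T8b: local analysis.  `dv (nj ψ j) = uE j Z - E + sE ^ j E - j e H`.  At `P = P α`, `b = β α`:
`w0 = ∑_{j<l} b⁻¹ ^ j • nj ψ j` has the value `l`, and `ψ * σ w0 - b • w0` is a constant multiple
of `nj ψ l - b ^ l`, which is fixed by `σ` and vanishes at `P`, so has order `≥ l`.  Hence
`nj ψ j * σ ^ j w0 - b ^ j • w0` has order `≥ l`.
`ss_rank_one`: with `u = v' / w0`, `∑_j ζ ^ (-j c) σ ^ j u = y ^ c * Tr (u / y ^ c)`; the trace is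
fixed by `σ` and has order `> -l`, so `≥ 0` (`dvd_ord_of_fixed`).
`ss_apply`: with `u = w0 * w` of order `≥ -(l - 1)`, `u = ∑_{c<l} g c / y ^ c`,
`g c = (1/l) Tr (u y ^ c)` fixed of order `≥ 0`, and
`∑_j b⁻¹ ^ j z j σ ^ j u = ∑_c g c / y ^ c * ∑_j ζ ^ (-j c) b⁻¹ ^ j z j`. -/

namespace Vale.Agent.P319
open Polynomial Finsupp
namespace Model
variable {K L Pt : Type} [Field K] [Field L] [Algebra K L] {Y : Model K L Pt}
  {Z E : Pt →₀ ℤ} {e : ℕ} {β : K → K} {ψ : L}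

theorem Sol.dv_nj (h : Y.Sol Z e β ψ E) (j : ℕ) : Y.dv (Y.nj ψ j) =
    Y.uE j Z - E + (Y.sE ^ j) E - ((j * e : ℕ) : ℤ) • Y.H := by
  have h1 := congrArg (· E) (uE_mul_lam (Y := Y) j)
  simp only [Module.End.mul_apply, LinearMap.sub_apply, Module.End.one_apply] at h1
  have h2 := congrArg (Y.uE j) h.eq
  rw [map_add, map_add, map_zsmul, uE_H, h1] at h2
  rw [Model.dv_nj h.ne, h2]
  push_cast
  module

theorem T8b_σ {P : Pt} (hP : Y.py P = 0) {k : ℤ} {u : L} (h : Y.Ge P k u) (j : ℕ) :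
    Y.Ge P k ((Y.σ ^ j) u) := by
  have := (ge_σ_pow j).2 h
  rwa [Function.IsFixedPt.perm_pow (s_ram hP) j] at this

theorem T8b_fix {P : Pt} (hP : Y.py P = 0) {g : L} (hg : Y.σ g = g) (k : ℤ)
    (h : Y.Ge P ((k - 1) * Y.l + 1) g) : Y.Ge P (k * Y.l) g := by
  refine h.imp id fun h => ?_
  obtain ⟨q, hq⟩ := dvd_ord_of_fixed hP hg
  have hl : (0 : ℤ) < Y.l := by exact_mod_cast Y.prime.pos
  rw [hq] at h ⊢
  have : k - 1 < q := by nlinarith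
  nlinarith

theorem T8b_tr {P : Pt} (hP : Y.py P = 0) {u : L} (h : Y.Ge P (1 - Y.l) u) :
    Y.Ge P 0 (T8aT Y u) := by
  have := T8b_fix hP (T8aT_fixed u) 0 (Ge.sum fun j _ => (T8b_σ hP h j).mono (by omega))
  simpa using this

theorem T8b_nj {P : Pt} (hP : Y.py P = 0) {b : K} (h : Y.Val P ψ b) (j : ℕ) :
    Y.Val P (Y.nj ψ j) (b ^ j) := by
  have : Y.Val P (Y.nj ψ j) (∏ _i ∈ Finset.range j, b) := Val.prod fun i _ => by
    have := (val_σ_pow i).2 h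
    rwa [Function.IsFixedPt.perm_pow (s_ram hP) i] at this
  simpa using this

theorem T8b_w0 {P : Pt} (hP : Y.py P = 0) {b : K} (hb : b ≠ 0) (h : Y.Val P ψ b) :
    ∃ w0, w0 ≠ 0 ∧ Y.ord P w0 = 0 ∧
      ∀ j, Y.Ge P Y.l (Y.nj ψ j * (Y.σ ^ j) w0 - algebraMap K L (b ^ j) * w0) := by
  have h1 : Y.Val P (∑ j ∈ Finset.range Y.l, b⁻¹ ^ j • Y.nj ψ j)
      (∑ j ∈ Finset.range Y.l, b⁻¹ ^ j * b ^ j) := Val.sum fun j _ => (T8b_nj hP h j).smul _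
  have h2 := h1.ord_eq (by
    simp only [← mul_pow, inv_mul_cancel₀ hb]
    simpa using Y.l_ne)
  have h3 : ψ * Y.σ (∑ j ∈ Finset.range Y.l, b⁻¹ ^ j • Y.nj ψ j) -
      algebraMap K L b * ∑ j ∈ Finset.range Y.l, b⁻¹ ^ j • Y.nj ψ j =
      (b * b⁻¹ ^ Y.l) • (Y.nj ψ Y.l - algebraMap K L (b ^ Y.l)) := by
    have h4 := Finset.sum_range_succ (fun j => b⁻¹ ^ j • Y.nj ψ j) Y.l
    rw [Finset.sum_range_succ'] at h4
    have h5 : ψ * Y.σ (∑ j ∈ Finset.range Y.l, b⁻¹ ^ j • Y.nj ψ j) =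
        b • ∑ j ∈ Finset.range Y.l, b⁻¹ ^ (j + 1) • Y.nj ψ (j + 1) := by
      rw [map_sum, Finset.mul_sum, Finset.smul_sum]
      refine Finset.sum_congr rfl fun j _ => ?_
      rw [map_smul, nj_succ, mul_smul_comm, smul_smul, pow_succ', mul_inv_cancel_left₀ hb]
    rw [h5, eq_sub_of_add_eq h4, ← Algebra.smul_def, Algebra.algebraMap_eq_smul_one, smul_sub,
      smul_sub, smul_smul, smul_smul, mul_assoc, ← mul_pow, inv_mul_cancel₀ hb, smul_add, smul_smul]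
    simp [nj]
    ring
  have h6 : Y.Ge P Y.l (Y.nj ψ Y.l - algebraMap K L (b ^ Y.l)) := by
    have := T8b_fix hP (g := Y.nj ψ Y.l - algebraMap K L (b ^ Y.l))
      (by rw [map_sub, σ_nj_l, AlgEquiv.commutes]) 1 (by simpa [Val] using T8b_nj hP h Y.l)
    simpa using this
  have h7 := h6.smul (b * b⁻¹ ^ Y.l)
  rw [← h3] at h7
  refine ⟨_, h2.1, h2.2, fun j => ?_⟩
  generalize ∑ j ∈ Finset.range Y.l, b⁻¹ ^ j • Y.nj ψ j = w0 at h7
  induction j with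
  | zero => exact Or.inl (by simp [nj])
  | succ j ih =>
    have h8 := (h.ge.mul (T8b_σ hP ih 1)).add ((ge_c (c := b ^ j)).mul h7)
    rw [zero_add, pow_one] at h8
    convert h8 using 1
    rw [nj_succ, pow_succ' Y.σ, AlgEquiv.mul_apply]
    simp only [map_sub, map_mul, AlgEquiv.commutes, pow_succ]
    ring

theorem T8b_ζ {j : ℕ} (hj : j ≤ Y.l) (c : ℕ) : Y.ζ ^ ((Y.l - j) * c) = ((Y.ζ ^ j) ^ c)⁻¹ := by
  refine eq_inv_of_mul_eq_one_left ?_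
  rw [pow_mul, ← mul_pow, ← pow_add, Nat.sub_add_cancel hj, Y.prim.pow_eq_one, one_pow]

theorem T8b_b {b : K} (hb : b ≠ 0) {j : ℕ} (hj : j < Y.l) :
    b ^ (Y.l - 1 - j) = b ^ (Y.l - 1) * (b ^ j)⁻¹ := pow_sub₀ b hb (by omega)

theorem T8b_inf {P : Pt} (hP : Y.py P = 0) (t : ℤ) : single Y.inf t P = 0 :=
  single_eq_of_ne fun hc => by simp [hc, py_inf] at hP

theorem Sol.ss_rank_one (h : Y.Sol Z e β ψ E) {t : ℕ} {k : ℤ} {v v' : L}
    (hv : v ∈ Y.LL ((((2 * Y.n + 1 : ℕ) : ℤ) + k) • Y.H - E - single Y.inf (t : ℤ)))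
    (hv' : v' ∈ Y.LL (-k • Y.H + E)) :
    Y.SS Z e β t fun j => v * (Y.σ ^ j) v' * Y.nj ψ j := by
  refine ⟨fun j _ => ?_, fun α hα c hc => ?_⟩
  · have h1 := (σ_pow_mem_LL j).2 hv'
    rw [map_add, map_zsmul, sE_pow_H] at h1
    have h2 : Y.nj ψ j ∈ Y.LL (-Y.dv (Y.nj ψ j)) := (mem_LL_iff (nj_ne h.ne j)).2 (by simp)
    convert mul_mem_LL (mul_mem_LL hv h1) h2 using 2
    rw [h.dv_nj]
    push_cast
    module
  have hP := py_P hα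
  have hb := h.β_ne α hα
  obtain ⟨w0, h0, ho, hw⟩ := T8b_w0 hP hb (h.val α hα)
  have h1 : Y.Ge (Y.P α) 0 v := (hv _).mono (by simp [H_ram hP, h.avE _ hP, T8b_inf hP])
  have h2 : Y.Ge (Y.P α) 0 (v' * w0⁻¹) :=
    ((hv' _).mul ge_ord).mono (by simp [H_ram hP, h.avE _ hP, ord_inv, ho])
  have h3 : Y.Ge (Y.P α) 0 (T8aT Y (v' * w0⁻¹ * (Y.y ^ c)⁻¹)) :=
    T8b_tr hP ((h2.mul ge_ord).mono (by rw [ord_inv, ord_pow, ord_y_ram hP]; omega))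
  have e1 : ∑ j ∈ Finset.range Y.l, (Y.ζ ^ ((Y.l - j) * c) * β α ^ (Y.l - 1 - j)) •
      (v * (Y.σ ^ j) v' * Y.nj ψ j) =
      β α ^ (Y.l - 1) • (v * w0 * T8aT Y (v' * w0⁻¹ * (Y.y ^ c)⁻¹) * Y.y ^ c) +
      ∑ j ∈ Finset.range Y.l, (Y.ζ ^ ((Y.l - j) * c) * β α ^ (Y.l - 1 - j)) •
        (v * (Y.σ ^ j) (v' * w0⁻¹) *
          (Y.nj ψ j * (Y.σ ^ j) w0 - algebraMap K L (β α ^ j) * w0)) := by
    rw [T8aT, Finset.mul_sum, Finset.sum_mul, Finset.smul_sum, ← Finset.sum_add_distrib]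
    refine Finset.sum_congr rfl fun j hj => ?_
    have hj := Finset.mem_range.1 hj
    have a1 := Y.y_ne
    have a2 : algebraMap K L Y.ζ ≠ 0 := by simpa using Y.ζ_ne
    have a3 : algebraMap K L (β α) ≠ 0 := by simpa using hb
    have a4 : (Y.σ ^ j) w0 ≠ 0 := (_root_.map_ne_zero _).2 h0
    rw [T8b_ζ hj.le, T8b_b hb hj]
    simp only [Algebra.smul_def, map_mul, map_inv₀, map_pow, σ_pow_y, mul_pow]
    field_simp
    ring
  rw [e1]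
  refine Ge.add (Ge.smul _ ((((h1.mul ge_ord).mul h3).mul ge_ord).mono ?_))
    (Ge.sum fun j _ => Ge.smul _ (((h1.mul (T8b_σ hP h2 j)).mul (hw j)).mono (by omega)))
  simp [ho, ord_pow, ord_y_ram hP]

theorem T8b_repr (u : L) :
    (Y.l : K) • u = ∑ c ∈ Finset.range Y.l, T8aT Y (u * Y.y ^ c) * (Y.y ^ c)⁻¹ := by
  simp only [T8aT, Finset.sum_mul]
  rw [Finset.sum_comm, Finset.sum_eq_single 0]
  · simp [Y.y_ne, Nat.cast_smul_eq_nsmul]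
  · intro j hj h0
    have e : ∀ c ∈ Finset.range Y.l, (Y.σ ^ j) (u * Y.y ^ c) * (Y.y ^ c)⁻¹ =
        (Y.ζ ^ j) ^ c • (Y.σ ^ j) u := fun c _ => by
      have a1 := Y.y_ne
      simp only [Algebra.smul_def, map_mul, map_pow, σ_pow_y, mul_pow]
      field_simp
    rw [Finset.sum_congr rfl e, ← Finset.sum_smul,
      geom_sum_eq (Y.prim.pow_ne_one_of_pos_of_lt h0 (Finset.mem_range.1 hj)), ← pow_mul, mul_comm,
      pow_mul, Y.prim.pow_eq_one]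
    simp
  · intro h
    exact absurd (Finset.mem_range.2 Y.prime.pos) h

theorem Sol.ss_apply (h : Y.Sol Z e β ψ E) {t : ℕ} {z : ℕ → L} (hz : Y.SS Z e β t z) {k : ℤ}
    {w : L} (hw : w ∈ Y.LL (k • Y.H + ((Y.l - 1 : ℕ) : ℤ) • Y.Ram - E)) :
    ∑ j ∈ Finset.range Y.l, z j / Y.nj ψ j * (Y.σ ^ j) w ∈
      Y.LL ((((2 * Y.n + 1 : ℕ) : ℤ) + k) • Y.H - E - single Y.inf (t : ℤ)) := by
  intro Q
  by_cases hP : Y.py Q ≠ 0
  · refine Ge.sum fun j hj => ?_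
    have h1 := (σ_pow_mem_LL j).2 hw
    rw [map_sub, map_add, map_zsmul, map_zsmul, sE_pow_H, sE_pow_Ram] at h1
    have h2 : (Y.nj ψ j)⁻¹ ∈ Y.LL (Y.dv (Y.nj ψ j)) :=
      (mem_LL_iff (inv_ne_zero (nj_ne h.ne j))).2 (by simp [dv_inv])
    rw [div_eq_mul_inv]
    refine (mul_mem_LL (mul_mem_LL (hz.1 j (Finset.mem_range.1 hj)) h2) h1 Q).mono (le_of_eq ?_)
    simp only [h.dv_nj, Finsupp.add_apply, Finsupp.sub_apply, Finsupp.smul_apply, Ram_unram hP,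
      smul_eq_mul]
    push_cast
    ring
  obtain ⟨α, hα, rfl⟩ := eq_P (not_not.1 hP)
  replace hP := py_P hα
  have hb := h.β_ne α hα
  have hl := Y.prime.pos
  obtain ⟨w0, h0, ho, hw0⟩ := T8b_w0 hP hb (h.val α hα)
  have h1 : ∀ j < Y.l, Y.Ge (Y.P α) 0 (z j) := fun j hj =>
    (hz.1 j hj _).mono (by simp [H_ram hP, h.avZ.uE j _ hP, T8b_inf hP])
  have h2 : Y.Ge (Y.P α) (1 - Y.l) w := (hw _).mono (by
    simp only [Finsupp.add_apply, Finsupp.sub_apply, Finsupp.smul_apply, H_ram hP, Ram_ram hP,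
      h.avE _ hP, smul_eq_mul]
    omega)
  have h3 : ∀ c : ℕ, Y.Ge (Y.P α) 0 (T8aT Y (w0 * w * Y.y ^ c)) := fun c =>
    T8b_tr hP (((ge_ord.mul h2).mul ge_ord).mono (by rw [ho, ord_pow, ord_y_ram hP]; omega))
  have e1 : ∑ j ∈ Finset.range Y.l, z j / Y.nj ψ j * (Y.σ ^ j) w =
      ∑ c ∈ Finset.range Y.l, ((Y.l : K) * β α ^ (Y.l - 1))⁻¹ •
        (w0⁻¹ * T8aT Y (w0 * w * Y.y ^ c) * (Y.y ^ c)⁻¹ *
          ∑ j ∈ Finset.range Y.l, (Y.ζ ^ ((Y.l - j) * c) * β α ^ (Y.l - 1 - j)) • z j) -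
      ∑ j ∈ Finset.range Y.l, (β α ^ j)⁻¹ • (z j * (Y.nj ψ j)⁻¹ * w0⁻¹ * (Y.σ ^ j) w *
        (Y.nj ψ j * (Y.σ ^ j) w0 - algebraMap K L (β α ^ j) * w0)) := by
    simp only [Finset.mul_sum, Finset.smul_sum]
    rw [Finset.sum_comm, ← Finset.sum_sub_distrib]
    refine Finset.sum_congr rfl fun j hj => ?_
    have hj := Finset.mem_range.1 hj
    have a1 := Y.y_ne
    have a2 : algebraMap K L Y.ζ ≠ 0 := by simpa using Y.ζ_ne
    have a3 : algebraMap K L (β α) ≠ 0 := by simpa using hb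
    have a4 := nj_ne (Y := Y) h.ne j
    have a5 : algebraMap K L Y.l ≠ 0 := (_root_.map_ne_zero _).2 Y.l_ne
    have a6 := congrArg (Y.σ ^ j) (T8b_repr (Y := Y) (w0 * w))
    rw [map_smul, map_sum, map_mul] at a6
    have a7 : ∀ c ∈ Finset.range Y.l, ((Y.l : K) * β α ^ (Y.l - 1))⁻¹ •
        (w0⁻¹ * T8aT Y (w0 * w * Y.y ^ c) * (Y.y ^ c)⁻¹ *
          (Y.ζ ^ ((Y.l - j) * c) * β α ^ (Y.l - 1 - j)) • z j) =
        (algebraMap K L ((Y.l : K) * β α ^ j))⁻¹ * w0⁻¹ * z j *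
          (Y.σ ^ j) (T8aT Y (w0 * w * Y.y ^ c) * (Y.y ^ c)⁻¹) := fun c _ => by
      rw [T8b_ζ hj.le, T8b_b hb hj, map_mul (Y.σ ^ j), T8a_fix (T8aT_fixed _)]
      simp only [Algebra.smul_def, map_mul, map_inv₀, map_pow, σ_pow_y, mul_pow]
      field_simp
    rw [Finset.sum_congr rfl a7, ← Finset.mul_sum, ← a6]
    simp only [Algebra.smul_def, map_mul, map_inv₀, map_pow]
    field_simp
    ring
  rw [e1]
  refine Ge.mono (k := 0) (Ge.sub (Ge.sum fun c hc => Ge.smul _ ?_) (Ge.sum fun j hj => Ge.smul _ ?_))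
    (by simp [H_ram hP, h.avE _ hP, T8b_inf hP])
  · refine (((ge_ord.mul (h3 c)).mul ge_ord).mul (hz.2 α hα c (Finset.mem_range.1 hc))).mono ?_
    simp [ord_inv, ho, ord_pow, ord_y_ram hP]
  · refine (((((h1 j (Finset.mem_range.1 hj)).mul ge_ord).mul ge_ord).mul (T8b_σ hP h2 j)).mul
      (hw0 j)).mono ?_
    simp [ord_inv, ho, ((T8b_nj hP (h.val α hα) j).ord_eq (pow_ne_zero _ hb)).2]

end Model
end Vale.Agent.P319
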