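import Vale.Agent.P319.T3
import Vale.Agent.P319.T8a
import Vale.Agent.P319.T8b

/-! T8c: the first nonzero solution space consists of rank one elements.
`ss_zero`: choose `k` with `l n ≤ deg ((2 n + 1 + k) H - E) < l n + l`, `riemann` twice.
`rank_one`: `(e, w, w')` from `exists_reduced`, `A r t = LL ((2 n + 1 + e r) H - E - t inf)`.  By
`ss_rank_one`, `A r (t + 1) = ⊥` (`w' r ≠ 0`).  `T r = ∑_j z j / ψ_j * σ ^ j (w r) ∈ A r t`; if
`e r < e_max` then `A r t ≤ A r_max (t + 1) = ⊥`; `A r_max t` has dimension `≤ 1`.  So `T r = κ r • v`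
and `z j / ψ_j = ∑_r T r * σ ^ j (w' r) = v * σ ^ j v'`.  With `D = E + dv v'` put
`Z' = ⨆_j (D - sE ^ j D) = D - ⨅_j sE ^ j D`; the infimum is `sE`-invariant. -/

namespace Vale.Agent.P319
open Polynomial Finsupp
namespace Model
variable {K L Pt : Type} [Field K] [Field L] [Algebra K L] {Y : Model K L Pt}
  {Z E : Pt →₀ ℤ} {e : ℕ} {β : K → K} {ψ : L}

theorem Sol.ss_zero (h : Y.Sol Z e β ψ E) : ∃ z, Y.SS Z e β 0 z ∧ z 0 ≠ 0 := by
  have hl : (0 : ℤ) < Y.l := by exact_mod_cast Y.prime.pos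
  obtain ⟨q, h1, h2⟩ : ∃ q : ℤ, degree E ≤ Y.l * q ∧ Y.l * q < degree E + Y.l := by
    refine ⟨(degree E + Y.l - 1) / Y.l, ?_, ?_⟩
    · have := Int.mul_ediv_add_emod (degree E + Y.l - 1) Y.l
      have := Int.emod_lt_of_pos (degree E + Y.l - 1) hl
      omega
    · have := Int.mul_ediv_add_emod (degree E + Y.l - 1) Y.l
      have := Int.emod_nonneg (degree E + Y.l - 1) hl.ne'
      omega
  obtain ⟨v, hv, h3⟩ := riemann (Y := Y) (D := (((2 * Y.n + 1 : ℕ) : ℤ) + (q - Y.n - 1)) • Y.H - E -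
    single Y.inf ((0 : ℕ) : ℤ)) (by
      rw [map_sub, map_sub, map_zsmul, degree_H, degree_single, smul_eq_mul]
      push_cast
      nlinarith)
  obtain ⟨v', hv', h4⟩ := riemann (Y := Y) (D := -(q - Y.n - 1) • Y.H + E) (by
    rw [map_add, map_zsmul, degree_H, smul_eq_mul]
    push_cast
    nlinarith)
  exact ⟨_, h.ss_rank_one h3 h4, by simp [nj, hv, hv']⟩

theorem Sol.ss_large (h : Y.Sol Z e β ψ E) {t : ℕ} (ht : Y.l * (2 * Y.n + 1) < t) {z : ℕ → L}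
    (hz : Y.SS Z e β t z) : ∀ j < Y.l, z j = 0 := by
  intro j hj
  have h1 := hz.1 j hj
  rwa [LL_eq_bot, Submodule.mem_bot] at h1
  rw [map_sub, map_sub, map_zsmul, degree_H, degree_single, degree_uE, h.eq, map_add, map_add,
    degree_lam, degree_dv, map_zsmul, degree_H, smul_eq_mul, smul_eq_mul]
  zify at ht
  push_cast
  nlinarith

theorem T8c_prop {D : Pt →₀ ℤ} {Q : Pt} (h : ∀ u ∈ Y.LL (D - single Q 1), u = 0) {u v : L}
    (hu : u ∈ Y.LL D) (hv : v ∈ Y.LL D) (h0 : v ≠ 0) : ∃ c : K, u = c • v := by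
  have ho : Y.ord Q v = -D Q := by
    have h1 := (hv Q).resolve_left h0
    by_contra hc
    exact h0 (h v (T3_sub_single hv (Or.inr (by omega))))
  have h1 : Y.Ge Q 0 (u * v⁻¹) := by
    refine ((hu Q).mul ge_ord).mono ?_
    rw [ord_inv, ho]
    omega
  obtain ⟨c, hc⟩ := h1.exists_val
  refine ⟨c, sub_eq_zero.1 (h _ (T3_sub_single
    (Submodule.sub_mem _ hu (Submodule.smul_mem _ c hv)) ?_))⟩
  have := Ge.mul hc (ge_ord (Y := Y) (Q := Q) (u := v))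
  rw [sub_mul, inv_mul_cancel_right₀ h0, ← Algebra.smul_def] at this
  refine this.mono ?_
  omega

theorem T8c_form (h : Y.Sol Z e β ψ E) {t : ℕ} {z : ℕ → L} (hz : Y.SS Z e β t z)
    (hne : ∃ j < Y.l, z j ≠ 0) (hz' : ∀ z', Y.SS Z e β (t + 1) z' → ∀ j < Y.l, z' j = 0) :
    ∃ (k : ℤ) (v v' : L),
      v ∈ Y.LL ((((2 * Y.n + 1 : ℕ) : ℤ) + k) • Y.H - E - single Y.inf (t : ℤ)) ∧
      v' ∈ Y.LL (-k • Y.H + E) ∧ ∀ j < Y.l, z j = v * (Y.σ ^ j) v' * Y.nj ψ j := by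
  classical
  obtain ⟨a, w, w', h1, h2, h3⟩ := exists_reduced h.avE
  have hd : T8aD Y w' w := fun i hi j hj => by
    rw [← Finset.sum_congr rfl fun r _ => mul_comm _ _, h3 j hj i hi]
    simp only [eq_comm]
  obtain ⟨T, hT⟩ : ∃ T : ℕ → L, ∀ r, T r =
      ∑ j ∈ Finset.range Y.l, z j / Y.nj ψ j * (Y.σ ^ j) (w r) := ⟨_, fun _ => rfl⟩
  have h4 : ∀ r < Y.l, T r ∈
      Y.LL ((((2 * Y.n + 1 : ℕ) : ℤ) + a r) • Y.H - E - single Y.inf (t : ℤ)) := fun r hr => by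
    rw [hT]
    exact h.ss_apply hz (h1 r hr)
  have h5 : ∀ i < Y.l, z i = (∑ r ∈ Finset.range Y.l, T r * (Y.σ ^ i) (w' r)) * Y.nj ψ i := by
    intro i hi
    rw [← div_eq_iff (nj_ne h.ne i)]
    simp only [hT, Finset.sum_mul]
    rw [Finset.sum_comm]
    have : ∀ j ∈ Finset.range Y.l, ∑ r ∈ Finset.range Y.l,
        z j / Y.nj ψ j * (Y.σ ^ j) (w r) * (Y.σ ^ i) (w' r) =
        if i = j then z j / Y.nj ψ j else 0 := fun j hj => by
      rw [← mul_boole, ← h3 i hi j (Finset.mem_range.1 hj), Finset.mul_sum]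
      exact Finset.sum_congr rfl fun r _ => by ring
    rw [Finset.sum_congr rfl this]
    simp [hi]
  obtain ⟨r0, hr0, hT0, hmax⟩ : ∃ r0 < Y.l, T r0 ≠ 0 ∧ ∀ r < Y.l, T r ≠ 0 → a r ≤ a r0 := by
    obtain ⟨r0, h0, h1⟩ := ((Finset.range Y.l).filter fun r => T r ≠ 0).exists_max_image a (by
      by_contra hc
      obtain ⟨j, hj, h0⟩ := hne
      refine h0 ?_
      rw [h5 j hj, Finset.sum_eq_zero, zero_mul]
      intro r hr
      by_contra h6
      exact hc ⟨r, Finset.mem_filter.2 ⟨hr, left_ne_zero_of_mul h6⟩⟩)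
    simp only [Finset.mem_filter, Finset.mem_range] at h0 h1
    exact ⟨r0, h0.1, h0.2, fun r hr h => h1 r ⟨hr, h⟩⟩
  have h6 : ∀ u ∈ Y.LL ((((2 * Y.n + 1 : ℕ) : ℤ) + a r0) • Y.H - E - single Y.inf (t : ℤ) -
      single Y.inf 1), u = 0 := by
    intro u hu
    have := hz' _ (h.ss_rank_one (t := t + 1) (v := u) (by
      rwa [Nat.cast_succ t, single_add, ← sub_sub]) (h2 r0 hr0)) 0 Y.prime.pos
    simpa [nj, hd.ne hr0] using this
  have h7 : ∀ r < Y.l, ∃ c : K, T r = c • T r0 ∧ c • w' r ∈ Y.LL (-a r0 • Y.H + E) := by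
    intro r hr
    by_cases h0 : T r = 0
    · exact ⟨0, by simp [h0], by simp⟩
    rcases (hmax r hr h0).eq_or_lt with h8 | h8
    · obtain ⟨c, hc⟩ := T8c_prop h6 (h8 ▸ h4 r hr) (h4 r0 hr0) hT0
      exact ⟨c, hc, Submodule.smul_mem _ _ (h8 ▸ h2 r hr)⟩
    · refine absurd (h6 _ (LL_mono (fun Q => ?_) (h4 r hr))) h0
      simp only [Finsupp.sub_apply, Finsupp.smul_apply, smul_eq_mul]
      by_cases hQ : Y.inf = Q
      · subst hQ
        simp only [H_inf px_inf, single_eq_same]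
        omega
      · have := H_nonneg (Y := Y) Q
        simp only [Finsupp.coe_zero, Pi.zero_apply] at this
        simp only [single_apply, hQ, if_false]
        nlinarith
  choose! c hc hc' using h7
  refine ⟨a r0, T r0, ∑ r ∈ Finset.range Y.l, c r • w' r, h4 r0 hr0,
    Submodule.sum_mem _ fun r hr => hc' r (Finset.mem_range.1 hr), fun j hj => ?_⟩
  rw [h5 j hj, map_sum, Finset.mul_sum]
  refine congrArg (· * _) (Finset.sum_congr rfl fun r hr => ?_)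
  rw [hc r (Finset.mem_range.1 hr), map_smul, smul_mul_assoc, mul_smul_comm]

theorem Sol.rank_one (h : Y.Sol Z e β ψ E) {t : ℕ} {z : ℕ → L} (hz : Y.SS Z e β t z)
    (hne : ∃ j < Y.l, z j ≠ 0) (hz' : ∀ z', Y.SS Z e β (t + 1) z' → ∀ j < Y.l, z' j = 0) :
    z 0 ≠ 0 ∧ ∃ Z' : Pt →₀ ℤ, 0 ≤ Z' ∧ Finsupp.degree Z' ≤ ((Y.l * (2 * Y.n + 1) : ℕ) : ℤ) ∧
      Y.lam Z' - Z ∈ Y.Prin ∧ ∀ (m : ℕ) (g : L), g ∈ Y.LL ((m : ℤ) • Y.H - Z') ↔
        ∀ j < Y.l, g * z j / z 0 ∈ Y.LL (((m + j * e : ℕ) : ℤ) • Y.H - Y.uE j Z) := by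
  obtain ⟨k, v, v', h1, h2, h3⟩ := T8c_form h hz hne hz'
  obtain ⟨hv, hv'⟩ : v ≠ 0 ∧ v' ≠ 0 := by
    obtain ⟨j, hj, h0⟩ := hne
    rw [h3 j hj] at h0
    exact ⟨fun hc => h0 (by simp [hc]), fun hc => h0 (by rw [hc, map_zero, mul_zero, zero_mul])⟩
  have hl := Y.prime.pos
  have h0 : z 0 = v * v' := by simp [h3 0 hl, nj]
  have hS : (Finset.range Y.l).Nonempty := ⟨0, Finset.mem_range.2 hl⟩
  obtain ⟨D, hD⟩ : ∃ D, D = E + Y.dv v' := ⟨_, rfl⟩
  obtain ⟨I, hI⟩ : ∃ I, I = (Finset.range Y.l).inf' hS fun j => (Y.sE ^ j) D := ⟨_, rfl⟩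
  have h4 : ∀ j, I ≤ (Y.sE ^ j) D := fun j => by
    rw [hI, ← Nat.div_add_mod j Y.l, pow_add, pow_mul, sE_pow_l, one_pow, one_mul]
    exact Finset.inf'_le _ (Finset.mem_range.2 (Nat.mod_lt _ hl))
  have h5 : Y.lam I = 0 := by
    refine eq_zero_of_degree ?_ (degree_lam _).le
    rw [lam, LinearMap.sub_apply, Module.End.one_apply, sub_nonneg]
    nth_rewrite 2 [hI]
    refine Finset.le_inf' _ _ fun j _ => ?_
    have := sE_pow_nonneg (Y := Y) 1 (sub_nonneg.2 (h4 (j + (Y.l - 1))))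
    rwa [map_sub, ← Module.End.mul_apply, ← pow_add, show 1 + (j + (Y.l - 1)) = Y.l + j by omega,
      pow_add, sE_pow_l, one_mul, pow_one, sub_nonneg] at this
  have h6 : k • Y.H ≤ I := by
    rw [hI]
    refine Finset.le_inf' _ _ fun j _ => ?_
    have := sE_pow_nonneg (Y := Y) j ((mem_LL_iff hv').1 h2)
    rw [show Y.dv v' + (-k • Y.H + E) = D - k • Y.H by rw [hD]; module, map_sub, map_zsmul,
      sE_pow_H] at this
    exact sub_nonneg.1 this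
  refine ⟨h0 ▸ mul_ne_zero hv hv', D - I, sub_nonneg.2 (by simpa using h4 0), ?_, ?_,
    fun m g => ?_⟩
  · have h7 := degree_mono h6
    have h8 := degree_nonneg ((mem_LL_iff hv).1 h1)
    simp only [hD, map_add, map_sub, map_zsmul, degree_H, degree_dv, degree_single,
      smul_eq_mul] at h7 h8 ⊢
    push_cast at h8 ⊢
    nlinarith
  · have h7 := sE_pow_dv (Y := Y) 1 v'
    rw [pow_one] at h7
    have : Y.lam (D - I) - Z = Y.dv v' - Y.dv ((Y.σ ^ 1) v') - Y.dv ψ - (e : ℤ) • Y.H := by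
      rw [map_sub, h5, hD, map_add, h.eq, ← h7]
      simp only [lam, LinearMap.sub_apply, Module.End.one_apply]
      abel
    rw [this]
    exact Submodule.sub_mem _ (Submodule.sub_mem _ (Submodule.sub_mem _ (dv_mem_Prin _)
      (dv_mem_Prin _)) (dv_mem_Prin _)) (Submodule.smul_mem _ _ H_mem_Prin)
  have h7 : ∀ j < Y.l, g * z j / z 0 ∈ Y.LL (((m + j * e : ℕ) : ℤ) • Y.H - Y.uE j Z) ↔
      g ∈ Y.LL ((m : ℤ) • Y.H - D + (Y.sE ^ j) D) := by
    intro j hj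
    have a1 : (Y.σ ^ j) v' ≠ 0 := (_root_.map_ne_zero _).2 hv'
    have a2 := nj_ne (Y := Y) h.ne j
    have e1 : g * z j / z 0 = (Y.σ ^ j) v' * Y.nj ψ j / v' * g := by
      rw [h0, h3 j hj]
      field_simp
    rw [e1, mul_mem_LL_iff (div_ne_zero (mul_ne_zero a1 a2) hv'), dv_div (mul_ne_zero a1 a2) hv',
      dv_mul a1 a2, h.dv_nj, ← sE_pow_dv, hD, map_add]
    refine iff_of_eq (congrArg (fun D => g ∈ Y.LL D) ?_)
    push_cast
    module
  rw [← sub_add]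
  refine ⟨fun hg j hj => (h7 j hj).2 (LL_mono (add_le_add le_rfl (h4 j)) hg), fun hg => ?_⟩
  rw [hI]
  refine Finset.inf'_induction hS _ (p := fun B => g ∈ Y.LL ((m : ℤ) • Y.H - D + B))
    (fun a ha b hb => ?_) fun j hj => (h7 j (Finset.mem_range.1 hj)).1 (hg j (Finset.mem_range.1 hj))
  rw [add_inf, ← LL_inf]
  exact ⟨ha, hb⟩

end Model
end Vale.Agent.P319
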