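import Vale.Agent.P319.G4a
import Vale.Agent.P319.G4b
import Vale.Agent.P319.T8c

/-! G4c: division by `lam`.  `β = beta τ W`; for `t = l (2 n + 1), ..., 0` take `z t = sst t` with
tag `nzS (z t)`, `z = selS iL` (first nonzero; `ss_zero`, `ss_large`).  `rank_one` gives `Z'`.
With `k = n (2 n + 1)`: `A = mcol k [(z j, (lvl (k + j e) (gU (take j iL) W)).map (fmul (z 0)))]`
spans `LL (k H - Z')`; output `sat k A` (`bpf_small`). -/

namespace Vale.Agent.P319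
open Vale.Agent.Common.TreeTM Vale.Agent.P337 Finsupp

/-- a list of length `l (2 n + 1)` -/
def G4cu (c : Cx) : List ℕ := (cL c).flatMap fun _ => 0 :: (idx (cmd c) ++ idx (cmd c))

@[fun_prop] theorem G4c_tc_u {α : Type} [Enc α] {c : α → Cx} (h : TC 0 c) :
    TC 0 fun a => G4cu (c a) := by unfold G4cu; fun_prop

theorem G4c_len (c : Cx) : (G4cu c).length = (cL c).length * (2 * (cmd c).length + 1) := by
  simp only [G4cu, List.length_flatMap, List.length_cons, List.length_append, A1_len_idx,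
    List.map_const', List.sum_replicate, smul_eq_mul]
  ring

theorem G4c_split (p : ℕ → Prop) {n : ℕ} (h : p n) :
    ∃ i ≤ n, p i ∧ (∀ j < i, ¬p j) ∧ ∃ l₂, List.range (n + 1) = List.range i ++ i :: l₂ := by
  classical
  have h0 : ∃ i, p i := ⟨n, h⟩
  have h1 := Nat.find_min' h0 h
  refine ⟨Nat.find h0, h1, Nat.find_spec h0, fun j hj => Nat.find_min h0 hj,
    List.range' (Nat.find h0 + 1) (n - Nat.find h0), ?_⟩
  rw [← List.range'_succ, List.range_eq_range', List.range_eq_range']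
  have := List.range'_append_1 (s := 0) (m := Nat.find h0) (n := n - Nat.find h0 + 1)
  rw [zero_add] at this
  rw [this]
  congr 1
  omega

section
variable {K L Pt : Type} [Field K] [Field L] [Algebra K L] {Y : Model K L Pt} {c : Cx}
  {b : ℕ → K}

theorem G4c_ne {M : Mx} (hM : M.length = Y.l) :
    Sp Y c b M ≠ ⊥ ↔ ∃ j < Y.l, fv Y c b (M.getD j []) ≠ 0 := by
  rw [Ne, eq_bot_iff, Sp_le]
  push Not
  constructor
  · rintro ⟨v, hv, h⟩
    obtain ⟨j, hj, rfl⟩ := List.getElem_of_mem hv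
    exact ⟨j, hM ▸ hj, by rwa [List.getD_eq_getElem _ _ hj]⟩
  · rintro ⟨j, hj, h⟩
    rw [List.getD_eq_getElem _ _ (hM ▸ hj)] at h
    exact ⟨_, List.getElem_mem _, h⟩

end

theorem G4c_z : ∃ F : Cx × El × Mx → Mx, TC 0 F ∧
    ∀ {K L Pt : Type} [Field K] [Field L] [Algebra K L] (Y : Model K L Pt) (m : ℕ) (c : Cx)
      (b : ℕ → K), Sem Y m c b → ∀ (β : El) (W : Mx) (Z E : Pt →₀ ℤ) (ψ : L),
      Rep Y c b W Z → degree Z = ((Y.l * (Y.n ^ 2 + 1) : ℕ) : ℤ) →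
      Y.Sol Z (Y.n ^ 2 + 1) (fun α => evA c b α β) ψ E →
      ∃ t, Y.SS Z (Y.n ^ 2 + 1) (fun α => evA c b α β) t
          (fun j => fv Y c b ((F (c, β, W)).getD j [])) ∧
        (∃ j < Y.l, fv Y c b ((F (c, β, W)).getD j []) ≠ 0) ∧
        ∀ z', Y.SS Z (Y.n ^ 2 + 1) (fun α => evA c b α β) (t + 1) z' → ∀ j < Y.l, z' j = 0 := by
  classical
  obtain ⟨sst, t1, s1, h1⟩ := exists_sst
  obtain ⟨nz, t2, -, h2⟩ := exists_nzS
  obtain ⟨sel, t3, -, h3⟩ := exists_selS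
  obtain ⟨C, hC⟩ : ∃ C : (Cx × El × Mx) × ℕ → Mx, ∀ a, C a = sst (a.1.1, a.1.2.1, a.1.2.2,
    (G4cu a.1.1).take ((G4cu a.1.1).length - a.2)) := ⟨_, fun _ => rfl⟩
  have tC : TC 0 C := by
    rw [funext hC]
    fun_prop
  refine ⟨fun a => sel (a.1, cL a.1, (idx (0 :: G4cu a.1)).map fun i =>
    (nz (a.1, C (a, i)), C (a, i))), by fun_prop, ?_⟩
  intro K L Pt _ _ _ Y m c b h β W Z E ψ hZ hd hs
  have hu : (G4cu c).length = Y.l * (2 * Y.n + 1) := by rw [G4c_len, h.l_eq, h.n_eq]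
  have hl : ∀ i, (C ((c, β, W), i)).length = Y.l := fun i => by
    rw [hC]
    exact (s1 _ _ _ _).1.trans h.l_eq
  have hk : ∀ i, ((G4cu c).take ((G4cu c).length - i)).length = Y.l * (2 * Y.n + 1) - i :=
    fun i => by rw [List.length_take, hu]; omega
  have h4 := fun i => h1 Y m c b h β W ((G4cu c).take ((G4cu c).length - i)) Z hZ hd
    (by rw [hk]; omega)
  have h5 : ∀ i, ev (cR c) b (nz (c, C ((c, β, W), i))) ≠ 0 ↔
      ∃ j < Y.l, fv Y c b ((C ((c, β, W), i)).getD j []) ≠ 0 := fun i => by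
    rw [← G4c_ne (hl i), h2 Y m c b h]
    simp
  obtain ⟨i, hi, h6, h7, l₂, e⟩ := G4c_split
    (fun i => ev (cR c) b (nz (c, C ((c, β, W), i))) ≠ 0) (n := Y.l * (2 * Y.n + 1)) (by
      obtain ⟨z, hz, hz0⟩ := hs.ss_zero
      rw [h5, hC]
      exact (h4 _).2 z (by rwa [hk, Nat.sub_self]) ⟨0, Y.prime.pos, hz0⟩)
  have h8 := (h3 Y m c b h (cL c) ((List.range i).map fun i =>
    (nz (c, C ((c, β, W), i)), C ((c, β, W), i))) _ (C ((c, β, W), i))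
    (l₂.map fun i => (nz (c, C ((c, β, W), i)), C ((c, β, W), i))) (fun t ht => by
      obtain ⟨j, hj, rfl⟩ := List.mem_map.1 ht
      exact not_not.1 (h7 j (List.mem_range.1 hj))) h6 ((hl i).trans h.l_eq.symm)).1
  have e2 : idx (0 :: G4cu c) = List.range i ++ i :: l₂ := by
    rw [← e, idx, List.length_cons, hu]
  dsimp only
  rw [e2, List.map_append, List.map_cons]
  simp only [h8]
  refine ⟨Y.l * (2 * Y.n + 1) - i, ?_, (h5 i).1 h6, fun z' hz' => ?_⟩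
  · have := (h4 i).1
    rwa [hk, ← hC ((c, β, W), i)] at this
  · rcases i with _ | i
    · exact hs.ss_large (by omega) hz'
    · by_contra hc
      push Not at hc
      refine h7 i (by omega) ((h5 i).2 ?_)
      rw [hC]
      refine (h4 i).2 z' ?_ hc
      rwa [hk, show Y.l * (2 * Y.n + 1) - i = Y.l * (2 * Y.n + 1) - (i + 1) + 1 by omega]

theorem G4c_num {n : ℕ} (hn : 2 ≤ n) : n * (2 * n + 1) + n * (n ^ 2 + 1) + (2 * n + 1) ≤ (n + 1) ^ 6 ∧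
    2 * (n + 1) ^ 6 < (n + 1) ^ 9 ∧ n * (n * (n ^ 2 + 1)) ≤ (n + 1) ^ 5 := by
  refine ⟨by ring_nf; omega, ?_, by ring_nf; omega⟩
  have h1 : 2 < (n + 1) ^ 3 := lt_of_lt_of_le (by norm_num) (Nat.pow_le_pow_left (show 3 ≤ n + 1 by omega) 3)
  calc 2 * (n + 1) ^ 6 < (n + 1) ^ 3 * (n + 1) ^ 6 := by gcongr
    _ = _ := by ring

theorem exists_divl : ∃ F : Cx × El × Mx → Mx, TC 0 F ∧ (∀ c τ W, Sh c (F (c, τ, W))) ∧
    ∀ {K L Pt : Type} [Field K] [Field L] [Algebra K L] (Y : Model K L Pt) (m : ℕ) (c : Cx)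
      (b : ℕ → K), Sem Y m c b → ∀ (τ : El) (W : Mx) (Z : Pt →₀ ℤ), Y.f.IsRoot (ev (cR c) b τ) →
      Rep Y c b W Z → Y.Avoid Z → degree Z = ((Y.l * (Y.n ^ 2 + 1) : ℕ) : ℤ) →
      (∀ D, Y.lam D - Z ∈ Y.Prin → (Y.φE ^ m) D - D ∈ Y.Prin) →
      ∃ Z', Rep Y c b (F (c, τ, W)) Z' ∧ degree Z' ≤ ((Y.n * (2 * Y.n + 1) : ℕ) : ℤ) ∧
        Y.lam Z' - Z ∈ Y.Prin := by
  obtain ⟨beta, t1, -, h1⟩ := exists_beta
  obtain ⟨zz, t2, h2⟩ := G4c_z
  obtain ⟨mcol, t3, -, h3⟩ := exists_mcol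
  obtain ⟨lvl, t4, -, h4⟩ := exists_lvl
  obtain ⟨gU, t5, -, h5⟩ := exists_gU
  obtain ⟨fmul, t6, -, h6⟩ := exists_fmul
  obtain ⟨sat, t7, s7, h7⟩ := exists_sat
  obtain ⟨kk, hkk⟩ : ∃ kk : Cx → ℕ, ∀ c, kk c = (cmd c).length * (2 * (cmd c).length + 1) :=
    ⟨_, fun _ => rfl⟩
  have tk : TC 0 kk := by
    rw [funext hkk]
    fun_prop
  obtain ⟨B, hB⟩ : ∃ B : Cx × Mx × ℕ → Mx, ∀ a, B a = lvl (a.1, kk a.1 + a.2.2 *
      ((cmd a.1).length * (cmd a.1).length + 1), gU (a.1, (cL a.1).take a.2.2, a.2.1)) :=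
    ⟨_, fun _ => rfl⟩
  have tB : TC 0 B := by
    rw [funext hB]
    fun_prop
  obtain ⟨A, hA⟩ : ∃ A : Cx × Mx × Mx → Mx, ∀ a, A a = mcol (a.1, kk a.1, (idx (cL a.1)).map
      fun j => (a.2.1.getD j [], (B (a.1, a.2.2, j)).map fun v => fmul (a.1, a.2.1.getD 0 [], v))) :=
    ⟨_, fun _ => rfl⟩
  have tA : TC 0 A := by
    rw [funext hA]
    fun_prop
  refine ⟨fun a => sat (a.1, kk a.1, A (a.1, zz (a.1, beta a, a.2.2), a.2.2)), by fun_prop,
    fun c τ W => s7 _ _ _, ?_⟩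
  intro K L Pt _ _ _ Y m c b h τ W Z hτ hZ hav hd hinv
  obtain ⟨ψ, E, hs⟩ := h1 Y m c b h τ W Z hτ hZ hav hd hinv
  obtain ⟨t, hz, hne, hz'⟩ := h2 Y m c b h _ W Z E ψ hZ hd hs
  obtain ⟨h0, Z', hZ', hdeg, hlam, hLL⟩ := hs.rank_one hz hne hz'
  set M := zz (c, beta (c, τ, W), W) with hM
  have hl := Y.l_le_n
  obtain ⟨n1, n2, n3⟩ := G4c_num (G2a_two Y)
  have hN := h.N_ge
  have hk : kk c = Y.n * (2 * Y.n + 1) := by rw [hkk, h.n_eq]
  have hje : ∀ j < Y.l, j * (Y.n ^ 2 + 1) ≤ Y.n * (Y.n ^ 2 + 1) := fun j hj => by gcongr; omega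
  have hzz : ∀ j < Y.l, fv Y c b (M.getD j []) ∈ Y.LL ((((Y.n + 1) ^ 6 : ℕ) : ℤ) • Y.H) :=
    fun j hj => by
      refine Model.LL_mono ?_ (hz.1 j hj)
      rw [sub_sub]
      refine (G2a_sub_le (add_nonneg (Model.uE_nonneg j hZ.1)
        (single_nonneg.2 (Int.natCast_nonneg t)))).trans (G2a_H_mono ?_)
      have := hje j hj
      omega
  have hBs : ∀ j < Y.l, Sp Y c b (B (c, W, j)) =
      Y.LL (((kk c + j * (Y.n ^ 2 + 1) : ℕ) : ℤ) • Y.H - Y.uE j Z) := fun j hj => by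
    have e : ((cL c).take j).length = j := by rw [List.length_take, h.l_eq]; omega
    have r1 := h5 Y m c b h ((cL c).take j) W Z hZ (by
      unfold Small
      rw [Model.degree_uE, hd, e]
      have : j * (Y.l * (Y.n ^ 2 + 1)) ≤ Y.n * (Y.n * (Y.n ^ 2 + 1)) := by gcongr; omega
      exact_mod_cast this.trans n3)
    have := hje j hj
    rw [hB]
    dsimp only
    rw [h.n_eq, ← pow_two, h4 Y m c b h _ _ _ (by omega) r1, e]
  have hAs : Sp Y c b (A (c, M, W)) = Y.LL ((kk c : ℤ) • Y.H - Z') := by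
    ext u
    rw [hA, h3 Y m c b h (kk c) ((Y.n + 1) ^ 6) _ (by omega) (fun t ht => by
      obtain ⟨j, hj, rfl⟩ := List.mem_map.1 ht
      exact hzz j (by simpa [idx, h.l_eq] using hj)), List.forall_mem_map]
    have key : ∀ j < Y.l, u * fv Y c b (M.getD j []) ∈ Sp Y c b ((B (c, W, j)).map fun v =>
        fmul (c, M.getD 0 [], v)) ↔ u * fv Y c b (M.getD j []) / fv Y c b (M.getD 0 []) ∈
        Y.LL (((kk c + j * (Y.n ^ 2 + 1) : ℕ) : ℤ) • Y.H - Y.uE j Z) := fun j hj => by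
      rw [G1_Sp_map (T := LinearMap.mulLeft K (fv Y c b (M.getD 0 []))) _ fun v hv =>
        h6 Y m c b h _ v ((Y.n + 1) ^ 6) ((Y.n + 1) ^ 6) (by omega) (hzz 0 Y.prime.pos) ?_, hBs j hj]
      · refine ⟨fun ⟨y, hy, e⟩ => ?_, fun hy => ⟨_, hy, mul_div_cancel₀ _ h0⟩⟩
        rwa [← e, LinearMap.mulLeft_apply, mul_div_cancel_left₀ _ h0]
      · refine Model.LL_mono ((G2a_sub_le (Model.uE_nonneg j hZ.1)).trans (G2a_H_mono ?_))
          (hBs j hj ▸ fv_mem_Sp hv)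
        have := hje j hj
        omega
    constructor
    · rintro ⟨-, hu⟩
      exact (hLL _ u).2 fun j hj => (key j hj).1 (hu j (by simpa [idx, h.l_eq] using hj))
    · exact fun hu => ⟨Model.LL_mono (G2a_sub_le hZ') hu, fun j hj =>
        have hj : j < Y.l := by simpa [idx, h.l_eq] using hj
        (key j hj).2 ((hLL _ u).1 hu j hj)⟩
  refine ⟨Z', h7 Y m c b h (kk c) (A (c, M, W)) Z' ?_ hZ' ?_, hdeg.trans (by gcongr), hlam⟩
  · have : (Y.n + 1) ^ 6 ≤ Y.n * (Y.n + 1) ^ 6 := Nat.le_mul_of_pos_left _ (by omega)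
    omega
  · rw [hAs]
    refine Model.bpf_small hZ' ((mul_le_mul_of_nonneg_left hdeg (Int.natCast_nonneg _)).trans ?_)
    rw [hk, Model.n]
    push_cast
    exact le_of_eq (by ring)

end Vale.Agent.P319
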