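import Vale.Agent.P319.T2c

/-! T3: Riemann's inequality and base point freeness.
`riemann`: choose a polynomial `h(x)` and `m ≥ n` with `Z = dv h + m H - D ≥ 0`; `LL D ≅ LL (m H - Z)`,
`dim LL (m H) ≥ l (m + 1 - n)` (monomials), and removing one point lowers the dimension by at
most one (`Ge.exists_val`).
`bpf_small`: induction on `Z`; for a point `R` and a test point `Q` there is a section of
`n1 H - R` of exact order at `Q`: one of `1` (`R` infinite, `Q` finite), `x - a` (times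
`x ^ (n1 - 1)` if `Q` is infinite, times `(x - a') ^ (n1 - 1)` never needed), `y - py R`,
`y - c x ^ n1`, `y`, `x ^ (n1 - 1)` (`Q = R` infinite).
`bpf`: with `m = ⌈deg D / l⌉ + n`, `riemann` gives `u` with `Z = dv u + m H - D ≥ 0`,
`deg Z < l (n + 1)`, so `n1 * deg Z ≤ m`; multiply by `u⁻¹`. -/

namespace Vale.Agent.P319
open Polynomial Finsupp
namespace Model
variable {K L Pt : Type} [Field K] [Field L] [Algebra K L] {Y : Model K L Pt}
  {D Z : Pt →₀ ℤ}

theorem T3_sub_single {u : L} {R : Pt} (h : u ∈ Y.LL D) (hR : Y.Ge R (-D R + 1) u) :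
    u ∈ Y.LL (D - single R 1) := by
  classical
  intro Q
  by_cases hQ : R = Q
  · subst hQ
    refine hR.mono ?_
    simp only [Finsupp.sub_apply, single_eq_same]
    omega
  · refine (h Q).mono ?_
    simp [Finsupp.sub_apply, hQ]

theorem T3_ind {P : (Pt →₀ ℤ) → Prop} (h0 : P 0)
    (hs : ∀ Z R, 0 ≤ Z → P Z → P (Z + single R 1)) (Z : Pt →₀ ℤ) (hZ : 0 ≤ Z) : P Z := by
  classical
  obtain ⟨k, hk⟩ : ∃ k : ℕ, degree Z = k := ⟨(degree Z).toNat, by
    have := degree_nonneg hZ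
    omega⟩
  induction k generalizing Z with
  | zero => rw [eq_zero_of_degree hZ (by simp [hk])]; exact h0
  | succ k ih =>
    have hne : Z ≠ 0 := by
      rintro rfl
      simp only [map_zero] at hk
      omega
    obtain ⟨R, hR⟩ : ∃ R, Z R ≠ 0 := by
      by_contra hc
      exact hne (Finsupp.ext fun R => by simpa using fun h => hc ⟨R, h⟩)
    have h1 : 0 ≤ Z - single R 1 := by
      intro Q
      have := hZ Q
      by_cases hQ : R = Q
      · subst hQ
        simp only [Finsupp.coe_zero, Pi.zero_apply] at this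
        simp only [Finsupp.coe_zero, Pi.zero_apply, Finsupp.sub_apply, single_eq_same]
        omega
      · simpa [Finsupp.sub_apply, single_apply, hQ] using this
    have := hs _ R h1 (ih _ h1 (by
      rw [map_sub, degree_single, hk]
      push_cast
      ring))
    simpa using this

theorem T3_drop (W : Submodule K L) [FiniteDimensional K W] (hW : W ≤ Y.LL D) (Q : Pt) :
    Module.finrank K W ≤ Module.finrank K ↥(W ⊓ Y.LL (D - single Q 1)) + 1 := by
  by_cases h : W ≤ Y.LL (D - single Q 1)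
  · rw [inf_eq_left.2 h]
    omega
  obtain ⟨u0, hu0, hn⟩ := SetLike.not_le_iff_exists.1 h
  have hne : u0 ≠ 0 := by
    rintro rfl
    exact hn (Submodule.zero_mem _)
  have ho : Y.ord Q u0 = -D Q := by
    have h1 := (hW hu0 Q).resolve_left hne
    by_contra hc
    exact hn (T3_sub_single (hW hu0) (Or.inr (by omega)))
  have hle : W ≤ (W ⊓ Y.LL (D - single Q 1)) ⊔ Submodule.span K {u0} := by
    intro u hu
    have h1 : Y.Ge Q 0 (u * u0⁻¹) := by
      have := (hW hu Q).mul (ge_ord (Y := Y) (Q := Q) (u := u0⁻¹))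
      refine this.mono ?_
      rw [ord_inv, ho]
      omega
    obtain ⟨c, hc⟩ := h1.exists_val
    have h2 : u - c • u0 ∈ W := W.sub_mem hu (W.smul_mem c hu0)
    have h3 : Y.Ge Q (-D Q + 1) (u - c • u0) := by
      have := Ge.mul hc (ge_ord (Y := Y) (Q := Q) (u := u0))
      rw [sub_mul, inv_mul_cancel_right₀ hne, ← Algebra.smul_def] at this
      refine this.mono ?_
      omega
    have : u = (u - c • u0) + c • u0 := by simp
    rw [this]
    exact Submodule.add_mem_sup ⟨h2, T3_sub_single (hW h2) h3⟩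
      (Submodule.smul_mem _ c (Submodule.mem_span_singleton_self u0))
  have : FiniteDimensional K ↥(W ⊓ Y.LL (D - single Q 1)) :=
    Submodule.finiteDimensional_of_le inf_le_left
  refine (Submodule.finrank_mono hle).trans ?_
  refine (Submodule.finrank_add_le_finrank_add_finrank _ _).trans ?_
  rw [finrank_span_singleton hne]

theorem T3_drop_all (W : Submodule K L) [FiniteDimensional K W] (hW : W ≤ Y.LL D) (hZ : 0 ≤ Z) :
    (Module.finrank K W : ℤ) ≤ Module.finrank K ↥(W ⊓ Y.LL (D - Z)) + degree Z := by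
  refine T3_ind (P := fun Z => (Module.finrank K W : ℤ) ≤
    Module.finrank K ↥(W ⊓ Y.LL (D - Z)) + degree Z) ?_ ?_ Z hZ
  · rw [sub_zero, inf_eq_left.2 hW]
    simp
  · intro Z R _ ih
    have : FiniteDimensional K ↥(W ⊓ Y.LL (D - Z)) :=
      Submodule.finiteDimensional_of_le inf_le_left
    have h1 := T3_drop (W ⊓ Y.LL (D - Z)) inf_le_right R
    have h2 : W ⊓ Y.LL (D - Z) ⊓ Y.LL (D - Z - single R 1) = W ⊓ Y.LL (D - (Z + single R 1)) := by
      rw [inf_assoc, sub_sub, inf_eq_right.2 (LL_mono (Y := Y) _)]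
      exact sub_le_sub_left (le_add_of_nonneg_right (single_nonneg.2 zero_le_one)) _
    rw [h2] at h1
    rw [map_add, degree_single]
    omega

theorem T3_x_sub (a : K) : Y.x - algebraMap K L a ∈ Y.LL Y.H := by
  have := aeval_mem_LL (Y := Y) (X - C a) (m := 1) (natDegree_X_sub_C_le a)
  simpa using this

theorem T3_fib (Q : Pt) : ∃ u, u ≠ 0 ∧ single Q 1 ≤ Y.dv u + Y.H := by
  have key : ∀ u, u ≠ 0 → u ∈ Y.LL Y.H → Y.Ge Q (-Y.H Q + 1) u → single Q 1 ≤ Y.dv u + Y.H := by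
    intro u hu h1 h2
    have := (mem_LL_iff hu).1 (T3_sub_single h1 h2)
    rwa [← add_sub_assoc, sub_nonneg] at this
  cases h : Y.px Q with
  | none =>
    refine ⟨1, one_ne_zero, key 1 one_ne_zero ?_ (Or.inr ?_)⟩
    · simpa using mono_mem_LL (Y := Y) (a := 0) (b := 0) (m := 1) (by simp)
    · rw [H_inf h, ord_one]; simp
  | some a =>
    refine ⟨_, Y.x_sub_ne a, key _ (Y.x_sub_ne a) (T3_x_sub a) ?_⟩
    rw [H_fin (by simp [h])]
    simpa [Val] using val_x h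

theorem T3_bound (D : Pt →₀ ℤ) : ∃ u, u ≠ 0 ∧ ∃ m : ℕ, D ≤ Y.dv u + (m : ℤ) • Y.H := by
  have key : ∀ Z, 0 ≤ Z → ∃ u, u ≠ 0 ∧ ∃ m : ℕ, Z ≤ Y.dv u + (m : ℤ) • Y.H := by
    refine T3_ind ⟨1, one_ne_zero, 0, ?_⟩ ?_
    · have := dv_c (Y := Y) 1
      simp only [map_one] at this
      simp [this]
    · rintro Z R - ⟨u, hu, m, hm⟩
      obtain ⟨v, hv, hR⟩ := T3_fib (Y := Y) R
      refine ⟨u * v, mul_ne_zero hu hv, m + 1, (add_le_add hm hR).trans (le_of_eq ?_)⟩
      rw [dv_mul hu hv]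
      push_cast
      module
  obtain ⟨u, hu, m, hm⟩ := key (D ⊔ 0) le_sup_right
  exact ⟨u, hu, m, le_sup_left.trans hm⟩

theorem T3_big (N : ℕ) : ∃ W : Submodule K L, FiniteDimensional K W ∧
    W ≤ Y.LL (((N + Y.n : ℕ) : ℤ) • Y.H) ∧ Module.finrank K W = Y.l * (N + 1) := by
  let e : (Fin (Y.l * (N + 1)) → K) →ₗ[K] ℕ → K :=
    LinearMap.pi fun k => if h : k < Y.l * (N + 1) then LinearMap.proj ⟨k, h⟩ else 0
  refine ⟨LinearMap.range (Y.fn (N + 1) ∘ₗ e), inferInstance, ?_, ?_⟩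
  · rintro _ ⟨w, rfl⟩
    refine fn_mem_LL_H.2 fun b hb a ha h => ?_
    have : Y.n1 * b ≤ Y.n := by
      rw [n, mul_comm]
      exact Nat.mul_le_mul_right _ hb.le
    omega
  · rw [LinearMap.finrank_range_of_inj, Module.finrank_fin_fun]
    refine (injective_iff_map_eq_zero _).2 fun w hw => funext fun k => ?_
    have := fn_eq_zero.1 hw k k.2
    simpa [e, k.2] using this

theorem riemann (h : ((Y.l * Y.n : ℕ) : ℤ) ≤ degree D) : ∃ u, u ≠ 0 ∧ u ∈ Y.LL D := by
  obtain ⟨u, hu, m, hm⟩ := T3_bound (Y := Y) D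
  obtain ⟨W, hW, h1, h2⟩ := T3_big (Y := Y) m
  have hZ : 0 ≤ Y.dv u + ((m + Y.n : ℕ) : ℤ) • Y.H - D := by
    rw [sub_nonneg]
    refine hm.trans (add_le_add le_rfl (smul_le_smul_of_nonneg_right (by simp) H_nonneg))
  have h3 := T3_drop_all W h1 hZ
  rw [h2, map_sub, map_add, degree_dv, map_zsmul, degree_H, smul_eq_mul] at h3
  have h4 : W ⊓ Y.LL (((m + Y.n : ℕ) : ℤ) • Y.H - (Y.dv u + ((m + Y.n : ℕ) : ℤ) • Y.H - D)) ≠ ⊥ := by
    intro hc
    rw [hc, finrank_bot] at h3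
    have := Y.two_le
    push_cast at h h3
    nlinarith
  obtain ⟨v, hv, hv0⟩ := Submodule.exists_mem_ne_zero_of_ne_bot h4
  refine ⟨u⁻¹ * v, mul_ne_zero (inv_ne_zero hu) hv0, (mul_mem_LL_iff (inv_ne_zero hu)).2 ?_⟩
  rw [dv_inv]
  have e : D + -Y.dv u = ((m + Y.n : ℕ) : ℤ) • Y.H - (Y.dv u + ((m + Y.n : ℕ) : ℤ) • Y.H - D) := by
    abel
  rw [e]
  exact hv.2

/-- a section of exact order at `Q` -/
def T3G (Y : Model K L Pt) (D : Pt →₀ ℤ) (Q : Pt) : Prop :=
  ∃ u ∈ Y.LL D, u ≠ 0 ∧ Y.ord Q u = -D Q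

theorem T3G.add {Q : Pt} (h : T3G Y D Q) (h' : T3G Y Z Q) : T3G Y (D + Z) Q := by
  obtain ⟨u, h1, h2, h3⟩ := h
  obtain ⟨v, h4, h5, h6⟩ := h'
  refine ⟨u * v, mul_mem_LL h1 h4, mul_ne_zero h2 h5, ?_⟩
  rw [Y.ord_mul Q u v h2 h5, h3, h6, Finsupp.add_apply]
  ring

theorem T3G_H (m : ℕ) (Q : Pt) : T3G Y ((m : ℤ) • Y.H) Q := by
  by_cases h : Y.px Q = none
  · refine ⟨Y.x ^ m, ?_, pow_ne_zero _ Y.x_ne, ?_⟩
    · simpa using mono_mem_LL (Y := Y) (a := m) (b := 0) (m := m) (by simp)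
    · simp [ord_pow, Y.ord_x_inf Q h, H_inf h]
  · refine ⟨1, ?_, one_ne_zero, ?_⟩
    · simpa using mono_mem_LL (Y := Y) (a := 0) (b := 0) (m := m) (by simp)
    · simp [ord_one, H_fin h]

theorem T3G_of {R Q : Pt} (h : T3G Y (Y.H - single R 1) Q) :
    T3G Y ((Y.n1 : ℤ) • Y.H - single R 1) Q := by
  obtain ⟨k, hk⟩ : ∃ k, Y.n1 = k + 1 := ⟨Y.n1 - 1, by have := Y.n1_pos; omega⟩
  convert h.add (T3G_H k Q) using 1
  rw [hk]
  push_cast
  module

theorem T3G_pt (R Q : Pt) : T3G Y ((Y.n1 : ℤ) • Y.H - single R 1) Q := by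
  classical
  have hy : Y.y ∈ Y.LL ((Y.n1 : ℤ) • Y.H) := by
    simpa using mono_mem_LL (Y := Y) (a := 0) (b := 1) (m := Y.n1) (by simp)
  have hx : ∀ a, a ≤ Y.n1 → Y.x ^ a ∈ Y.LL ((Y.n1 : ℤ) • Y.H) := fun a ha => by
    simpa using mono_mem_LL (Y := Y) (a := a) (b := 0) (m := Y.n1) (by simpa using ha)
  have h1 : (1 : L) ∈ Y.LL Y.H := by
    simpa using mono_mem_LL (Y := Y) (a := 0) (b := 0) (m := 1) (by simp)
  cases hR : Y.px R with
  | none =>
    have h2 : (1 : L) ∈ Y.LL (Y.H - single R 1) :=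
      T3_sub_single h1 (Or.inr (by rw [H_inf hR, ord_one]; simp))
    by_cases hQR : R = Q
    · subst hQR
      exact T3G_of ⟨1, h2, one_ne_zero, by simp [ord_one, H_inf hR]⟩
    by_cases hQ : Y.px Q = none
    · have hxn : Y.x ^ Y.n1 ≠ 0 := pow_ne_zero _ Y.x_ne
      have e : Y.y - Y.py R • Y.x ^ Y.n1 =
          (Y.y / Y.x ^ Y.n1 - algebraMap K L (Y.py R)) * Y.x ^ Y.n1 := by
        rw [sub_mul, div_mul_cancel₀ _ hxn, Algebra.smul_def]
      have hv : Y.Val Q (Y.y / Y.x ^ Y.n1 - algebraMap K L (Y.py R)) (Y.py Q - Y.py R) :=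
        Val.sub (Or.inr (Y.ord_y_inf Q hQ)) val_c
      have hv' := hv.ord_eq (sub_ne_zero.2 fun hc => hQR (Y.pt_inj _ _ (hR.trans hQ.symm) hc.symm))
      refine ⟨Y.y - Y.py R • Y.x ^ Y.n1, T3_sub_single
        (Submodule.sub_mem _ hy (Submodule.smul_mem _ _ (hx _ le_rfl))) ?_, ?_, ?_⟩
      · rw [e]
        refine (Ge.mul (Or.inr (Y.ord_y_inf R hR)) ge_ord).mono ?_
        simp [ord_pow, Y.ord_x_inf R hR, H_inf hR, add_comm]
      · rw [e]
        exact mul_ne_zero hv'.1 hxn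
      · rw [e, Y.ord_mul Q _ _ hv'.1 hxn, hv'.2]
        simp [ord_pow, Y.ord_x_inf Q hQ, H_inf hQ, hQR]
    · exact T3G_of ⟨1, h2, one_ne_zero, by simp [ord_one, H_fin hQ, hQR]⟩
  | some a =>
    have hR' : Y.H R = 0 := H_fin (by simp [hR])
    have h2 : Y.x - algebraMap K L a ∈ Y.LL (Y.H - single R 1) :=
      T3_sub_single (T3_x_sub a) (by simpa [hR', Val] using val_x hR)
    have h3 : Y.y - algebraMap K L (Y.py R) ∈ Y.LL ((Y.n1 : ℤ) • Y.H - single R 1) := by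
      refine T3_sub_single (Submodule.sub_mem _ hy ?_) (by simpa [hR', Val] using val_y hR)
      simpa [Algebra.smul_def] using Submodule.smul_mem _ (Y.py R) (hx 0 (Nat.zero_le _))
    by_cases hQR : R = Q
    · subst hQR
      by_cases h0 : Y.py R = 0
      · refine ⟨_, h3, ?_, ?_⟩
        · simpa [h0] using Y.y_ne
        · simp [h0, ord_y_ram h0, hR']
      · exact T3G_of ⟨_, h2, Y.x_sub_ne a, by simp [Y.ord_x R a hR h0, hR']⟩
    cases hQ : Y.px Q with
    | none =>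
      refine T3G_of ⟨_, h2, Y.x_sub_ne a, ?_⟩
      have := ord_aeval_inf hQ (X_sub_C_ne_zero a)
      simp only [map_sub, aeval_X, aeval_C, natDegree_X_sub_C] at this
      simp [this, H_inf hQ, hQR]
    | some a' =>
      have hQ' : Y.H Q = 0 := H_fin (by simp [hQ])
      by_cases ha : a' = a
      · subst ha
        have hv := ((val_y hQ).sub (val_c (c := Y.py R))).ord_eq
          (sub_ne_zero.2 fun hc => hQR (Y.pt_inj _ _ (hR.trans hQ.symm) hc.symm))
        exact ⟨_, h3, hv.1, by simp [hv.2, hQ', hQR]⟩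
      · have hv := ((val_x hQ).sub (val_c (c := a))).ord_eq (sub_ne_zero.2 ha)
        exact T3G_of ⟨_, h2, hv.1, by simp [hv.2, hQ', hQR]⟩

theorem bpf_small {m : ℕ} (hZ : 0 ≤ Z) (h : Y.n1 * degree Z ≤ m) :
    Y.Bpf (Y.LL ((m : ℤ) • Y.H - Z)) ((m : ℤ) • Y.H - Z) := by
  refine ⟨le_rfl, fun Q => ?_⟩
  refine T3_ind (P := fun Z => ∀ m : ℕ, Y.n1 * degree Z ≤ m → T3G Y ((m : ℤ) • Y.H - Z) Q)
    ?_ ?_ Z hZ m h
  · intro m _
    simpa using T3G_H m Q
  · intro Z R hZ ih m hm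
    rw [map_add, degree_single, mul_add, mul_one] at hm
    have h0 : 0 ≤ (Y.n1 : ℤ) * degree Z := mul_nonneg (by simp) (degree_nonneg hZ)
    obtain ⟨k, rfl⟩ : ∃ k, m = k + Y.n1 := ⟨m - Y.n1, by omega⟩
    convert (ih k (by push_cast at hm; omega)).add (T3G_pt R Q) using 1
    push_cast
    module

theorem bpf (h : ((Y.l * Y.n ^ 2 : ℕ) : ℤ) ≤ degree D) : Y.Bpf (Y.LL D) D := by
  refine ⟨le_rfl, fun Q => ?_⟩
  have hl : (2 : ℤ) ≤ Y.l := by exact_mod_cast Y.two_le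
  obtain ⟨d, hd⟩ : ∃ d : ℕ, degree D = d := ⟨(degree D).toNat, by omega⟩
  rw [hd, Nat.cast_le] at h
  obtain ⟨k, hk1, hk2⟩ : ∃ k : ℕ, d ≤ Y.l * k ∧ Y.l * k < d + Y.l := by
    refine ⟨(d + Y.l - 1) / Y.l, ?_, ?_⟩
    · have := Nat.div_add_mod (d + Y.l - 1) Y.l
      have := Nat.mod_lt (d + Y.l - 1) (show 0 < Y.l by omega)
      omega
    · have := Nat.mul_div_le (d + Y.l - 1) Y.l
      omega
  have hk3 : Y.n ^ 2 ≤ k := Nat.le_of_mul_le_mul_left (h.trans hk1) (by omega)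
  have e : degree (((k + Y.n : ℕ) : ℤ) • Y.H - D) = Y.l * k + Y.l * Y.n - d := by
    rw [map_sub, map_zsmul, degree_H, hd, smul_eq_mul]
    push_cast
    ring
  obtain ⟨u, hu, hu'⟩ := riemann (Y := Y) (D := ((k + Y.n : ℕ) : ℤ) • Y.H - D) (by
    rw [e]
    zify at hk1
    push_cast
    omega)
  obtain ⟨v, h1, h2, h3⟩ := (bpf_small (Y := Y) (m := k + Y.n) ((mem_LL_iff hu).1 hu') (by
    rw [map_add, degree_dv, e, zero_add]
    have h4 : (Y.n : ℤ) = Y.l * Y.n1 := by simp [n]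
    have h5 : (0 : ℤ) ≤ Y.n1 := by simp
    zify at hk2 hk3
    have h6 : (Y.n1 : ℤ) * (Y.l * k + Y.l * Y.n - d) ≤ Y.n1 * (Y.l + Y.l * Y.n) :=
      mul_le_mul_of_nonneg_left (by omega) h5
    have h7 : (Y.n1 : ℤ) * (Y.l + Y.l * Y.n) = Y.n + Y.n ^ 2 := by
      rw [sq]
      nth_rewrite 2 3 [h4]
      ring
    push_cast
    omega)).2 Q
  have e2 : ((k + Y.n : ℕ) : ℤ) • Y.H - (Y.dv u + (((k + Y.n : ℕ) : ℤ) • Y.H - D)) =
      D + Y.dv u⁻¹ := by
    rw [dv_inv]
    abel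
  rw [e2] at h1 h3
  refine ⟨u⁻¹ * v, (mul_mem_LL_iff (inv_ne_zero hu)).2 h1, mul_ne_zero (inv_ne_zero hu) h2, ?_⟩
  rw [Y.ord_mul Q _ _ (inv_ne_zero hu) h2, h3, Finsupp.add_apply, dv_apply]
  ring

end Model

/-- a point of the moment curve outside finitely many subspaces -/
theorem exists_moment {K V ι : Type} [Field K] [AddCommGroup V] [Module K V] (p : ℕ) [CharP K p]
    (r : ℕ) (u : ℕ → V) (I : Finset ι) (U : ι → Submodule K V)
    (hU : ∀ i ∈ I, ∃ j < r, u j ∉ U i) {T : ℕ} (hT : I.card * r < T) (hp : T ≤ p) :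
    ∃ t < T, ∀ i ∈ I, ∑ j ∈ Finset.range r, (t : K) ^ j • u j ∉ U i := by
  classical
  have key : ∀ i ∈ I, ((Finset.range T).filter fun t : ℕ =>
      ∑ j ∈ Finset.range r, (t : K) ^ j • u j ∈ U i).card ≤ r := by
    intro i hi
    obtain ⟨j0, hj0, hu⟩ := hU i hi
    obtain ⟨φ, h1, h2⟩ := Submodule.exists_dual_map_eq_bot_of_notMem hu inferInstance
    let g : K[X] := ∑ j ∈ Finset.range r, monomial j (φ (u j))
    have hg : g ≠ 0 := by
      intro hc
      have := congrArg (coeff · j0) hc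
      simp [g, coeff_monomial, hj0] at this
      exact h1 this
    have hd : g.natDegree ≤ r := natDegree_sum_le_of_forall_le _ _ fun j hj =>
      (natDegree_monomial_le _).trans (Finset.mem_range.1 hj).le
    refine le_trans ?_ ((Multiset.toFinset_card_le g.roots).trans ((card_roots' g).trans hd))
    refine Finset.card_le_card_of_injOn (fun t : ℕ => (t : K)) (fun t ht => ?_) ?_
    · have ht2 := (Finset.mem_filter.1 ht).2
      have : φ (∑ j ∈ Finset.range r, (t : K) ^ j • u j) = 0 := by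
        rw [← Submodule.mem_bot K, ← h2]
        exact Submodule.mem_map_of_mem ht2
      simp only [Finset.mem_coe, Multiset.mem_toFinset, mem_roots hg, IsRoot.def, g,
        eval_finsetSum, eval_monomial]
      simpa [mul_comm] using this
    · refine (CharP.natCast_injOn_Iio K p).mono fun t ht => ?_
      exact lt_of_lt_of_le (Finset.mem_range.1 (Finset.mem_filter.1 ht).1) hp
  by_contra hc
  push Not at hc
  have : Finset.range T ⊆ I.biUnion fun i => (Finset.range T).filter fun t : ℕ =>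
      ∑ j ∈ Finset.range r, (t : K) ^ j • u j ∈ U i := by
    intro t ht
    obtain ⟨i, hi, h⟩ := hc t (Finset.mem_range.1 ht)
    exact Finset.mem_biUnion.2 ⟨i, hi, Finset.mem_filter.2 ⟨ht, h⟩⟩
  have h1 := (Finset.card_le_card this).trans (Finset.card_biUnion_le_card_mul _ _ _ key)
  rw [Finset.card_range] at h1
  omega

end Vale.Agent.P319
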