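import Vale.Agent.P319.F1a
import Vale.Agent.P319.T3

/-! Sections of exact order on the moment curve. -/

namespace Vale.Agent.P319
open Vale.Agent.Common.TreeTM Vale.Agent.P337 Finsupp

variable {K L Pt : Type} [Field K] [Field L] [Algebra K L] {Y : Model K L Pt} {m : ℕ} {c : Cx}
  {b : ℕ → K}

theorem mom_exact {u : L} {D : Pt →₀ ℤ} {Q : Pt} (h : u ∈ Y.LL D)
    (h' : u ∉ Y.LL (D - single Q 1)) : u ≠ 0 ∧ Y.ord Q u = -D Q := by
  have h0 : u ≠ 0 := fun e => h' (e ▸ zero_mem _)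
  refine ⟨h0, le_antisymm (not_lt.1 fun hlt => h' fun Q' => ?_) ((h Q).resolve_left h0)⟩
  by_cases e : Q = Q'
  · subst e
    refine Or.inr ?_
    rw [Finsupp.sub_apply, single_eq_same]
    omega
  · rw [Finsupp.sub_apply, single_eq_of_ne (Ne.symm e), sub_zero]
    exact h Q'

theorem mom_row {W : Mx} {D : Pt →₀ ℤ} (h : Y.Bpf (Sp Y c b W) D) (Q : Pt) :
    ∃ j < W.length, fv Y c b (W.getD j []) ∉ Y.LL (D - single Q 1) := by
  by_contra hc
  push Not at hc
  obtain ⟨u, hu, h0, h1⟩ := h.2 Q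
  have : Sp Y c b W ≤ Y.LL (D - single Q 1) := Sp_le.2 fun v hv => by
    obtain ⟨j, hj, rfl⟩ := List.getElem_of_mem hv
    have := hc j hj
    rwa [List.getD_eq_getElem _ _ hj] at this
  have h2 := (this hu Q).resolve_left h0
  rw [Finsupp.sub_apply, single_eq_same] at h2
  omega

theorem mom_mem (W : Mx) (t : K) :
    ∑ j ∈ Finset.range W.length, t ^ j • fv Y c b (W.getD j []) ∈ Sp Y c b W :=
  mem_Sp.2 ⟨_, rfl⟩

/-- one matrix, several contexts -/
theorem mom_exists {ι : Type} (p : ℕ) [CharP K p] (I : Finset ι) (c : Cx) (b : ι → ℕ → K)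
    (W : Mx) (D : ι → Pt →₀ ℤ) (Q : ι → Pt) (h : ∀ i ∈ I, Y.Bpf (Sp Y c (b i) W) (D i)) {T : ℕ}
    (hT : I.card * W.length < T) (hp : T ≤ p) : ∃ t < T, ∀ i ∈ I,
      ∑ j ∈ Finset.range W.length, (t : K) ^ j • fv Y c (b i) (W.getD j []) ≠ 0 ∧
      Y.ord (Q i) (∑ j ∈ Finset.range W.length, (t : K) ^ j • fv Y c (b i) (W.getD j [])) =
        -D i (Q i) := by
  obtain ⟨t, ht, h1⟩ := exists_moment (K := K) (V := ι → L) p W.length
    (fun j i => fv Y c (b i) (W.getD j [])) I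
    (fun i => (Y.LL (D i - single (Q i) 1)).comap (LinearMap.proj i))
    (fun i hi => mom_row (h i hi) (Q i)) hT hp
  refine ⟨t, ht, fun i hi => mom_exact ((h i hi).1 (mom_mem W _)) fun e => h1 i hi ?_⟩
  simpa [Finset.sum_apply] using e

/-- the list of the parameters `t` -/
def momT (c : Cx) : List ℕ := idx (0 :: (cmd c).flatMap fun _ => wd c)

@[fun_prop] theorem tc_momT {α : Type} [Enc α] {c : α → Cx} (h : TC 0 c) :
    TC 0 fun a => momT (c a) := by
  unfold momT; fun_prop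

theorem mem_momT {t : ℕ} : t ∈ momT c ↔ t < (cmd c).length * (wd c).length + 1 := by
  simp [momT, idx, List.length_flatMap]

theorem mem_roots_iff [DecidableEq K] {α : K} : α ∈ Y.f.roots.toFinset ↔ Y.f.IsRoot α := by
  rw [Multiset.mem_toFinset, Polynomial.mem_roots Y.monic.ne_zero]

/-- a section of exact order at all ramification points -/
theorem Sem.mom_ram (h : Sem Y m c b) {W : Mx} (hW : W.length = (wd c).length) {D : Pt →₀ ℤ}
    (hD : Y.Bpf (Sp Y c b W) D) : ∃ t ∈ momT c, ∀ α, Y.f.IsRoot α →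
      ∑ j ∈ Finset.range W.length, (t : K) ^ j • fv Y c b (W.getD j []) ≠ 0 ∧
      Y.ord (Y.P α) (∑ j ∈ Finset.range W.length, (t : K) ^ j • fv Y c b (W.getD j [])) =
        -D (Y.P α) := by
  classical
  have := h.charP
  obtain ⟨t, ht, h1⟩ := mom_exists (cR c).1 Y.f.roots.toFinset c (fun _ => b) W (fun _ => D) Y.P
    (fun _ _ => hD) (T := (cmd c).length * (wd c).length + 1)
    (by rw [Model.card_roots, h.n_eq, hW]; omega) (by rw [h.n_eq, h.wd_eq]; exact h.p_gt)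
  exact ⟨t, mem_momT.2 ht, fun α hα => h1 α (mem_roots_iff.2 hα)⟩

end Vale.Agent.P319
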