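import Vale.Agent.P319.TourA

/-! Tour: an even number of roots is separated by the scores of a tournament. -/

namespace Vale.Agent.P319
open Polynomial Vale.Agent.Common.TreeTM Vale.Agent.P337

def Tour_der (A : RC) (md : List El) : List El :=
  (idx md).map fun k => rmul A (rcst A (k + 1)) ((md ++ [rone A]).getD (k + 1) [])

def Tour_sc (R : RC) (q : ℕ) (md : List El) (η : El) : El :=
  (slc (quot R md) (md.map (emb R md)) (rmul (quot (quot R md) (md.map (emb R md)))
    (Tour_sgn (quot (quot R md) (md.map (emb R md))) q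
      (emb (quot R md) (md.map (emb R md)) (emb R md η))
      (rsub (quot (quot R md) (md.map (emb R md)))
        (emb (quot R md) (md.map (emb R md)) (gen R md)) (gen (quot R md) (md.map (emb R md)))))
    (atT (quot R md) (md.map (emb R md)) (Tour_der (quot R md) (md.map (emb R md)))))).getD
    (md.length - 1) []

variable {Ω : Type} [Field Ω] {R : RC} {q : ℕ} {β : ℕ → Ω}

theorem Tour_pol_der (h : IsHom R q β) (md : List El) :
    pol R β (Tour_der R md) = derivative (mpol R β md) := by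
  ext k
  rw [coeff_pol, coeff_derivative, Tour_der, R1_getD_idx, mpol, coeff_add, coeff_pol, coeff_X_pow]
  split_ifs with h1 h2 h2
  · rw [h.rmul, h.rcst, List.getD_append_right _ _ _ _ h2.ge, List.getD_eq_default md _ h2.ge]
    rw [h2, Nat.sub_self]
    simp [h.rone, ev_nil, ← h2]
  · rw [h.rmul, h.rcst, List.getD_append _ _ _ _ (by omega)]
    simp [mul_comm]
  · omega
  · rw [List.getD_eq_default md _ (by omega)]
    simp [ev_nil]

theorem Tour_mpol (h : IsHom R q β) {md : List El} {a : Ω} (ha : (mpol R β md).IsRoot a) :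
    mpol (quot R md) (bq md β a) (md.map (emb R md)) = mpol R β md := by
  rw [mpol, mpol, List.length_map]
  congr 1
  ext k
  rw [coeff_pol, coeff_pol]
  by_cases hk : k < md.length
  · rw [List.getD_eq_getElem _ _ (by simpa using hk), List.getD_eq_getElem _ _ hk,
      List.getElem_map, h.emb ha]
  · rw [List.getD_eq_default _ _ (by simpa using hk), List.getD_eq_default _ _ (by simpa using hk),
      ev_nil, ev_nil]

theorem Tour_score (h : IsHom R q β) (hp : R.1.Prime) {k : ℕ} (hq : q = R.1 ^ k) {md : List El}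
    (h0 : 0 < md.length) {s : Finset Ω} (hs : s.card = md.length)
    (hm : mpol R β md = ∏ a ∈ s, (X - C a)) (hf : ∀ a ∈ s, a ^ q = a) (η : El) {a : Ω}
    (ha : a ∈ s) : ev (quot R md) (bq md β a) (Tour_sc R q md η) =
      ∑ b ∈ s, Tour_σ q (ev R β η) (a - b) := by
  classical
  have hr : ∀ a ∈ s, (mpol R β md).IsRoot a := fun a ha => by
    rw [hm]; exact Lagrange.eval_nodal_at_node (v := _root_.id) ha
  have hA := h.quot hp hq (hr a ha) (hf a ha)
  have hM := Tour_mpol h (hr a ha)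
  rw [Tour_sc, ← coeff_pol, ← hs, Lagrange.coeff_eq_sum (s := s) (v := _root_.id)
    (Set.injOn_id _) (by
      have := A3_degree_pol (quot R md) (bq md β a) (slc (quot R md) (md.map (emb R md))
        (rmul (quot (quot R md) (md.map (emb R md))) (Tour_sgn (quot (quot R md)
          (md.map (emb R md))) q (emb (quot R md) (md.map (emb R md)) (emb R md η))
          (rsub (quot (quot R md) (md.map (emb R md))) (emb (quot R md) (md.map (emb R md))
            (gen R md)) (gen (quot R md) (md.map (emb R md)))))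
          (atT (quot R md) (md.map (emb R md)) (Tour_der (quot R md) (md.map (emb R md))))))
      rwa [length_slc, List.length_map, ← hs] at this)]
  refine Finset.sum_congr rfl fun b hb => ?_
  have hb' : (mpol (quot R md) (bq md β a) (md.map (emb R md))).IsRoot b := hM ▸ hr b hb
  have hB := hA.quot hp hq hb' (hf b hb)
  have hd : (derivative (mpol R β md)).eval b = ∏ j ∈ s.erase b, (b - j) := by
    rw [hm]
    exact (Lagrange.eval_nodal_derivative_eval_node_eq (v := _root_.id) hb).trans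
      Lagrange.eval_nodal
  simp only [id_eq]
  rw [← ev_quot, hB.rmul, Tour_ev hB, hB.rsub, hA.emb hb', hA.emb hb', hA.gen hb',
    h.emb (hr a ha), h.gen (hr a ha), hA.atT hb', Tour_pol_der hA, hM, hd, mul_div_cancel_right₀]
  exact Finset.prod_ne_zero_iff.2 fun j hj => sub_ne_zero.2 (Finset.ne_of_mem_erase hj).symm

theorem Tour_int {σ : Ω → Ω} {t : Finset Ω} (h : ∀ b ∈ t, σ b = 1 ∨ σ b = -1) :
    ∃ z : ℤ, ∑ b ∈ t, σ b = z ∧ z.natAbs ≤ t.card ∧ z % 2 = t.card % 2 := by
  classical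
  induction t using Finset.induction_on with
  | empty => exact ⟨0, by simp⟩
  | insert b t hb ih =>
    obtain ⟨z, h1, h2, h3⟩ := ih fun c hc => h c (Finset.mem_insert_of_mem hc)
    rw [Finset.sum_insert hb, Finset.card_insert_of_notMem hb, h1]
    rcases h b (Finset.mem_insert_self _ _) with h4 | h4
    · exact ⟨1 + z, by simp [h4], by omega, by push_cast; omega⟩
    · exact ⟨-1 + z, by simp [h4], by omega, by push_cast; omega⟩

theorem exists_tour : ∃ tour : RC × ℕ × List El × El → List (List El), TC 0 tour ∧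
    ∀ {Ω : Type} [Field Ω] (R : RC) (q : ℕ) (β : ℕ → Ω) (md : List El) (η : El) (k : ℕ)
      (s : Finset Ω), IsHom R q β → R.1.Prime → q = R.1 ^ k → md.length < R.1 → 0 < md.length →
      Even md.length → s.card = md.length → mpol R β md = ∏ a ∈ s, (X - C a) →
      (∀ a ∈ s, a ^ q = a) → ev R β η ≠ 0 → ev R β η ^ ((q - 1) / 2) ≠ 1 →
      ∃ g ∈ tour (R, q, md, η), ∃ a ∈ s, ∃ a' ∈ s,
        (pol R β g).eval a = 0 ∧ (pol R β g).eval a' ≠ 0 := by
  refine ⟨fun x => (idx x.2.2.1).flatMap fun c =>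
    [slc x.1 x.2.2.1 (rsub (quot x.1 x.2.2.1) (Tour_sc x.1 x.2.1 x.2.2.1 x.2.2.2)
      (rcst (quot x.1 x.2.2.1) c)),
     slc x.1 x.2.2.1 (radd (quot x.1 x.2.2.1) (Tour_sc x.1 x.2.1 x.2.2.1 x.2.2.2)
      (rcst (quot x.1 x.2.2.1) c))], by unfold Tour_sc Tour_der; fun_prop, ?_⟩
  intro Ω _ R q β md η k s h hp hq hn h0 he hs hm hf hη hη'
  classical
  haveI := Fact.mk hp
  have hch : CharP Ω R.1 := (CharP.charP_iff_prime_eq_zero hp).2 h.char
  have hn2 : 2 ≤ md.length := by obtain ⟨j, hj⟩ := he; omega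
  have hpo : Odd R.1 := hp.odd_of_ne_two (by omega)
  have hnz : ∀ m : ℕ, 0 < m → m < R.1 → (m : Ω) ≠ 0 := fun m h1 h2 h3 =>
    absurd (Nat.le_of_dvd h1 ((CharP.cast_eq_zero_iff Ω R.1 m).1 h3)) (by omega)
  have h2 : (2 : Ω) ≠ 0 := by exact_mod_cast hnz 2 two_pos (by omega)
  obtain ⟨s1, s2⟩ := Tour_σ_spec (hq ▸ hpo.pow) h.two_lt h2 hη (h.fix η) hη'
  have s0 : Tour_σ q (ev R β η) 0 = 0 := by
    have := s1 0
    rw [neg_zero, eq_neg_iff_add_eq_zero, ← two_mul] at this
    exact (mul_eq_zero.1 this).resolve_left h2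
  have hr : ∀ a ∈ s, (mpol R β md).IsRoot a := fun a ha => by
    rw [hm]; exact Lagrange.eval_nodal_at_node (v := _root_.id) ha
  have hA := fun a ha => h.quot hp hq (hr a ha) (hf a ha)
  obtain ⟨a, ha⟩ := Finset.card_pos.1 (hs ▸ h0)
  obtain ⟨z, z1, z2, z3⟩ := Tour_int (σ := fun b => Tour_σ q (ev R β η) (a - b)) (t := s.erase a)
    fun b hb => s2 _ (sub_ne_zero.2 (Finset.ne_of_mem_erase hb).symm) (by
      rw [hq, sub_pow_char_pow, ← hq, hf a ha, hf b (Finset.mem_of_mem_erase hb)])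
  rw [Finset.card_erase_of_mem ha, hs] at z2 z3
  have z4 : ∑ b ∈ s, Tour_σ q (ev R β η) (a - b) = z := by
    rw [← Finset.add_sum_erase _ _ ha, sub_self, s0, zero_add, z1]
  have z5 : (z : Ω) ≠ 0 := by
    have : z.natAbs ≠ 0 := by obtain ⟨j, hj⟩ := he; omega
    have h3 := hnz z.natAbs (by omega) (by omega)
    rcases Int.natAbs_eq z with h4 | h4 <;> rw [h4] <;> simpa using h3
  obtain ⟨a', ha', hne⟩ : ∃ a' ∈ s, ∑ b ∈ s, Tour_σ q (ev R β η) (a' - b) ≠ z := by
    by_contra! hc
    have e1 : ∑ a' ∈ s, ∑ b ∈ s, Tour_σ q (ev R β η) (a' - b) = md.length * z := by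
      rw [Finset.sum_congr rfl hc, Finset.sum_const, hs, nsmul_eq_mul]
    have e2 : ∑ a' ∈ s, ∑ b ∈ s, Tour_σ q (ev R β η) (a' - b) =
        -∑ a' ∈ s, ∑ b ∈ s, Tour_σ q (ev R β η) (a' - b) := by
      conv_lhs => rw [Finset.sum_comm]
      simp only [← Finset.sum_neg_distrib, ← s1, neg_sub]
    rw [eq_neg_iff_add_eq_zero, ← two_mul, e1] at e2
    exact mul_ne_zero h2 (mul_ne_zero (hnz _ h0 hn) z5) e2
  have hc : z.natAbs ∈ idx md := by simp only [idx, List.mem_range]; omega
  rcases Int.natAbs_eq z with h4 | h4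
  · refine ⟨_, List.mem_flatMap.2 ⟨_, hc, List.mem_cons_self⟩, a, ha, a', ha', ?_, ?_⟩
    · rw [← ev_quot, (hA a ha).rsub, (hA a ha).rcst, Tour_score h hp hq h0 hs hm hf η ha, z4]
      conv_lhs => enter [1]; rw [h4]
      simp
    · rw [← ev_quot, (hA a' ha').rsub, (hA a' ha').rcst, Tour_score h hp hq h0 hs hm hf η ha',
        sub_ne_zero]
      rwa [h4, Int.cast_natCast] at hne
  · refine ⟨_, List.mem_flatMap.2 ⟨_, hc, List.mem_cons_of_mem _ List.mem_cons_self⟩,
      a, ha, a', ha', ?_, ?_⟩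
    · rw [← ev_quot, (hA a ha).radd, (hA a ha).rcst, Tour_score h hp hq h0 hs hm hf η ha, z4]
      conv_lhs => enter [1]; rw [h4]
      simp
    · rw [← ev_quot, (hA a' ha').radd, (hA a' ha').rcst, Tour_score h hp hq h0 hs hm hf η ha',
        Ne, add_eq_zero_iff_eq_neg]
      rwa [h4, Int.cast_neg, Int.cast_natCast] at hne

end Vale.Agent.P319
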