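import Vale.Agent.P319.G2a
import Vale.Agent.P319.Tour
import Vale.Agent.P319.Mom
import Vale.Agent.P319.CodeTC

/-! G5: the trace from `R[T] / f` to `R`.  `trA a = ∑_α a(α)` is the coefficient `n - 1` of
`a * f' mod f` (`Lagrange.coeff_eq_sum`).  For a vector `γ` over `lift c` the power sums
`p_k = ∑_α γ_α ^ k` are computed entrywise by `trA` from `fmul` powers (`k ≤ n`, level `k M < N`);
Newton's identities (`MvPolynomial.mul_esymm_eq_sum`, `k` invertible as `n < p`) give the norm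
`∏_α γ_α`.  `gtr`: `sat (n M)` of the norms of `mom t W`, `t < n * l N + 1`; base point free by
`exists_moment` applied to the index set of roots (product space or directly count bad `t`). -/

namespace Vale.Agent.P319
open Vale.Agent.Common.TreeTM Vale.Agent.P337 Finsupp

open Classical in
theorem exists_trA : ∃ F : Cx × El → El, TC 0 F ∧ (∀ c a, Nm (cR c) (F (c, a))) ∧
    ∀ {K L Pt : Type} [Field K] [Field L] [Algebra K L] (Y : Model K L Pt) (m : ℕ) (c : Cx)
      (b : ℕ → K), Sem Y m c b → ∀ a : El,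
      ev (cR c) b (F (c, a)) = ∑ α ∈ Y.f.roots.toFinset, evA c b α a := by
  refine ⟨fun a => radd (cR a.1) ((slc (cR a.1) (cmd a.1) (rmul (cA a.1) a.2
    (atT (cR a.1) (cmd a.1) (Tour_der (cR a.1) (cmd a.1))))).getD ((cmd a.1).length - 1) []) [],
    by unfold Tour_der; fun_prop, fun _ _ => nm_radd _ _ _, ?_⟩
  intro K L Pt _ _ _ Y m c b h a
  have := Y.closed
  have hf : Y.f = ∏ α ∈ Y.f.roots.toFinset, (Polynomial.X - Polynomial.C α) := by
    rw [Finset.prod_eq_multiset_prod, Multiset.toFinset_val,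
      (Polynomial.nodup_roots Y.separable).dedup]
    exact (IsAlgClosed.splits Y.f).eq_prod_roots_of_monic Y.monic
  rw [h.hom.radd, ev_nil, add_zero, ← coeff_pol, h.n_eq, ← Model.card_roots,
    Lagrange.coeff_eq_sum (v := _root_.id) (Set.injOn_id _) (by
      have := A3_degree_pol (cR c) b (slc (cR c) (cmd c) (rmul (cA c) a
        (atT (cR c) (cmd c) (Tour_der (cR c) (cmd c)))))
      rwa [length_slc, h.n_eq, ← Model.card_roots] at this)]
  refine Finset.sum_congr rfl fun α hα => ?_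
  have hα' := mem_roots_iff.1 hα
  have hd : (Polynomial.derivative Y.f).eval α = ∏ j ∈ Y.f.roots.toFinset.erase α, (α - j) := by
    conv_lhs => rw [hf]
    exact (Lagrange.eval_nodal_derivative_eval_node_eq (v := _root_.id) hα).trans
      Lagrange.eval_nodal
  have e := (h.homA hα').rmul a (atT (cR c) (cmd c) (Tour_der (cR c) (cmd c)))
  simp only [id_eq]
  rw [← ev_quot, ← cA, e, cA, h.hom.atT (h.f_eq ▸ hα'), Tour_pol_der h.hom, h.f_eq, hd,
    mul_div_cancel_right₀ _ (Finset.prod_ne_zero_iff.2 fun j hj =>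
      sub_ne_zero.2 (Finset.ne_of_mem_erase hj).symm)]
  rfl

theorem G5_bd {α : Type} [Enc α] {c : α → Cx} (hc : TC 0 c) :
    Bd 0 fun a => 8 * ((wd (c a)).length + 1) * sz (cR (c a)) ^ 2 :=
  (bd_Sh hc).mono fun a => by
    gcongr ?_ * _
    nlinarith

theorem G5_one {K L Pt : Type} [Field K] [Field L] [Algebra K L] (Y : Model K L Pt) :
    (1 : L) ∈ Y.LL 0 := fun _ => Or.inr (by simp [Model.ord_one])

theorem G5_prod {K L Pt ι : Type} [Field K] [Field L] [Algebra K L] (Y : Model K L Pt)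
    (S : Finset ι) (g : ι → L) (D : ι → Pt →₀ ℤ) (h : ∀ i ∈ S, g i ∈ Y.LL (D i)) :
    ∏ i ∈ S, g i ∈ Y.LL (∑ i ∈ S, D i) := by
  classical
  induction S using Finset.induction_on with
  | empty => simpa using G5_one Y
  | insert a S ha ih =>
    rw [Finset.prod_insert ha, Finset.sum_insert ha]
    exact Model.mul_mem_LL (h a (by simp)) (ih fun i hi => h i (by simp [hi]))

theorem G5_lt {K L Pt : Type} [Field K] [Field L] [Algebra K L] {Y : Model K L Pt} {m : ℕ}
    {c : Cx} {b : ℕ → K} (h : Sem Y m c b) {k : ℕ} (hk : k ≤ Y.n) :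
    k * (Y.n + 1) ^ 6 < (cN c).length := by
  refine lt_of_lt_of_le ?_ h.N_ge
  calc k * (Y.n + 1) ^ 6 < (Y.n + 1) * (Y.n + 1) ^ 6 := by gcongr; omega
    _ = (Y.n + 1) ^ 7 := by ring
    _ ≤ _ := Nat.pow_le_pow_right (by omega) (by norm_num)

theorem G5_pow : ∃ F : Cx × List El × List El → List El, TC 0 F ∧
    ∀ {K L Pt : Type} [Field K] [Field L] [Algebra K L] (Y : Model K L Pt) (m : ℕ) (c : Cx)
      (b : ℕ → K), Sem Y m c b → ∀ u k : List El, k.length ≤ Y.n →
      fv Y c b u ∈ Y.LL ((((Y.n + 1) ^ 6 : ℕ) : ℤ) • Y.H) →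
      fv Y c b (F (c, u, k)) = fv Y c b u ^ k.length := by
  obtain ⟨fm, tfm, sfm, hfm⟩ := exists_fmul
  obtain ⟨mo, tmo, smo, hmo⟩ := exists_mono
  refine ⟨fun a => a.2.2.foldl (fun v _ => fm (a.1, v, a.2.1)) (mo (a.1, 0, 0)),
    TC.foldl_inv (f := fun (a : Cx × List El × List El) v _ => fm (a.1, v, a.2.1)) (by fun_prop)
      (by fun_prop) (by fun_prop) (G5_bd (c := fun a : Cx × List El × List El => a.1)
        (by fun_prop)) (fun a _ v => ShV a.1 v) (fun _ => smo _ _ _)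
      (fun _ _ _ _ _ _ => sfm _ _ _) fun _ _ _ _ h => NmV.sz_le h, ?_⟩
  intro K L Pt _ _ _ Y m c b h u k hk hu
  refine foldl_inv_len (fun j v => fv Y c b v = fv Y c b u ^ j) _ k _ ?_ fun j v _ hj hv => ?_
  · rw [hmo Y m c b h 0 (by simpa using G5_lt h (Nat.zero_le _)) 0 Y.prime.pos]
    simp
  · rw [hfm Y m c b h v u (j * (Y.n + 1) ^ 6) _ (by
      have := G5_lt h (show j + 1 ≤ Y.n by omega)
      rwa [Nat.succ_mul] at this) ?_ hu, hv, pow_succ]
    have := G5_prod Y (Finset.range j) _ _ fun _ _ => hu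
    rw [Finset.prod_const, Finset.sum_const, Finset.card_range, ← natCast_zsmul, smul_smul] at this
    rw [hv]
    exact_mod_cast this

open Classical in
theorem G5_psum : ∃ F : Cx × List El × ℕ → List El, TC 0 F ∧
    ∀ {K L Pt : Type} [Field K] [Field L] [Algebra K L] (Y : Model K L Pt) (m : ℕ) (c : Cx)
      (b : ℕ → K), Sem Y m c b → ∀ (u : List El) (k : ℕ), k ≤ Y.n → (∀ α, Y.f.IsRoot α →
        fv Y (lift c) (bq (cmd c) b α) u ∈ Y.LL ((((Y.n + 1) ^ 6 : ℕ) : ℤ) • Y.H)) →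
      fv Y c b (F (c, u, k)) =
        ∑ α ∈ Y.f.roots.toFinset, fv Y (lift c) (bq (cmd c) b α) u ^ k := by
  obtain ⟨pw, tpw, hpw⟩ := G5_pow
  obtain ⟨tr, ttr, -, htr⟩ := exists_trA
  refine ⟨fun a => (idx (wd a.1)).map fun j =>
    tr (a.1, (pw (lift a.1, a.2.1, (cmd a.1).take a.2.2)).getD j []), by fun_prop, ?_⟩
  intro K L Pt _ _ _ Y m c b h u k hk hu
  have e : ((cmd c).take k).length = k := by rw [List.length_take, h.n_eq]; omega
  rw [Finset.sum_congr rfl fun α hα => by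
    rw [← e, ← hpw Y m _ _ (h.lift (mem_roots_iff.1 hα)) u _ (e.le.trans hk)
      (hu α (mem_roots_iff.1 hα))]]
  simp only [fv]
  rw [show (cN (lift c)).length = (cN c).length from rfl, ← map_sum]
  refine F1a_congr fun j hj => ?_
  rw [vec, R1_getD_idx, if_pos (h.wd_eq ▸ hj), htr Y m c b h, Finset.sum_apply]
  rfl

open Classical in
theorem exists_fnorm : ∃ F : Cx × List El → List El, TC 0 F ∧ (∀ c u, ShV c (F (c, u))) ∧
    ∀ {K L Pt : Type} [Field K] [Field L] [Algebra K L] (Y : Model K L Pt) (m : ℕ) (c : Cx)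
      (b : ℕ → K), Sem Y m c b → ∀ u : List El,
      (∀ α, Y.f.IsRoot α →
        fv Y (lift c) (bq (cmd c) b α) u ∈ Y.LL ((((Y.n + 1) ^ 6 : ℕ) : ℤ) • Y.H)) →
      fv Y c b (F (c, u)) = ∏ α ∈ Y.f.roots.toFinset, fv Y (lift c) (bq (cmd c) b α) u := by
  obtain ⟨ps, tps, hps⟩ := G5_psum
  obtain ⟨fm, tfm, sfm, hfm⟩ := exists_fmul
  obtain ⟨mo, tmo, smo, hmo⟩ := exists_mono
  obtain ⟨st, hst⟩ : ∃ st : Cx × List El → Mx → List El, st = fun a es => vsmul (cR a.1) (wd a.1)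
    (rmul (cR a.1) (rinv (cR a.1) (cq a.1) (rcst (cR a.1) es.length))
      (rpow (cR a.1) (rneg (cR a.1) (rone (cR a.1))) (es.length + 1)))
    (vsum (cR a.1) (wd a.1) ((idx es).map fun i => vsmul (cR a.1) (wd a.1)
      (rpow (cR a.1) (rneg (cR a.1) (rone (cR a.1))) i)
      (fm (a.1, es.getD i [], ps (a.1, a.2, es.length - i))))) := ⟨_, rfl⟩
  have t1 : TC 0 fun a : Cx × List El =>
      (cmd a.1).foldl (fun es _ => es ++ [st a es]) [mo (a.1, 0, 0)] := by
    have b1 : TC 0 fun a : Cx × List El => (0 : ℕ) :: idx (cmd a.1) := by fun_prop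
    refine TC.foldl_inv (f := fun (a : Cx × List El) es _ => es ++ [st a es])
      (by rw [hst]; fun_prop) (by fun_prop) (by fun_prop)
      (A1_bd (R := fun a => cR a.1) (w := fun a => wd a.1) (by fun_prop) b1 (by fun_prop))
      (fun a k es => NmL (cR a.1) (k + 1) (wd a.1).length es)
      (fun a => ⟨rfl, fun v hv => ?_⟩) (fun a k es _ _ h => ⟨by simp [h.1], fun v hv => ?_⟩)
      fun a k es hk h => h.sz_le.trans ?_
    · rw [List.mem_singleton.1 hv]
      exact smo _ _ _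
    · rcases List.mem_append.1 hv with hv | hv
      · exact h.2 v hv
      · rw [List.mem_singleton.1 hv, hst]
        exact nmV_vsmul _ _ _ _
    · rw [List.length_cons, A1_len_idx]
      gcongr
  refine ⟨fun a => vsmul (cR a.1) (wd a.1) (rone (cR a.1))
    (((cmd a.1).foldl (fun es _ => es ++ [st a es]) [mo (a.1, 0, 0)]).getD (cmd a.1).length []),
    by fun_prop, fun _ _ => nmV_vsmul _ _ _ _, ?_⟩
  intro K L Pt _ _ _ Y m c b h u hu
  set S := Y.f.roots.toFinset with hS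
  set γ : S → L := fun α => fv Y (lift c) (bq (cmd c) b α) u with hγ
  set E : ℕ → L := fun k => MvPolynomial.aeval γ (MvPolynomial.esymm S K k) with hE
  have hγ1 : ∀ α, γ α ∈ Y.LL ((((Y.n + 1) ^ 6 : ℕ) : ℤ) • Y.H) := fun α =>
    hu α (mem_roots_iff.1 α.2)
  have hE1 : ∀ k, E k = ∑ t ∈ Finset.powersetCard k Finset.univ, ∏ i ∈ t, γ i := by
    intro k
    simp [hE, MvPolynomial.esymm]
  have hE2 : ∀ k, E k ∈ Y.LL (((k * (Y.n + 1) ^ 6 : ℕ) : ℤ) • Y.H) := by
    intro k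
    rw [hE1]
    refine sum_mem fun t ht => ?_
    have := G5_prod Y t _ _ fun i _ => hγ1 i
    rw [Finset.sum_const, (Finset.mem_powersetCard.1 ht).2, ← natCast_zsmul, smul_smul] at this
    exact_mod_cast this
  have hp1 : ∀ k ≤ Y.n, fv Y c b (ps (c, u, k)) = ∑ i, γ i ^ k := by
    intro k hk
    rw [hps Y m c b h u k hk hu, ← Finset.sum_coe_sort]
  have hp2 : ∀ k : ℕ, ∑ i, γ i ^ k ∈ Y.LL (((k * (Y.n + 1) ^ 6 : ℕ) : ℤ) • Y.H) := by
    intro k
    refine sum_mem fun i _ => ?_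
    have := G5_prod Y (Finset.range k) _ _ fun _ _ => hγ1 i
    rw [Finset.prod_const, Finset.sum_const, Finset.card_range, ← natCast_zsmul, smul_smul] at this
    exact_mod_cast this
  have key := foldl_inv_len (fun k (es : Mx) => es.length = k + 1 ∧
    ∀ i ≤ k, fv Y c b (es.getD i []) = E i) (fun es _ => es ++ [st (c, u) es]) (cmd c)
    [mo (c, 0, 0)] ⟨rfl, fun i hi => by
      rw [Nat.le_zero.1 hi, List.getD_cons_zero,
        hmo Y m c b h 0 (by simpa using G5_lt h (Nat.zero_le _)) 0 Y.prime.pos]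
      simp [hE]⟩ fun k es _ hk hes => ⟨by simp [hes.1], fun i hi => ?_⟩
  · rw [h.fv_vsmul, h.hom.rone, one_smul, key.2 _ le_rfl, hE1, h.n_eq, ← Model.card_roots, ← hS,
      ← Fintype.card_coe, ← Finset.card_univ, Finset.powersetCard_self, Finset.sum_singleton]
    exact Finset.prod_coe_sort S fun α => fv Y (lift c) (bq (cmd c) b α) u
  rcases hi.lt_or_eq with hi | rfl
  · rw [List.getD_append _ _ _ _ (by omega)]
    exact hes.2 i (by omega)
  rw [h.n_eq] at hk
  have hN := congrArg (MvPolynomial.aeval γ) (MvPolynomial.mul_esymm_eq_sum S K (k + 1))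
  rw [Finset.sum_filter, Finset.Nat.sum_antidiagonal_eq_sum_range_succ_mk,
    Finset.sum_range_succ, if_neg (lt_irrefl _), add_zero,
    Finset.sum_congr rfl fun i hi => if_pos (Finset.mem_range.1 hi)] at hN
  simp only [map_mul, map_sum, map_pow, map_neg, map_one, map_natCast, MvPolynomial.psum,
    MvPolynomial.aeval_X] at hN
  have hc := h.charP
  have hk0 : ((k + 1 : ℕ) : K) ≠ 0 := fun e => by
    have h1 := Nat.le_of_dvd (by omega) ((CharP.cast_eq_zero_iff K _ _).1 e)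
    have h2 := h.p_gt
    have h3 := G5_lt h (Nat.zero_le _)
    have h4 : 0 < Y.l * (cN c).length := Nat.mul_pos Y.prime.pos (by omega)
    nlinarith
  rw [List.getD_append_right _ _ _ _ hes.1.le, hes.1, Nat.sub_self, List.getD_cons_zero, hst]
  dsimp only
  rw [h.fv_vsmul, h.fv_vsum, List.map_map, idx, R1_sum_range, hes.1, h.hom.rmul, h.hom.rinv,
    h.hom.rcst, h.hom.rpow, h.hom.rneg, h.hom.rone, Finset.sum_congr rfl
      (g := fun i => (-1) ^ i * E i * ∑ j, γ j ^ (k + 1 - i)) fun i hi => ?_, mul_smul,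
    inv_smul_eq_iff₀ hk0]
  · simp only [Algebra.smul_def, map_pow, map_neg, map_one, map_natCast]
    exact hN.symm
  · have hi' := Finset.mem_range.1 hi
    rw [Function.comp, h.fv_vsmul, h.hom.rpow, h.hom.rneg, h.hom.rone,
      hfm Y m c b h _ _ (i * (Y.n + 1) ^ 6) ((k + 1 - i) * (Y.n + 1) ^ 6)
        (by rw [← Nat.add_mul]; exact G5_lt h (by omega))
        (by rw [hes.2 i (by omega)]; exact hE2 i) (by rw [hp1 _ (by omega)]; exact hp2 _),
      hes.2 i (by omega), hp1 _ (by omega), Algebra.smul_def, map_pow, map_neg, map_one, mul_assoc]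

attribute [local irreducible] lvM in
open Classical in
theorem exists_gtr : ∃ F : Cx × Mx → Mx, TC 0 F ∧ (∀ c W, Sh c (F (c, W))) ∧
    ∀ {K L Pt : Type} [Field K] [Field L] [Algebra K L] (Y : Model K L Pt) (m : ℕ) (c : Cx)
      (b : ℕ → K), Sem Y m c b → ∀ (W : Mx) (E : K → Pt →₀ ℤ), Sh (lift c) W →
      (∀ α, Y.f.IsRoot α → Rep Y (lift c) (bq (cmd c) b α) W (E α) ∧ Small Y (E α)) →
      Rep Y c b (F (c, W)) (∑ α ∈ Y.f.roots.toFinset, E α) := by
  obtain ⟨fn, tfn, -, hfn⟩ := exists_fnorm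
  obtain ⟨mom, tmom, -, hmom⟩ := exists_mom
  obtain ⟨sat, tsat, ssat, hsat⟩ := exists_sat
  refine ⟨fun a => sat (a.1, (cmd a.1).length * lvM a.1,
    (momT a.1).map fun t => fn (a.1, mom (lift a.1, t, a.2))), by fun_prop,
    fun _ _ => ssat _ _ _, ?_⟩
  intro K L Pt _ _ _ Y m c b h W E hW hE
  have hm : ∀ t α, Y.f.IsRoot α → fv Y (lift c) (bq (cmd c) b α) (mom (lift c, t, W)) ∈
      Y.LL ((((Y.n + 1) ^ 6 : ℕ) : ℤ) • Y.H - E α) := fun t α hα => by
    rw [hmom Y m _ _ (h.lift hα), ← (hE α hα).1.2]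
    exact mom_mem W _
  have hf := fun t => hfn Y m c b h (mom (lift c, t, W)) fun α hα =>
    Model.LL_mono (sub_le_self _ (hE α hα).1.1) (hm t α hα)
  have hD : (((cmd c).length * lvM c : ℕ) : ℤ) • Y.H - ∑ α ∈ Y.f.roots.toFinset, E α =
      ∑ α ∈ Y.f.roots.toFinset, ((((Y.n + 1) ^ 6 : ℕ) : ℤ) • Y.H - E α) := by
    rw [Finset.sum_sub_distrib, Finset.sum_const, Model.card_roots, h.n_eq, h.lvM_eq,
      ← natCast_zsmul, smul_smul, Nat.cast_mul]
  refine hsat Y m c b h _ _ _ (by rw [h.n_eq, h.lvM_eq])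
    (Finset.sum_nonneg fun α hα => (hE α (mem_roots_iff.1 hα)).1.1) ?_
  rw [hD]
  refine ⟨Sp_le.2 fun v hv => ?_, fun Q => ?_⟩
  · obtain ⟨t, -, rfl⟩ := List.mem_map.1 hv
    rw [hf]
    exact G5_prod Y _ _ _ fun α hα => hm t α (mem_roots_iff.1 hα)
  have := h.charP
  obtain ⟨t, ht, h1⟩ := mom_exists (cR c).1 Y.f.roots.toFinset (lift c)
    (fun α => bq (cmd c) b α) W (fun α => (((Y.n + 1) ^ 6 : ℕ) : ℤ) • Y.H - E α) (fun _ => Q)
    (fun α hα => (hE α (mem_roots_iff.1 hα)).1.bpf (hE α (mem_roots_iff.1 hα)).2)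
    (T := (cmd c).length * (wd c).length + 1)
    (by rw [Model.card_roots, h.n_eq, hW.1]; exact Nat.lt_succ_self _)
    (by rw [h.n_eq, h.wd_eq]; exact h.p_gt)
  have h2 : ∀ α ∈ Y.f.roots.toFinset, fv Y (lift c) (bq (cmd c) b α) (mom (lift c, t, W)) ≠ 0 ∧
      Y.ord Q (fv Y (lift c) (bq (cmd c) b α) (mom (lift c, t, W))) =
        -((((Y.n + 1) ^ 6 : ℕ) : ℤ) • Y.H - E α) Q := fun α hα => by
    rw [hmom Y m _ _ (h.lift (mem_roots_iff.1 hα))]
    exact h1 α hα
  refine ⟨_, fv_mem_Sp (List.mem_map.2 ⟨t, mem_momT.2 ht, rfl⟩), ?_, ?_⟩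
  · rw [hf]
    exact Finset.prod_ne_zero_iff.2 fun α hα => (h2 α hα).1
  · rw [hf, Model.ord_prod _ _ fun α hα => (h2 α hα).1, Finsupp.finsetSum_apply,
      ← Finset.sum_neg_distrib]
    exact Finset.sum_congr rfl fun α hα => (h2 α hα).2

end Vale.Agent.P319
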