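import Vale.Agent.P319.T2c

/-! T4: norms, invariant divisors, Hilbert 90. -/

namespace Vale.Agent.P319
open Polynomial Finsupp
namespace Model
variable {K L Pt : Type} [Field K] [Field L] [Algebra K L] {Y : Model K L Pt}
  {D Z : Pt →₀ ℤ} {u : L}

theorem t4_s_pow_ram {Q : Pt} (h : Y.py Q = 0) (j : ℕ) : (Y.s ^ j) Q = Q :=
  Equiv.Perm.pow_apply_eq_self_of_apply_eq_self (s_ram h) j

theorem t4_uE_apply (j : ℕ) (D : Pt →₀ ℤ) (R : Pt) :
    Y.uE j D R = ∑ i ∈ Finset.range j, D ((Y.s ^ i)⁻¹ R) := by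
  rw [uE, LinearMap.sum_apply, Finsupp.finsetSum_apply]
  refine Finset.sum_congr rfl fun i _ => ?_
  rw [← sE_pow_apply (Y := Y) i D ((Y.s ^ i)⁻¹ R)]
  simp

theorem t4_sE_pow_single (j : ℕ) (Q : Pt) (k : ℤ) :
    (Y.sE ^ j) (single Q k) = single ((Y.s ^ j) Q) k := by
  induction j with
  | zero => simp
  | succ j ih => rw [pow_succ', pow_succ', Module.End.mul_apply, ih, sE_single, Equiv.Perm.mul_apply]

theorem t4_dv_one : Y.dv (1 : L) = 0 := by simpa using dv_c (Y := Y) 1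

theorem t4_root : ∃ α, Y.f.IsRoot α := by
  have := Y.closed
  refine IsAlgClosed.exists_root Y.f (degree_ne_of_natDegree_ne ?_)
  rw [Y.natDegree]
  exact (Nat.mul_pos Y.prime.pos Y.n1_pos).ne'

theorem t4_lam_apply (D : Pt →₀ ℤ) : Y.lam D = D - Y.sE D := rfl

theorem t4_uE_lam (D : Pt →₀ ℤ) : Y.uE Y.l (Y.lam D) = 0 := by
  rw [← Module.End.mul_apply, uE_mul_lam, sE_pow_l, sub_self, LinearMap.zero_apply]

theorem t4_sE_dv (u : L) : Y.sE (Y.dv u) = Y.dv (Y.σ u) := by simpa using sE_pow_dv (Y := Y) 1 u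

theorem t4_norm_pt (Q : Pt) : ∃ a, a ≠ 0 ∧ Y.dv a = Y.uE Y.l (single Q 1) - Y.H := by
  by_cases h0 : Y.py Q = 0
  · obtain ⟨α, hα, rfl⟩ := eq_P h0
    refine ⟨_, Y.x_sub_ne α, eq_sub_of_add_eq ?_⟩
    rw [fib_ram hα, uE, LinearMap.sum_apply]
    simp [t4_sE_pow_single, t4_s_pow_ram h0]
  · cases h : Y.px Q with
    | none => exact ⟨1, one_ne_zero, by rw [← fib_inf h, sub_self, t4_dv_one]⟩
    | some a => exact ⟨_, Y.x_sub_ne a, eq_sub_of_add_eq (fib_unram h h0)⟩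

theorem norm_dv (D : Pt →₀ ℤ) : ∃ a, a ≠ 0 ∧ Y.dv a = Y.uE Y.l D - degree D • Y.H := by
  induction D using Finsupp.induction_linear with
  | zero => exact ⟨1, one_ne_zero, by simp [t4_dv_one]⟩
  | add D D' h h' =>
    obtain ⟨a, ha, h⟩ := h
    obtain ⟨b, hb, h'⟩ := h'
    refine ⟨a * b, mul_ne_zero ha hb, ?_⟩
    rw [dv_mul ha hb, h, h', map_add, map_add, add_smul]
    abel
  | single Q k =>
    obtain ⟨a, ha, h⟩ := t4_norm_pt (Y := Y) Q
    refine ⟨a ^ k, zpow_ne_zero _ ha, ?_⟩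
    have e : Y.dv (a ^ k) = k • Y.dv a := by
      ext R
      rw [Finsupp.smul_apply, dv_apply, dv_apply, ord_zpow, smul_eq_mul]
    have e' : (single Q k : Pt →₀ ℤ) = k • single Q 1 := by simp
    rw [e, h, degree_single, e', map_smul, smul_sub]

theorem norm_mem_Prin (D : Pt →₀ ℤ) : Y.uE Y.l D ∈ Y.Prin := by
  obtain ⟨a, ha, h⟩ := norm_dv (Y := Y) D
  exact mem_Prin.2 ⟨a, ha, degree D, by rw [h, sub_add_cancel]⟩

theorem t4_degree (u : L) (m : ℤ) (Z : Pt →₀ ℤ) :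
    degree (Y.dv u + (m • Y.H - Y.uE Y.l Z)) = Y.l * (m - degree Z) := by
  rw [map_add, map_sub, map_zsmul, degree_dv, degree_H, degree_uE, smul_eq_mul]
  ring

theorem norm_LL (m : ℤ) : (∃ u, u ≠ 0 ∧ u ∈ Y.LL (m • Y.H - Y.uE Y.l Z)) ↔ degree Z ≤ m := by
  constructor
  · rintro ⟨u, hu, h⟩
    have h1 := degree_nonneg ((mem_LL_iff hu).1 h)
    rw [t4_degree] at h1
    have hl : (0 : ℤ) < Y.l := by exact_mod_cast Y.prime.pos
    exact sub_nonneg.1 (nonneg_of_mul_nonneg_right h1 hl)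
  · intro h
    obtain ⟨a, ha, h1⟩ := norm_dv (Y := Y) Z
    refine ⟨a, ha, (mem_LL_iff ha).2 ?_⟩
    have e : Y.dv a + (m • Y.H - Y.uE Y.l Z) = (m - degree Z) • Y.H := by
      rw [h1, sub_smul]
      abel
    rw [e]
    exact smul_nonneg (sub_nonneg.2 h) H_nonneg

theorem norm_sec (hu : u ≠ 0) (h : u ∈ Y.LL (degree Z • Y.H - Y.uE Y.l Z)) :
    Y.dv u = Y.uE Y.l Z - degree Z • Y.H := by
  have h1 := eq_zero_of_degree ((mem_LL_iff hu).1 h) (by rw [t4_degree]; simp)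
  rw [eq_neg_of_add_eq_zero_left h1, neg_sub]

theorem fixed_of_dv (hu : u ≠ 0) (h : Y.sE (Y.dv u) = Y.dv u) (h0 : Y.Avoid (Y.dv u)) :
    Y.σ u = u := by
  have hσ : Y.σ u ≠ 0 := by simpa using hu
  obtain ⟨c, hc⟩ := const_of_dv (Y := Y) (u := Y.σ u / u) (by
    rw [dv_div hσ hu, ← t4_sE_dv, h, sub_self])
  obtain ⟨α, hα⟩ := t4_root (Y := Y)
  have h1 := val_σ_div (py_P hα) hu
  rw [← dv_apply, h0 _ (py_P hα), zpow_zero, hc] at h1
  rw [← h1.unique val_c, map_one] at hc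
  exact (div_eq_one_iff_eq hu).1 hc

theorem t4_rep : ∃ ρ : Pt → Pt, (∀ Q, Y.px (ρ Q) = Y.px Q) ∧
    ∀ Q Q', Y.px Q = Y.px Q' → ρ Q = ρ Q' := by
  have : Nonempty Pt := ⟨Y.inf⟩
  refine ⟨fun Q => Function.invFun Y.px (Y.px Q), fun Q => ?_, fun Q Q' h => congrArg (Function.invFun Y.px) h⟩
  exact Function.invFun_eq ⟨Q, rfl⟩

theorem t4_px_inv (i : ℕ) (R : Pt) : Y.px ((Y.s ^ i)⁻¹ R) = Y.px R := by
  rw [← px_s_pow (Q := (Y.s ^ i)⁻¹ R) i]
  simp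

theorem inv_mem_Prin (h : Y.sE D = D) (h0 : Y.Avoid D) : D ∈ Y.Prin := by
  classical
  obtain ⟨ρ, h1, h2⟩ := t4_rep (Y := Y)
  have hD : ∀ j Q, D ((Y.s ^ j) Q) = D Q := fun j Q => by
    rw [← sE_pow_apply (Y := Y) j D Q, Module.End.pow_apply, Function.iterate_fixed h]
  have e : D = Y.uE Y.l (D.filter fun Q => ρ Q = Q) := by
    ext R
    rw [t4_uE_apply]
    by_cases hR : Y.py R = 0
    · rw [h0 R hR]
      refine (Finset.sum_eq_zero fun i _ => ?_).symm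
      have : (Y.s ^ i)⁻¹ R = R := Equiv.Perm.inv_eq_iff_eq.2 (t4_s_pow_ram hR i).symm
      rw [this, Finsupp.filter_apply, h0 R hR, ite_self]
    · obtain ⟨j, hj, hj'⟩ := fibre (h1 R)
      have e1 : (Y.s ^ j)⁻¹ R = ρ R := Equiv.Perm.inv_eq_iff_eq.2 hj'
      have hρ : Y.py (ρ R) ≠ 0 := fun h3 => hR (by rw [hj', py_s_pow, h3, mul_zero])
      rw [Finset.sum_eq_single j (fun i hi hij => ?_)
        (fun h3 => absurd (Finset.mem_range.2 hj) h3), e1,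
        Finsupp.filter_apply, if_pos (h2 _ _ (h1 R)), ← hD j (ρ R), ← hj']
      refine Finsupp.filter_apply_neg _ _ fun h3 => hij ?_
      rw [h2 _ _ (t4_px_inv i R)] at h3
      exact free hρ (Finset.mem_range.1 hi) hj
        ((Equiv.Perm.eq_inv_iff_eq.1 h3).trans hj')
  rw [e]
  exact norm_mem_Prin _

theorem t4_avoid_add (h : Y.Avoid D) (h' : Y.Avoid Z) : Y.Avoid (D + Z) := fun Q hQ => by
  rw [Finsupp.add_apply, h Q hQ, h' Q hQ, add_zero]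

theorem t4_avoid_sub (h : Y.Avoid D) (h' : Y.Avoid Z) : Y.Avoid (D - Z) := fun Q hQ => by
  rw [Finsupp.sub_apply, h Q hQ, h' Q hQ, sub_zero]

theorem norm_zero (h : Y.uE Y.l D = 0) : ∃ E, Y.Avoid E ∧ D = Y.lam E := by
  classical
  obtain ⟨ρ, h1, h2⟩ := t4_rep (Y := Y)
  have key : ∀ D : Pt →₀ ℤ, ∃ E, Y.Avoid E ∧ D = Y.lam E + mapDomain ρ D := by
    intro D
    induction D using Finsupp.induction_linear with
    | zero => exact ⟨0, fun _ _ => rfl, by simp⟩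
    | add D D' h h' =>
      obtain ⟨E, hE, h⟩ := h
      obtain ⟨E', hE', h'⟩ := h'
      refine ⟨E + E', t4_avoid_add hE hE', ?_⟩
      rw [map_add, mapDomain_add, add_add_add_comm, ← h, ← h']
    | single Q k =>
      obtain ⟨j, -, hj⟩ := fibre (h1 Q).symm
      by_cases h0 : Y.py Q = 0
      · refine ⟨0, fun _ _ => rfl, ?_⟩
        rw [mapDomain_single, hj, t4_s_pow_ram h0, map_zero, zero_add]
      · refine ⟨Y.uE j (single Q k), Avoid.uE (fun R hR => ?_) j, ?_⟩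
        · exact Finsupp.single_eq_of_ne fun e => h0 (e ▸ hR)
        · rw [← Module.End.mul_apply, lam_mul_uE, LinearMap.sub_apply, t4_sE_pow_single,
            mapDomain_single, ← hj, Module.End.one_apply, sub_add_cancel]
  obtain ⟨E, hE, he⟩ := key D
  refine ⟨E, hE, ?_⟩
  have h3 : Y.uE Y.l (mapDomain ρ D) = 0 := by
    rw [he, map_add, t4_uE_lam, zero_add] at h
    exact h
  have h4 : ∀ R, ρ R ≠ R → mapDomain ρ D R = 0 := fun R hR =>
    mapDomain_of_notMem_range _ _ fun ⟨Q, hQ⟩ => hR (by rw [← hQ]; exact h2 _ _ (h1 Q))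
  have h5 : mapDomain ρ D = 0 := by
    ext R
    by_contra hR
    have hρ : ρ R = R := by_contra fun h6 => hR (h4 R h6)
    have h6 := congrArg (fun Z : Pt →₀ ℤ => Z R * mapDomain ρ D R) h3
    simp only [t4_uE_apply, Finset.sum_mul, Finsupp.zero_apply, zero_mul] at h6
    have h7 := (Finset.sum_eq_zero_iff_of_nonneg fun i _ => ?_).1 h6 0
      (Finset.mem_range.2 Y.prime.pos)
    · simp only [pow_zero, inv_one, Equiv.Perm.one_apply, mul_self_eq_zero] at h7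
      exact hR h7
    · by_cases h8 : ρ ((Y.s ^ i)⁻¹ R) = (Y.s ^ i)⁻¹ R
      · rw [← h8, h2 _ _ (t4_px_inv i R), hρ]
        exact mul_self_nonneg _
      · rw [h4 _ h8, zero_mul]
  rwa [h5, add_zero] at he

theorem t4_h90 (h : Y.nj u Y.l = 1) (θ : L) :
    u * Y.σ (∑ j ∈ Finset.range Y.l, Y.nj u j * (Y.σ ^ j) θ) =
      ∑ j ∈ Finset.range Y.l, Y.nj u j * (Y.σ ^ j) θ := by
  have h1 := Finset.sum_range_succ' (fun j => Y.nj u j * (Y.σ ^ j) θ) Y.l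
  have h0 : Y.nj u 0 = 1 := by simp [nj]
  rw [Finset.sum_range_succ, h, h0, Y.σ_pow_l, pow_zero, add_left_inj] at h1
  rw [map_sum, Finset.mul_sum, h1]
  refine Finset.sum_congr rfl fun j _ => ?_
  rw [nj_succ, map_mul, pow_succ', AlgEquiv.mul_apply, mul_assoc]

theorem hilbert90 (h : Y.nj u Y.l = 1) : ∃ w, w ≠ 0 ∧ u * Y.σ w = w := by
  by_contra hc
  have h1 : ∀ b : ℕ, ∑ j ∈ Finset.range Y.l, Y.nj u j * algebraMap K L ((Y.ζ ^ j) ^ b) = 0 := by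
    intro b
    have h2 : ∑ j ∈ Finset.range Y.l, Y.nj u j * (Y.σ ^ j) (Y.y ^ b) = 0 :=
      by_contra fun h3 => hc ⟨_, h3, t4_h90 h _⟩
    refine mul_right_cancel₀ (pow_ne_zero b Y.y_ne) ?_
    rw [zero_mul, ← h2, Finset.sum_mul]
    refine Finset.sum_congr rfl fun j _ => ?_
    rw [map_pow (Y.σ ^ j), Y.σ_pow_y, mul_pow, mul_assoc, ← map_pow]
  have h2 := Finset.sum_eq_zero (s := Finset.range Y.l) fun b _ => h1 b
  rw [Finset.sum_comm, Finset.sum_eq_single 0 (fun j hj h0 => ?_)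
    (fun h3 => absurd (Finset.mem_range.2 Y.prime.pos) h3)] at h2
  · apply Y.l_ne
    apply (algebraMap K L).injective
    simpa [nj] using h2
  · rw [← Finset.mul_sum, ← map_sum, (Y.prim.pow_of_coprime j ((Nat.coprime_of_lt_prime h0
      (Finset.mem_range.1 hj) Y.prime).symm)).geom_sum_eq_zero Y.prime.one_lt, map_zero, mul_zero]

theorem t4_nj_c (c : K) (u : L) (j : ℕ) :
    Y.nj (c • u) j = algebraMap K L (c ^ j) * Y.nj u j := by
  simp only [nj, Algebra.smul_def, map_mul, AlgEquiv.commutes, Finset.prod_mul_distrib,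
    Finset.prod_const, Finset.card_range, map_pow]

theorem t4_nj_const (hu : u ≠ 0) (h : Y.lam D = Y.dv u) :
    ∃ κ : K, κ ≠ 0 ∧ Y.nj u Y.l = algebraMap K L κ := by
  obtain ⟨κ, hκ⟩ := const_of_dv (Y := Y) (u := Y.nj u Y.l) (by rw [dv_nj hu, ← h, t4_uE_lam])
  exact ⟨κ, fun h0 => nj_ne hu Y.l (by rw [hκ, h0, map_zero]), hκ⟩

theorem t4_inv (hu : u ≠ 0) (h : Y.lam D = Y.dv u) {w : L} (hw : w ≠ 0) (e : u * Y.σ w = w) :
    Y.sE (D - Y.dv w) = D - Y.dv w := by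
  have h1 := congrArg Y.dv e
  rw [dv_mul hu (by simpa using hw), ← h, t4_lam_apply, ← t4_sE_dv] at h1
  rw [map_sub]
  conv_rhs => rw [← h1]
  abel

theorem t4_sE_ram (h : ∀ Q, Y.py Q ≠ 0 → D Q = 0) : Y.sE D = D := by
  ext R
  obtain ⟨Q, rfl⟩ := Y.s.surjective R
  have h1 := sE_pow_apply (Y := Y) 1 D Q
  rw [pow_one, pow_one] at h1
  rw [h1]
  by_cases h0 : Y.py Q = 0
  · rw [s_ram h0]
  · rw [h Q h0, h _ (by rw [Y.py_s]; exact mul_ne_zero (inv_ne_zero Y.ζ_ne) h0)]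

theorem t4_φE_ram (h : ∀ Q, Y.py Q ≠ 0 → D Q = 0) : Y.φE D = D := by
  ext R
  obtain ⟨Q, rfl⟩ := Y.φ.surjective R
  have h1 := φE_pow_apply (Y := Y) 1 D Q
  rw [pow_one, pow_one] at h1
  rw [h1]
  by_cases h0 : Y.py Q = 0
  · rw [φ_ram h0]
  · rw [h Q h0, h _ (by rw [Y.py_φ]; exact pow_ne_zero _ h0)]

/-- the kernel of `lam` on `G` is generated by the ramification points -/
theorem ker_lam (h : Y.lam D ∈ Y.Prin) :
    ∃ D', D - D' ∈ Y.Prin ∧ ∀ Q, Y.py Q ≠ 0 → D' Q = 0 := by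
  classical
  have := Y.closed
  obtain ⟨u, hu, he⟩ := exists_dv_of_Prin h (degree_lam D)
  obtain ⟨κ, hκ, h1⟩ := t4_nj_const hu he
  obtain ⟨e, rfl⟩ := IsAlgClosed.exists_pow_nat_eq κ Y.prime.pos
  have he0 : e⁻¹ ≠ 0 := inv_ne_zero fun h0 => hκ (by rw [h0, zero_pow Y.prime.ne_zero])
  obtain ⟨w, hw, h2⟩ := hilbert90 (Y := Y) (u := e⁻¹ • u) (by
    rw [t4_nj_c, h1, ← map_mul, inv_pow, inv_mul_cancel₀ hκ, map_one])
  have h3 := t4_inv (smul_ne_zero he0 hu) (he.trans (dv_smul he0).symm) hw h2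
  have h4 : ∀ Q, Y.py Q ≠ 0 → (D - Y.dv w).filter (fun Q => Y.py Q = 0) Q = 0 := fun Q hQ =>
    Finsupp.filter_apply_neg _ _ hQ
  refine ⟨_, ?_, h4⟩
  have h5 := inv_mem_Prin (Y := Y) (D := D - Y.dv w - (D - Y.dv w).filter fun Q => Y.py Q = 0)
    (by rw [map_sub, h3, t4_sE_ram h4]) fun Q hQ => by
      rw [Finsupp.sub_apply, Finsupp.filter_apply, if_pos hQ, sub_self]
  convert add_mem h5 (dv_mem_Prin w) using 1
  abel

theorem φE_sub_of_lam (h : Y.lam D ∈ Y.Prin) : Y.φE D - D ∈ Y.Prin := by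
  obtain ⟨D', h1, h2⟩ := ker_lam h
  have h3 := φE_pow_mem_Prin 1 h1
  rw [pow_one, map_sub, t4_φE_ram h2] at h3
  convert sub_mem h3 h1 using 1
  abel

theorem t4_val_nj {Q : Pt} (hQ : Y.py Q = 0) {c : K} (h : Y.Val Q u c) (j : ℕ) :
    Y.Val Q (Y.nj u j) (c ^ j) := by
  have h1 := Val.prod (Y := Y) (Q := Q) (S := Finset.range j) (g := fun i => (Y.σ ^ i) u)
    (a := fun _ => c) fun i _ => by
      have h2 := (val_σ_pow i).2 h
      rwa [t4_s_pow_ram hQ] at h2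
  rwa [Finset.prod_const, Finset.card_range] at h1

theorem decode_pow (hu : u ≠ 0) (h : Y.lam D = Y.dv u) :
    ∃ κ : K, κ ≠ 0 ∧ ∀ α, Y.f.IsRoot α → ∃ c, Y.Val (Y.P α) u c ∧ c ^ Y.l = κ := by
  obtain ⟨κ, hκ, h1⟩ := t4_nj_const hu h
  refine ⟨κ, hκ, fun α hα => ?_⟩
  obtain ⟨c, hc⟩ := Ge.exists_val (Y := Y) (Q := Y.P α) (u := u) (Or.inr (by
    rw [← dv_apply, ← h, avoid_lam D _ (py_P hα)]))
  have h2 := t4_val_nj (py_P hα) hc Y.l
  rw [h1] at h2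
  exact ⟨c, hc, h2.unique val_c⟩

theorem decode_const (hu : u ≠ 0) (h : Y.lam D = Y.dv u) (h0 : Y.Avoid D) {c : K}
    (hc : ∀ α, Y.f.IsRoot α → Y.Val (Y.P α) u c) : D ∈ Y.Prin := by
  obtain ⟨α, hα⟩ := t4_root (Y := Y)
  have hc0 : c⁻¹ ≠ 0 := inv_ne_zero ((hc α hα).ne_zero hu (by
    rw [← dv_apply, ← h, avoid_lam D _ (py_P hα)]))
  have hu' := smul_ne_zero hc0 hu
  have h' := h.trans (dv_smul hc0).symm
  have hv : ∀ α, Y.f.IsRoot α → Y.Val (Y.P α) (c⁻¹ • u) 1 := fun α hα => by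
    have := (hc α hα).smul c⁻¹
    rwa [inv_mul_cancel₀ (fun h0 => hc0 (by rw [h0, inv_zero]))] at this
  obtain ⟨κ, -, h1⟩ := t4_nj_const hu' h'
  have h2 := t4_val_nj (py_P hα) (hv α hα) Y.l
  rw [h1, one_pow] at h2
  rw [← h2.unique val_c, map_one] at h1
  have h3 := t4_h90 h1 1
  have h4 : ∀ α, Y.f.IsRoot α → Y.Val (Y.P α)
      (∑ j ∈ Finset.range Y.l, Y.nj (c⁻¹ • u) j * (Y.σ ^ j) 1) Y.l := fun α hα => by
    have := Val.sum (Y := Y) (Q := Y.P α) (S := Finset.range Y.l)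
      (g := fun j => Y.nj (c⁻¹ • u) j * (Y.σ ^ j) 1) (a := fun _ => 1) fun j _ => by
        simpa using t4_val_nj (py_P hα) (hv α hα) j
    simpa using this
  have h5 := inv_mem_Prin (t4_inv hu' h' ((h4 α hα).ord_eq Y.l_ne).1 h3)
    (t4_avoid_sub h0 fun Q hQ => by
      obtain ⟨β, hβ, rfl⟩ := eq_P hQ
      rw [dv_apply, ((h4 β hβ).ord_eq Y.l_ne).2])
  rw [← sub_add_cancel D (Y.dv _)]
  exact add_mem h5 (dv_mem_Prin _)

end Model
end Vale.Agent.P319
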