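import Vale.Agent.P319.G2a
import Vale.Agent.P319.Mom
import Vale.Agent.P319.A2
import Vale.Agent.P319.T4

/-! G6: decoding a nonzero element of the kernel of `lam`.  `lam Z = dv φ` (`exists_dv_of_Prin`).
`W' = gsig 1 W`.  For `t < n * l N + 1` let `s = mom t W'`,
`u = first (mcol M [(w, W.map (fmul s)) | w ∈ W'])`; for good `t` (`exists_moment`: `s` does not
vanish at any `P α`) the colon space is spanned by `φ * s`.  `ρ = atP u * rinv (atP s)` in `cA c`,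
`ρ ^ l` is a constant `κ` (`decode_pow`, `constA`), `r = root κ`; output all
`slc (ρ - emb (r * ζ ^ a))`, `a < l` (`ev_quot`).  `ρ` is not constant by `decode_const`. -/

namespace Vale.Agent.P319
open Vale.Agent.Common.TreeTM Vale.Agent.P337 Finsupp

theorem G6_map {K L Pt : Type} [Field K] [Field L] [Algebra K L] {Y : Model K L Pt} {c : Cx}
    {b : ℕ → K} {W : Mx} {g : List El → List El} {s : L} (hs : s ≠ 0)
    (h : ∀ r ∈ W, fv Y c b (g r) = s * fv Y c b r) {v : L} :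
    v ∈ Sp Y c b (W.map g) ↔ v / s ∈ Sp Y c b W := by
  constructor
  · intro hv
    rw [div_eq_mul_inv]
    refine (Sp_le (U := (Sp Y c b W).comap (LinearMap.mulRight K s⁻¹))).2 (fun r hr => ?_) hv
    obtain ⟨r, hr', rfl⟩ := List.mem_map.1 hr
    change fv Y c b (g r) * s⁻¹ ∈ Sp Y c b W
    rw [h r hr', mul_comm s, mul_inv_cancel_right₀ hs]
    exact fv_mem_Sp hr'
  · intro hv
    have := (Sp_le (U := (Sp Y c b (W.map g)).comap (LinearMap.mulLeft K s))).2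
      (fun r hr => by
        change s * fv Y c b r ∈ Sp Y c b (W.map g)
        rw [← h r hr]
        exact fv_mem_Sp (List.mem_map_of_mem hr)) hv
    rwa [Submodule.mem_comap, LinearMap.mulLeft_apply, mul_div_cancel₀ _ hs] at this

attribute [local irreducible] lvM in
theorem G6_rho : ∃ F : Cx × Mx × ℕ → El, TC 0 F ∧
    ∀ {K L Pt : Type} [Field K] [Field L] [Algebra K L] (Y : Model K L Pt) (m : ℕ) (c : Cx)
      (b : ℕ → K), Sem Y m c b → ∀ (W : Mx) (Z : Pt →₀ ℤ), Rep Y c b W Z → Small Y Z → Y.Avoid Z →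
      Y.lam Z ∈ Y.Prin → ∃ t ∈ momT c, ∃ φ, φ ≠ 0 ∧ Y.lam Z = Y.dv φ ∧
        ∀ α, Y.f.IsRoot α → Y.Val (Y.P α) φ (evA c b α (F (c, W, t))) := by
  obtain ⟨fm, tfm, -, hfm⟩ := exists_fmul
  obtain ⟨gs, tgs, sgs, hgs⟩ := exists_gsig
  obtain ⟨mom, tmom, -, hmom⟩ := exists_mom
  obtain ⟨mc, tmc, -, hmc⟩ := exists_mcol
  obtain ⟨fi, tfi, -, hfi⟩ := exists_first
  refine ⟨fun a => rmul (cA a.1) (atP a.1 (fi (a.1, mc (a.1, lvM a.1,
    (gs (a.1, 1, a.2.1)).map fun w => (w, a.2.1.map fun r =>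
      fm (a.1, mom (a.1, a.2.2, gs (a.1, 1, a.2.1)), r))))))
    (rinv (cA a.1) (cq a.1) (atP a.1 (mom (a.1, a.2.2, gs (a.1, 1, a.2.1))))), by fun_prop, ?_⟩
  intro K L Pt _ _ _ Y m c b h W Z hW hs hA hP
  obtain ⟨φ, hφ, hφ'⟩ := Model.exists_dv_of_Prin hP (Model.degree_lam Z)
  have hW' := hgs Y m c b h 1 W Z hW
  have hB := hW'.bpf (by unfold Small; rw [Model.degree_sE_pow]; exact hs)
  obtain ⟨t, ht, h1⟩ := h.mom_ram (sgs c 1 W).1 hB
  rw [← hmom Y m c b h] at h1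
  refine ⟨t, ht, ?_⟩
  dsimp only
  set s := mom (c, t, gs (c, 1, W)) with hsd
  have hsm : fv Y c b s ∈ Y.LL ((((Y.n + 1) ^ 6 : ℕ) : ℤ) • Y.H - (Y.sE ^ 1) Z) := by
    rw [hsd, hmom Y m c b h]
    exact hB.1 (mom_mem _ _)
  have := Y.closed
  obtain ⟨α₀, hα₀⟩ := IsAlgClosed.exists_root Y.f (by
    rw [Polynomial.degree_eq_natDegree Y.monic.ne_zero, Y.natDegree]
    exact_mod_cast (Nat.mul_pos Y.prime.pos Y.n1_pos).ne')
  have hs0 := (h1 α₀ hα₀).1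
  have hN : (Y.n + 1) ^ 6 + (Y.n + 1) ^ 6 < (cN c).length := by
    refine lt_of_lt_of_le ?_ h.N_ge
    have h2 : 2 ≤ Y.n := Y.two_le.trans Y.l_le_n
    calc _ < (Y.n + 1) * (Y.n + 1) ^ 6 := by
          have : 0 < (Y.n + 1) ^ 6 := by positivity
          nlinarith
      _ = (Y.n + 1) ^ 7 := by ring
      _ ≤ _ := Nat.pow_le_pow_right (by omega) (by norm_num)
  have key : ∀ u, u ∈ Sp Y c b (mc (c, lvM c, (gs (c, 1, W)).map fun w =>
      (w, W.map fun r => fm (c, s, r)))) ↔ u ∈ Y.LL ((((Y.n + 1) ^ 6 : ℕ) : ℤ) • Y.H) ∧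
        φ⁻¹ * (u / fv Y c b s) ∈ Y.LL 0 := by
    intro u
    rw [h.lvM_eq, hmc Y m c b h _ _ _ hN (fun t ht => by
      obtain ⟨w, hw, rfl⟩ := List.mem_map.1 ht
      exact Model.LL_mono (sub_le_self _ hW'.1) (hB.1 (fv_mem_Sp hw)))]
    refine and_congr_right' ?_
    have e : (0 : Pt →₀ ℤ) + Y.dv φ⁻¹ = ((((Y.n + 1) ^ 6 : ℕ) : ℤ) • Y.H - Z) -
        ((((Y.n + 1) ^ 6 : ℕ) : ℤ) • Y.H - (Y.sE ^ 1) Z) := by
      rw [Model.dv_inv, ← hφ', Model.lam, pow_one, LinearMap.sub_apply, Module.End.one_apply]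
      abel
    rw [Model.mul_mem_LL_iff (inv_ne_zero hφ), e, ← hB.mul_mem_iff, ← hW.2]
    have hm : ∀ v, v ∈ Sp Y c b (W.map fun r => fm (c, s, r)) ↔ v / fv Y c b s ∈ Sp Y c b W :=
      fun v => G6_map hs0 fun r hr => hfm Y m c b h s r _ _ hN
        (Model.LL_mono (sub_le_self _ hW'.1) hsm)
        (Model.LL_mono (sub_le_self _ hW.1) (hW.2 ▸ fv_mem_Sp hr))
    simp only [List.forall_mem_map, hm]
    constructor
    · intro h2 w hw
      refine (Sp_le (U := (Sp Y c b W).comap (LinearMap.mulLeft K (u / fv Y c b s)))).2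
        (fun r hr => ?_) hw
      change u / fv Y c b s * fv Y c b r ∈ Sp Y c b W
      rw [div_mul_eq_mul_div]
      exact h2 r hr
    · intro h2 w hw
      rw [← div_mul_eq_mul_div]
      exact h2 _ (fv_mem_Sp hw)
  have hone : (1 : L) ∈ Y.LL 0 := fun _ => Or.inr (by simp [Model.ord_one])
  obtain ⟨hu1, hu2⟩ := hfi Y m c b h _ fun e => by
    have h2 := (key (φ * fv Y c b s)).2 ⟨?_, by
      rwa [mul_div_cancel_right₀ _ hs0, inv_mul_cancel₀ hφ]⟩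
    · rw [e, Submodule.mem_bot] at h2
      exact mul_ne_zero hφ hs0 h2
    · rw [Model.mul_mem_LL_iff hφ, ← hφ']
      refine Model.LL_mono ?_ hsm
      rw [Model.lam, pow_one, LinearMap.sub_apply, Module.End.one_apply, add_sub]
      exact sub_le_sub_right (le_add_of_nonneg_right hW.1) _
  set u := fi (c, mc (c, lvM c, (gs (c, 1, W)).map fun w => (w, W.map fun r => fm (c, s, r))))
  have h0 : φ⁻¹ * (fv Y c b u / fv Y c b s) ≠ 0 :=
    mul_ne_zero (inv_ne_zero hφ) (div_ne_zero hu2 hs0)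
  obtain ⟨κ, hκ⟩ := Model.const_of_dv (Y := Y)
    (by simpa using (Model.mem_LL_iff h0).1 ((key _).1 hu1).2)
  refine ⟨fv Y c b u / fv Y c b s, div_ne_zero hu2 hs0, ?_, fun α hα => ?_⟩
  · have h2 := congrArg Y.dv hκ
    rw [Model.dv_c, Model.dv_mul (inv_ne_zero hφ) (div_ne_zero hu2 hs0), Model.dv_inv,
      neg_add_eq_zero] at h2
    rw [hφ', h2]
  · have h2 := (h.val_atP hα s).ne_zero hs0 (by
      rw [(h1 α hα).2, Finsupp.sub_apply, Finsupp.smul_apply, Model.H_ram (Model.py_P hα),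
        (hA.sE_pow 1) _ (Model.py_P hα)]
      simp)
    have h3 := (h.val_atP hα u).mul ((h.val_atP hα s).inv h2)
    rw [evA, (h.homA hα).rmul, (h.homA hα).rinv, div_eq_mul_inv]
    exact h3

theorem exists_decode : ∃ F : Cx × Mx → Mx, TC 0 F ∧
    ∀ {K L Pt : Type} [Field K] [Field L] [Algebra K L] (Y : Model K L Pt) (m : ℕ) (c : Cx)
      (b : ℕ → K), Sem Y m c b → ∀ (W : Mx) (Z : Pt →₀ ℤ), Rep Y c b W Z → Small Y Z → Y.Avoid Z →
      Y.lam Z ∈ Y.Prin → Z ∉ Y.Prin → ∃ g ∈ F (c, W), ∃ α α', Y.f.IsRoot α ∧ Y.f.IsRoot α' ∧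
        (pol (cR c) b g).eval α = 0 ∧ (pol (cR c) b g).eval α' ≠ 0 := by
  obtain ⟨ρ, tρ, hρ⟩ := G6_rho
  obtain ⟨rt, trt, -, hrt⟩ := exists_root
  refine ⟨fun a => (momT a.1).flatMap fun t => (idx (cL a.1)).map fun i =>
    slc (cR a.1) (cmd a.1) (rsub (cA a.1) (ρ (a.1, a.2, t)) (emb (cR a.1) (cmd a.1)
      (rmul (cR a.1) (rpow (cR a.1) (cz a.1) i) (rt (cR a.1, cq a.1, cL a.1, cη a.1,
        (slc (cR a.1) (cmd a.1) (rpow (cA a.1) (ρ (a.1, a.2, t)) (cL a.1).length)).getD 0 []))))),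
    by fun_prop, ?_⟩
  intro K L Pt _ _ _ Y m c b h W Z hW hs hA hP hZ
  obtain ⟨t, ht, φ, hφ, hφ', hv⟩ := hρ Y m c b h W Z hW hs hA hP
  obtain ⟨κ, hκ, h1⟩ := Model.decode_pow hφ hφ'
  have h2 : ∀ α, Y.f.IsRoot α → evA c b α (ρ (c, W, t)) ^ Y.l = κ := fun α hα => by
    obtain ⟨d, h2, h3⟩ := h1 α hα
    rw [(hv α hα).unique h2, h3]
  have h3 := h.constA (a := rpow (cA c) (ρ (c, W, t)) (cL c).length) fun α hα => by
    rw [evA, (h.homA hα).rpow, h.l_eq]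
    exact h2 α hα
  have := Y.closed
  obtain ⟨α, hα⟩ := IsAlgClosed.exists_root Y.f (by
    rw [Polynomial.degree_eq_natDegree Y.monic.ne_zero, Y.natDegree]
    exact_mod_cast (Nat.mul_pos Y.prime.pos Y.n1_pos).ne')
  have h4 := hrt (cR c) (cq c) b h.hom (cL c) (cη c) _ (h.l_eq ▸ Y.prime) (h.l_eq ▸ h.dvd) h.η_ne
    (h.l_eq ▸ h.η_non) (evA c b α (ρ (c, W, t))) ((h.homA hα).fix _)
    (by rw [h3, h.l_eq]; exact h2 α hα)
  rw [h3] at h4
  set r := rt (cR c, cq c, cL c, cη c,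
    (slc (cR c) (cmd c) (rpow (cA c) (ρ (c, W, t)) (cL c).length)).getD 0 []) with hr
  rw [h.l_eq] at h4
  have hr0 : ev (cR c) b r ≠ 0 := fun e => hκ (by rw [← h4, e, zero_pow Y.prime.ne_zero])
  have : NeZero Y.l := ⟨Y.prime.ne_zero⟩
  obtain ⟨i, hi, h5⟩ := Y.prim.eq_pow_of_pow_eq_one (ξ := evA c b α (ρ (c, W, t)) / ev (cR c) b r)
    (by rw [div_pow, h2 α hα, h4, div_self hκ])
  have h6 : ∃ α', Y.f.IsRoot α' ∧ evA c b α' (ρ (c, W, t)) ≠ evA c b α (ρ (c, W, t)) := by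
    by_contra hc
    push Not at hc
    exact hZ (Model.decode_const hφ hφ' hA fun α' hα' => hc α' hα' ▸ hv α' hα')
  obtain ⟨α', hα', h7⟩ := h6
  have h8 : ∀ a, Y.f.IsRoot a → (pol (cR c) b (slc (cR c) (cmd c) (rsub (cA c) (ρ (c, W, t))
      (emb (cR c) (cmd c) (rmul (cR c) (rpow (cR c) (cz c) i) r))))).eval a =
      evA c b a (ρ (c, W, t)) - evA c b α (ρ (c, W, t)) := fun a ha => by
    have e := h.evA_emb ha (rmul (cR c) (rpow (cR c) (cz c) i) r)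
    rw [h.hom.rmul, h.hom.rpow, h.ζ_eq, h5, div_mul_cancel₀ _ hr0] at e
    rw [← ev_quot, ← cA, (h.homA ha).rsub, ← e]
    rfl
  refine ⟨_, List.mem_flatMap.2 ⟨t, ht, List.mem_map.2 ⟨i, by
    rw [idx, List.mem_range, h.l_eq]; exact hi, rfl⟩⟩, α, α', hα, hα', ?_, ?_⟩
  · exact (h8 α hα).trans (sub_self _)
  · exact (h8 α' hα').trans_ne (sub_ne_zero.2 h7)

end Vale.Agent.P319
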