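import Vale.Agent.P319.G3
import Vale.Agent.P319.G4c
import Vale.Agent.P319.G5
import Vale.Agent.P319.G6
import Vale.Agent.P319.CodeTC

/-! CoreA: the division chain and the splitting algorithm on a model. -/

namespace Vale.Agent.P319
open Vale.Agent.Common.TreeTM Vale.Agent.P337 Finsupp

section
variable {K L Pt : Type} [Field K] [Field L] [Algebra K L] {Y : Model K L Pt}

theorem core_lam_P {α : K} (hα : Y.f.IsRoot α) (k : ℤ) : Y.lam (single (Y.P α) k) = 0 := by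
  simp [Model.lam, Model.sE_single, Model.s_ram (Model.py_P hα)]

theorem core_P_mem {α : K} (hα : Y.f.IsRoot α) {k : ℤ} (hk : (Y.l : ℤ) ∣ k) :
    single (Y.P α) k ∈ Y.Prin := by
  obtain ⟨j, rfl⟩ := hk
  have h : single (Y.P α) (Y.l : ℤ) ∈ Y.Prin := by
    rw [← Model.fib_ram hα]
    exact add_mem (Model.dv_mem_Prin _) Model.H_mem_Prin
  have := Y.Prin.smul_mem j h
  rwa [smul_single, smul_eq_mul, mul_comm] at this

theorem core_small (k : ℕ) (h : k ≤ Y.n) : k * (Y.l * (Y.n ^ 2 + 1)) ≤ (Y.n + 1) ^ 5 := by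
  have h1 := Y.l_le_n
  calc k * (Y.l * (Y.n ^ 2 + 1)) ≤ Y.n * (Y.n * (Y.n ^ 2 + 1)) := by gcongr
    _ ≤ (Y.n + 1) ^ 5 := by ring_nf; omega

theorem Std.small {c : Cx} {b : ℕ → K} {w : ℕ × Mx} {D : Pt →₀ ℤ} (h : Std Y c b w D) :
    ∃ Z, Rep Y c b w.2 Z ∧ Y.Avoid Z ∧ Small Y Z ∧ Z - D ∈ Y.Prin := by
  obtain ⟨Z, h1, h2, h3, h4, h5⟩ := h
  refine ⟨Z, h1, h2, ?_, h5⟩
  have h6 := core_small (Y := Y) 1 (le_trans (le_trans (by norm_num) Y.two_le) Y.l_le_n)
  unfold Small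
  rw [h3]
  exact_mod_cast (by omega : w.1 ≤ (Y.n + 1) ^ 5)
end

/-- the chain of divisions -/
theorem exists_chain : ∃ F : Cx × El × List ℕ → Mx, TC 0 F ∧ (∀ c τ v, Sh c (F (c, τ, v))) ∧
    ∀ {K L Pt : Type} [Field K] [Field L] [Algebra K L] (Y : Model K L Pt) (m : ℕ) (c : Cx)
      (b : ℕ → K), Sem Y m c b → ∀ (τ : El) (v : List ℕ) (s : ℕ), Y.f.IsRoot (ev (cR c) b τ) →
      v.length ≤ s * (Y.l - 1) → Y.l ^ s ∣ m → ∃ Z, Rep Y c b (F (c, τ, v)) Z ∧
        degree Z = ((Y.l * (Y.n ^ 2 + 1) : ℕ) : ℤ) ∧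
        (Y.lam ^ v.length) Z - (single Y.inf 1 - single (Y.P (ev (cR c) b τ)) 1) ∈ Y.Prin := by
  obtain ⟨fix, tfix, sfix, hfix⟩ := exists_fix
  obtain ⟨dv, tdv, -, hdv⟩ := exists_divl
  obtain ⟨ri, tri, -, hri⟩ := exists_repInf
  refine ⟨fun a => a.2.2.foldl (fun W _ => fix (a.1, a.2.1, dv (a.1, a.2.1, W)))
    (fix (a.1, a.2.1, ri a.1)), ?_, ?_, ?_⟩
  · exact tc_fold_Sh (c := fun a : Cx × El × List ℕ => a.1)
      (f := fun a W _ => fix (a.1, a.2.1, dv (a.1, a.2.1, W))) (by fun_prop) (by fun_prop)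
      (by fun_prop) (by fun_prop) (fun a => sfix _ _ _) fun a _ _ => sfix _ _ _
  · intro c τ v
    exact R1_fold (Sh c) _ (fun _ _ => sfix _ _ _) _ _ (sfix _ _ _)
  intro K L Pt _ _ _ Y m c b h τ v s hτ hv hm
  have key := foldl_inv_len (fun j W => ∃ Z, Rep Y c b W Z ∧ Y.Avoid Z ∧
      degree Z = ((Y.l * (Y.n ^ 2 + 1) : ℕ) : ℤ) ∧
      (Y.lam ^ j) Z - (single Y.inf 1 - single (Y.P (ev (cR c) b τ)) 1) ∈ Y.Prin)
    (fun W _ => fix (c, τ, dv (c, τ, W))) v (fix (c, τ, ri c)) ?_ ?_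
  · obtain ⟨Z, h1, -, h2, h3⟩ := key
    exact ⟨Z, h1, h2, h3⟩
  · have hn : 1 ≤ Y.n * (2 * Y.n + 1) := by
      have := Y.two_le
      have := Y.l_le_n
      nlinarith
    obtain ⟨k, hk, Z, h1, h2, h3, -, h5⟩ := hfix Y m c b h τ (ri c) _ hτ (hri Y m c b h)
      (by rw [degree_single]; exact_mod_cast hn)
    refine ⟨Z, h1, h2, h3, ?_⟩
    rw [degree_single] at hk
    have h6 := add_mem h5 (core_P_mem hτ hk)
    rw [single_add] at h6
    convert h6 using 1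
    simp only [pow_zero, Module.End.one_apply]
    abel
  · rintro j W - hj ⟨Z, h1, h2, h3, h4⟩
    have hstep : ∀ D, Y.lam D - Z ∈ Y.Prin → (Y.lam ^ (j + 1)) D -
        (single Y.inf 1 - single (Y.P (ev (cR c) b τ)) 1) ∈ Y.Prin := by
      intro D hD
      have h5 := add_mem (Model.lam_pow_mem_Prin j hD) h4
      rw [map_sub] at h5
      convert h5 using 1
      rw [pow_succ, Module.End.mul_apply]
      abel
    obtain ⟨Z1, g1, g2, g3⟩ := hdv Y m c b h τ W Z hτ h1 h2 h3 fun D hD => by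
      refine Model.level (j := j + 1) (s := s) (by omega) hm ?_
      have h5 := hstep D hD
      have h6 := Model.φE_pow_mem_Prin 1 h5
      rw [pow_one, map_sub, map_sub, Model.φE_single, Model.φE_single, Model.φ_inf,
        Model.φ_ram (Model.py_P hτ)] at h6
      convert sub_mem h6 h5 using 1
      abel
    obtain ⟨k, -, Z2, f1, f2, f3, -, f5⟩ := hfix Y m c b h τ _ _ hτ g1 g2
    refine ⟨Z2, f1, f2, f3, hstep _ ?_⟩
    have h6 := Model.lam_pow_mem_Prin 1 f5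
    rw [pow_one, map_sub, map_add, core_lam_P hτ, add_zero] at h6
    convert add_mem h6 g3 using 1
    abel

open Classical in
theorem exists_coreM : ∃ F : Cx × List ℕ × List ℕ → Mx, TC 0 F ∧
    ∀ {K L Pt : Type} [Field K] [Field L] [Algebra K L] (Y : Model K L Pt) (m : ℕ) (c : Cx)
      (b : ℕ → K), Sem Y m c b → ∀ iS i2 : List ℕ, Y.n = Y.l ^ iS.length * i2.length →
      ¬Y.l ∣ i2.length → Y.l ^ iS.length ∣ m →
      ∃ g ∈ F (c, iS, i2), ∃ α α', Y.f.IsRoot α ∧ Y.f.IsRoot α' ∧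
        (pol (cR c) b g).eval α = 0 ∧ (pol (cR c) b g).eval α' ≠ 0 := by
  obtain ⟨ch, tch, sch, hch⟩ := exists_chain
  obtain ⟨gtr, tgtr, -, hgtr⟩ := exists_gtr
  obtain ⟨cred, tcred, -, hcred⟩ := exists_cred
  obtain ⟨csub, tcsub, -, hcsub⟩ := exists_csub
  obtain ⟨clams, tclams, hclams⟩ := exists_clams
  obtain ⟨cxv, tcxv, hcxv⟩ := exists_cxv
  obtain ⟨dec, tdec, hdec⟩ := exists_decode
  refine ⟨fun a => (clams (a.1, a.2.1.flatMap fun _ => (cL a.1).tail, csub (a.1,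
    cred (a.1, (cmd a.1).length * ((cL a.1).length * ((cmd a.1).length * (cmd a.1).length + 1)),
      gtr (a.1, ch (lift a.1, gen (cR a.1) (cmd a.1), a.2.1.flatMap fun _ => (cL a.1).tail))),
    cxv a))).flatMap fun w => dec (a.1, w.2), by fun_prop, ?_⟩
  intro K L Pt _ _ _ Y m c b h iS i2 hn hnd hm
  beta_reduce
  set v : List ℕ := iS.flatMap fun _ => (cL c).tail with hv
  have hvl : v.length = iS.length * (Y.l - 1) := by
    simp [hv, List.length_flatMap, h.l_eq]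
  have hE : ∀ α, ∃ Z : Pt →₀ ℤ, Y.f.IsRoot α →
      Rep Y (lift c) (bq (cmd c) b α) (ch (lift c, gen (cR c) (cmd c), v)) Z ∧
      degree Z = ((Y.l * (Y.n ^ 2 + 1) : ℕ) : ℤ) ∧
      (Y.lam ^ v.length) Z - (single Y.inf 1 - single (Y.P α) 1) ∈ Y.Prin := by
    intro α
    by_cases hα : Y.f.IsRoot α
    · have e : ev (cR (lift c)) (bq (cmd c) b α) (gen (cR c) (cmd c)) = α := h.evA_gen hα
      obtain ⟨Z, h1⟩ := hch Y m _ _ (h.lift hα) (gen (cR c) (cmd c)) v iS.length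
        (by rw [e]; exact hα) hvl.le hm
      rw [e] at h1
      exact ⟨Z, fun _ => h1⟩
    · exact ⟨0, fun h' => absurd h' hα⟩
  choose E hE using hE
  have hroot : ∀ α ∈ Y.f.roots.toFinset, Y.f.IsRoot α := fun α hα =>
    (Polynomial.mem_roots Y.monic.ne_zero).1 (Multiset.mem_toFinset.1 hα)
  have hn1 : 1 ≤ Y.n := le_trans (le_trans (by norm_num) Y.two_le) Y.l_le_n
  have hT := hgtr Y m c b h _ E (sch _ _ _) fun α hα => ⟨(hE α hα).1, by
    unfold Small
    rw [(hE α hα).2.1]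
    exact_mod_cast (by simpa using core_small (Y := Y) 1 hn1)⟩
  have hdeg : degree (∑ α ∈ Y.f.roots.toFinset, E α) =
      ((Y.n * (Y.l * (Y.n ^ 2 + 1)) : ℕ) : ℤ) := by
    rw [map_sum, Finset.sum_congr rfl fun α hα => (hE α (hroot α hα)).2.1, Finset.sum_const,
      Model.card_roots]
    simp
  have hw1 := (hcred Y m c b h ((cmd c).length * ((cL c).length *
    ((cmd c).length * (cmd c).length + 1))) _ _ hT (by
      unfold Small
      rw [hdeg]
      exact_mod_cast core_small _ le_rfl) (by rw [hdeg, h.n_eq, h.l_eq, pow_two])).1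
  have hi2 : i2.length ≤ Y.n := by
    rw [hn]
    exact Nat.le_mul_of_pos_left _ (pow_pos Y.prime.pos _)
  have hw := hcsub Y m c b h _ _ _ _ hw1 (hcxv Y m c b h iS i2 hi2)
  set D := ∑ α ∈ Y.f.roots.toFinset, E α -
    (i2.length : ℤ) • (Y.unitE ^ iS.length) (single Y.inf 1) with hD
  have hD0 : D ∉ Y.Prin := by
    intro hP
    have h1 := Model.dvd_degree_of_Prin hP
    rw [hD, map_sub, hdeg, map_zsmul, Model.degree_unitE_pow, degree_single, mul_one,
      smul_eq_mul] at h1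
    have h2 : (Y.l : ℤ) ∣ ((Y.n * (Y.l * (Y.n ^ 2 + 1)) : ℕ) : ℤ) :=
      Int.natCast_dvd_natCast.2 (Dvd.dvd.mul_left (dvd_mul_right _ _) _)
    have h3 := (dvd_sub_right h2).1 h1
    have h4 : Y.l ∣ i2.length * (Y.l - 1).factorial ^ iS.length := by exact_mod_cast h3
    rcases (Nat.Prime.dvd_mul Y.prime).1 h4 with h5 | h5
    · exact hnd h5
    · have := (Y.prime.dvd_factorial).1 (Y.prime.dvd_of_dvd_pow h5)
      have := Y.two_le
      omega
  have hDv : (Y.lam ^ v.length) D ∈ Y.Prin := by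
    have h1 : ∑ α ∈ Y.f.roots.toFinset, ((Y.lam ^ v.length) (E α) -
        (single Y.inf 1 - single (Y.P α) 1)) ∈ Y.Prin :=
      sum_mem fun α hα => (hE α (hroot α hα)).2.2
    rw [Finset.sum_sub_distrib, Finset.sum_sub_distrib, ← Model.Ram_eq, Finset.sum_const,
      Model.card_roots, ← map_sum] at h1
    have h2 : Y.Ram ∈ Y.Prin := by
      rw [← Model.dv_y]
      exact add_mem (Model.dv_mem_Prin _) (Y.Prin.smul_mem _ Model.H_mem_Prin)
    have h3 := Y.Prin.smul_mem (i2.length : ℤ)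
      (Model.l_pow_smul_sub (Y := Y) iS.length (single Y.inf 1))
    rw [← hvl, smul_sub, smul_smul, ← Nat.cast_mul, mul_comm i2.length, ← hn] at h3
    convert add_mem (sub_mem h1 h2) h3 using 1
    rw [hD, map_sub, map_zsmul, natCast_zsmul _ Y.n]
    abel
  have hex : ∃ j, (Y.lam ^ j) D ∈ Y.Prin := ⟨_, hDv⟩
  have hj0 : Nat.find hex ≠ 0 := by
    intro h0
    have := Nat.find_spec hex
    rw [h0] at this
    exact hD0 (by simpa using this)
  obtain ⟨j, hj⟩ := Nat.exists_eq_succ_of_ne_zero hj0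
  have hjv : Nat.find hex ≤ v.length := Nat.find_min' hex hDv
  obtain ⟨w', hw', hs⟩ := hclams Y m c b h v _ _ hw j (by omega)
  obtain ⟨Z, z1, z2, z3, z4⟩ := hs.small
  have hj1 : (Y.lam ^ (j + 1)) D ∈ Y.Prin := by
    have := Nat.find_spec hex
    rwa [hj] at this
  have hj2 : (Y.lam ^ j) D ∉ Y.Prin := Nat.find_min hex (by omega)
  obtain ⟨g, hg, hfin⟩ := hdec Y m c b h w'.2 Z z1 z3 z2 (by
    have h1 := Model.lam_pow_mem_Prin 1 z4
    rw [pow_one, map_sub] at h1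
    rw [pow_succ', Module.End.mul_apply] at hj1
    simpa using add_mem h1 hj1) fun hZ => hj2 (by simpa using sub_mem hZ z4)
  exact ⟨g, List.mem_flatMap.2 ⟨w', hw', hg⟩, hfin⟩

end Vale.Agent.P319
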