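import Mathlib.Computability.TuringMachine.Computable
import Mathlib.Algebra.Polynomial.Basic
import Mathlib.Algebra.Polynomial.Degree.Defs
import Mathlib.Data.ZMod.Basic
import Mathlib.Data.Nat.Bits
import Mathlib.Data.Nat.Prime.Defs

namespace Vale.Agent.P319

/-- The dense list of the `n + 1` coefficients (constant term first, each as a number in
`0, …, p - 1`) of a polynomial of degree `n` over `ZMod p`. -/
def cf {p : ℕ} (q : Polynomial (ZMod p)) : List ℕ :=
  (List.range (q.natDegree + 1)).map fun i => (q.coeff i).val

/-- An instance of the factorization problem: a prime `p` and a nonzero polynomial over `𝔽_p`. -/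
structure Input where
  p : ℕ
  hp : p.Prime
  f : Polynomial (ZMod p)
  hf : f ≠ 0

/-- Self-delimiting binary codes of bits, pairs, lists and naturals (in binary). -/
def encBool (b : Bool) : List Bool := if b then [true, false, false] else [false]

def encPair {α β : Type} (f : α → List Bool) (g : β → List Bool) (p : α × β) : List Bool :=
  true :: (f p.1 ++ g p.2)

def encList {α : Type} (f : α → List Bool) (l : List α) : List Bool :=
  l.flatMap (fun a => true :: f a) ++ [false]

def encNat (n : ℕ) : List Bool := encList encBool n.bits

/-- The code of an instance: `p` in binary and the dense coefficient list of `f`. -/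
def encInput (x : Input) : List Bool := encPair encNat (encList encNat) (x.p, cf x.f)

/-- The code of an output: a number and a list of coefficient lists. -/
def encOutput : ℕ × List (List ℕ) → List Bool := encPair encNat (encList (encList encNat))

/-- `out` is the complete factorization of `x.f`: it consists of a constant `c` and of the
coefficient lists of monic irreducible polynomials whose product times `c` is `x.f`. -/
def IsFactorization (x : Input) (out : ℕ × List (List ℕ)) : Prop :=
  ∃ (c : ZMod x.p) (gs : List (Polynomial (ZMod x.p))), out = (c.val, gs.map cf) ∧
    Polynomial.C c * gs.prod = x.f ∧ ∀ g ∈ gs, g.Monic ∧ Irreducible g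

end Vale.Agent.P319
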