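import Vale.Agent.P319.LA
import Vale.Agent.P319.BM

/-! Dv: a proper divisor of a reducible polynomial from a root-separating procedure. -/

namespace Vale.Agent.P319
open Polynomial Vale.Agent.Common.TreeTM Vale.Agent.P337

theorem TabOK.mono {p n m : ℕ} {t : Tab} (h : TabOK p n t) (hm : m ≤ n) : TabOK p m t :=
  fun r hr h1 h2 => h r hr (h1.trans hm) h2

theorem headD_flatMap {β γ : Type} (Q : γ → Prop) (c : β → Bool) (f : β → γ) (d : γ) (l : List β)
    (h1 : ∀ b ∈ l, c b = true → Q (f b)) (h2 : ∃ b ∈ l, c b = true) :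
    Q ((l.flatMap fun b => cond (c b) [f b] []).headD d) := by
  induction l with
  | nil => simp at h2
  | cons b l ih =>
    rw [List.flatMap_cons]
    cases hb : c b
    · refine ih (fun a ha => h1 a (List.mem_cons_of_mem _ ha)) ?_
      obtain ⟨a, ha, h3⟩ := h2
      rcases List.mem_cons.1 ha with rfl | ha
      · simp [hb] at h3
      · exact ⟨a, ha, h3⟩
    · exact h1 b List.mem_cons_self hb

noncomputable def Dv_tr (P : Nat.Primes) (g : List ℕ) (u : List ℕ) (k : ℕ) : List ℕ :=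
  u.foldl (fun v _ => padd P ((g.take k).map (fun _ => 0) ++ [1]) (ppow P v P g)) []

theorem Dv_tc_tr {α : Type} [Enc α] {P : α → Nat.Primes} {g u : α → List ℕ} {k : α → ℕ}
    (hP : TC 0 P) (hg : TC 0 g) (hu : TC 0 u) (hk : TC 0 k) :
    TC 0 fun x => Dv_tr (P x) (g x) (u x) (k x) := by
  refine TC.foldl_inv (f := fun x v (_ : ℕ) => padd (P x) (((g x).take (k x)).map (fun _ => 0) ++
    [1]) (ppow (P x) v (P x) (g x))) (by fun_prop) (by fun_prop) hu
    (PA2_bd hP (PA2_len hg))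
    (fun x _ v => sz v ≤ ((g x).length + 1) * (4 * sz (P x : ℕ) + 2) + 1)
    (fun x => by rw [sz_lnil]; omega) (fun x _ v _ _ _ => PA2_sz ?_) fun _ _ _ _ h => h
  refine (natDegree_add_le _ _).trans (max_le ?_ ?_)
  · rw [tp_mono]
    exact (natDegree_monomial_le _).trans (by simp)
  · unfold ppow
    split_ifs with h
    · simp
    · rw [tp_cf]
      exact (natDegree_mod_le _ h).trans (PA2_deg _ _)

theorem Dv_tr_spec {P : Nat.Primes} {g : List ℕ} (hg : (tp P g).Monic)
    (h0 : 0 < (tp P g).natDegree) (u : List ℕ) {k : ℕ} (hk : k ≤ g.length) :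
    AdjoinRoot.mk (tp P g) (tp P (Dv_tr P g u k)) =
      AdjoinRoot.mk (tp P g) (∑ j ∈ Finset.range u.length, (X ^ k) ^ (P : ℕ) ^ j) := by
  haveI : Nontrivial (AdjoinRoot (tp P g)) :=
    AdjoinRoot.nontrivial _ (natDegree_pos_iff_degree_pos.1 h0).ne'
  haveI : CharP (AdjoinRoot (tp P g)) P := charP_of_injective_algebraMap
    (algebraMap (ZMod P) (AdjoinRoot (tp P g))).injective P
  induction u using List.reverseRecOn with
  | nil => simp [Dv_tr]
  | append_singleton u c ih =>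
    rw [Dv_tr, List.foldl_append, List.foldl_cons, List.foldl_nil, ← Dv_tr, padd, tp_cf, tp_mono,
      ppow, if_neg hg.ne_zero, tp_cf, map_add, AdjoinRoot.mk_eq_mk.2 (dvd_mod_sub _ _), map_pow, ih,
      List.length_append, List.length_singleton, Finset.sum_range_succ', List.length_take,
      min_eq_left hk, map_sum, sum_pow_char, map_add, map_sum, add_comm]
    simp only [← map_pow, ← pow_mul, ← pow_succ, Nat.cast_one, monomial_one_right_eq_X_pow,
      pow_zero, mul_one, mul_assoc]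

theorem exists_div {S : Nat.Primes × List ℕ × Tab → List (List ℕ)} (hS : TC 0 S)
    (h : SplitSpec S) : ∃ D, TC 0 D ∧ DivSpec D := by
  classical
  let L : Nat.Primes × List ℕ × Tab → List (List ℕ) := fun x => (idx (0 :: x.2.1)).flatMap fun d =>
    psub x.1 (ppow x.1 [0, 1] ((x.1 : ℕ) ^ (x.2.1.take d).length) x.2.1) [0, 1] ::
      (idx x.2.1).flatMap fun k =>
        (S (x.1, pminp x.1 (Dv_tr x.1 x.2.1 (x.2.1.take d) k) x.2.1, x.2.2)).map fun a =>
          pcomp x.1 a (Dv_tr x.1 x.2.1 (x.2.1.take d) k) x.2.1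
  have hL : TC 0 L := by
    unfold L
    refine tc_flatMap (TC.cons (by fun_prop) (tc_flatMap (TC.map (tc_pcomp (by fun_prop)
      (by fun_prop) (Dv_tc_tr (by fun_prop) (by fun_prop) (by fun_prop) (by fun_prop))
      (by fun_prop)) (TC.comp hS (TC.pair (by fun_prop) (TC.pair (tc_pminp (by fun_prop)
        (Dv_tc_tr (by fun_prop) (by fun_prop) (by fun_prop) (by fun_prop)) (by fun_prop))
        (by fun_prop))))) (by fun_prop))) (by fun_prop)
  refine ⟨fun x => ((L x).flatMap fun c =>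
    cond (nlt 0 (pdeg x.1 (pgcd x.1 c x.2.1)) && nlt (pdeg x.1 (pgcd x.1 c x.2.1)) (pdeg x.1 x.2.1))
      [pmon x.1 (pgcd x.1 c x.2.1)] []).headD [], by fun_prop, fun P g t hg h0 hr ht => ?_⟩
  have hne : ∀ c, EuclideanDomain.gcd (tp P c) (tp P g) ≠ 0 := fun c h =>
    hg.ne_zero (EuclideanDomain.gcd_eq_zero_iff.1 h).2
  refine headD_flatMap (fun D => (tp P D).Monic ∧ tp P D ∣ tp P g ∧ 0 < (tp P D).natDegree ∧
    (tp P D).natDegree < (tp P g).natDegree) _ _ _ _ (fun c _ hc => ?_) ?_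
  · simp only [nlt, pdeg, pgcd, tp_cf, Bool.and_eq_true, decide_eq_true_eq] at hc
    simp only [pmon, pgcd, tp_cf]
    rw [natDegree_mul_leadingCoeff_inv _ (by convert hne c)]
    refine ⟨monic_mul_leadingCoeff_inv (by convert hne c), ?_, hc⟩
    exact (IsUnit.mul_right_dvd (isUnit_C.2 (IsUnit.mk0 _ (inv_ne_zero
      (leadingCoeff_ne_zero.2 (by convert hne c)))))).2 (EuclideanDomain.gcd_dvd_right _ _)
  suffices H : ∃ c ∈ L (P, g, t), ∃ w, tp P g ∣ tp P c - w ∧ ¬ tp P g ∣ w ∧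
      ¬ IsCoprime (tp P g) w by
    obtain ⟨c, hc, w, w1, w2, w3⟩ := H
    refine ⟨c, hc, ?_⟩
    simp only [nlt, pdeg, pgcd, tp_cf, Bool.and_eq_true, decide_eq_true_eq]
    constructor
    · by_contra h1
      have h2 : IsUnit (EuclideanDomain.gcd (tp P c) (tp P g)) := by
        rw [isUnit_iff_degree_eq_zero, degree_eq_natDegree (hne c)]
        simpa using h1
      obtain ⟨a, b, hab⟩ := EuclideanDomain.gcd_isUnit_iff.1 h2
      obtain ⟨e, he⟩ := w1
      exact w3 ⟨b + a * e, a, by linear_combination hab - a * he⟩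
    · by_contra h1
      have h2 := associated_of_dvd_of_natDegree_le (EuclideanDomain.gcd_dvd_right (tp P c) (tp P g))
        hg.ne_zero (by simpa using h1)
      exact w2 ((dvd_iff_dvd_of_dvd_sub w1).1 (h2.symm.dvd.trans (EuclideanDomain.gcd_dvd_left _ _)))
  have hlen := PA2_deg P g
  obtain ⟨d, d1, d2, hd⟩ := berlekamp hg h0 hr
  have hd' : d ∈ idx (0 :: g) := by simp only [idx, List.mem_range, List.length_cons]; omega
  have htk : (g.take d).length = d := by rw [List.length_take, min_eq_left (by omega)]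
  rcases hd with ⟨w2, w3⟩ | ⟨k, hk, k1, k2⟩
  · refine ⟨_, List.mem_flatMap.2 ⟨d, hd', List.mem_cons_self⟩, _, ?_, w2, w3⟩
    simp only [psub, ppow, tp_cf, if_neg hg.ne_zero, htk]
    simpa using dvd_mod_sub (X ^ (P : ℕ) ^ d) (tp P g)
  · have e := Dv_tr_spec hg h0 (g.take d) (k := k) (by omega)
    rw [htk] at e
    rw [← e] at k1 k2
    have e2 : tp P (pminp P (Dv_tr P g (g.take d) k) g) =
        minpoly (ZMod P) (AdjoinRoot.mk (tp P g) (tp P (Dv_tr P g (g.take d) k))) := by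
      rw [pminp, if_neg hg.ne_zero, tp_cf]
    obtain ⟨m1, m2⟩ := natDegree_minpoly_le hg
      (AdjoinRoot.mk (tp P g) (tp P (Dv_tr P g (g.take d) k)))
    obtain ⟨a, ha, c, c', r1, r2, r3, r4⟩ := h P (pminp P (Dv_tr P g (g.take d) k) g) t
      (e2 ▸ m1) (e2 ▸ k1) (e2 ▸ k2) (ht.mono (e2 ▸ m2))
    obtain ⟨w2, w3⟩ := zero_div hg (e2 ▸ r1) (e2 ▸ r2) r3 r4
    refine ⟨_, List.mem_flatMap.2 ⟨d, hd', List.mem_cons_of_mem _ (List.mem_flatMap.2
      ⟨k, List.mem_range.2 (by dsimp only; omega), List.mem_map_of_mem ha⟩)⟩, _, ?_, w2, w3⟩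
    simp only [pcomp, tp_cf, if_neg hg.ne_zero]
    exact dvd_mod_sub _ _

end Vale.Agent.P319
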