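import Mathlib

/-! GS: nonresidues from Jacobi sums. -/

namespace Vale.Agent.P319
open Finset

/-- Euler's criterion -/
theorem not_pow_iff {K : Type} [Field K] [Finite K] {r : ℕ} (hr : r.Prime)
    (h : r ∣ Nat.card K - 1) (η : K) :
    (¬ ∃ y : K, y ^ r = η) ↔ η ≠ 0 ∧ η ^ ((Nat.card K - 1) / r) ≠ 1 := by
  classical
  haveI := Fintype.ofFinite K
  obtain ⟨e, he⟩ := h
  have h1 : (Nat.card K - 1) / r = e := by rw [he, Nat.mul_div_cancel_left _ hr.pos]
  rw [h1]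
  constructor
  · intro hn
    have h0 : η ≠ 0 := by rintro rfl; exact hn ⟨0, zero_pow hr.ne_zero⟩
    refine ⟨h0, fun h2 => hn ?_⟩
    obtain ⟨g, hg⟩ := IsCyclic.exists_monoid_generator (α := Kˣ)
    obtain ⟨k, hk⟩ := hg (Units.mk0 η h0)
    have ho : orderOf g = r * e := by
      rw [← he, ← Nat.card_units]
      exact orderOf_eq_card_of_forall_mem_powers hg
    have h3 : g ^ (k * e) = 1 := by
      rw [pow_mul, show g ^ k = Units.mk0 η h0 from hk]
      exact Units.ext (by simpa using h2)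
    have he0 : 0 < e := Nat.pos_of_ne_zero fun h => by
      have := Finite.one_lt_card (α := K)
      rw [h] at he; omega
    obtain ⟨j, rfl⟩ := Nat.dvd_of_mul_dvd_mul_right he0 (ho ▸ orderOf_dvd_of_pow_eq_one h3)
    exact ⟨(g ^ j : Kˣ), by rw [← Units.val_pow_eq_pow_val, ← pow_mul, mul_comm,
      show g ^ (r * j) = Units.mk0 η h0 from hk, Units.val_mk0]⟩
  · rintro ⟨h0, h2⟩ ⟨y, rfl⟩
    refine h2 ?_
    rw [← pow_mul, ← he, Nat.card_eq_fintype_card]
    exact FiniteField.pow_card_sub_one_eq_one _ fun h => h0 (by rw [h, zero_pow hr.ne_zero])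

theorem GS_prim {p r l : ℕ} (hr : r.Prime) (hl : l.Prime) (hrl : r ∣ l - 1)
    (hn : ¬ ∃ x : ZMod l, x ^ r = (p : ZMod l)) :
    IsPrimitiveRoot ((p : ZMod l) ^ ((l - 1) / r)) r := by
  haveI := Fact.mk hl
  haveI := Fact.mk hr
  obtain ⟨h1, h2⟩ := (not_pow_iff hr (by rwa [Nat.card_zmod]) _).1 hn
  rw [Nat.card_zmod] at h2
  have h3 : ((p : ZMod l) ^ ((l - 1) / r)) ^ r = 1 := by
    rw [← pow_mul, Nat.div_mul_cancel hrl, ZMod.pow_card_sub_one_eq_one h1]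
  exact IsPrimitiveRoot.iff_orderOf.2 (orderOf_eq_prime h3 h2)

/-- the index exists -/
theorem exists_ind {p r l : ℕ} (hp : p.Prime) (hr : r.Prime) (hl : l.Prime) (hrl : r ∣ l - 1)
    (hlp : l ≠ p) (hn : ¬ ∃ x : ZMod l, x ^ r = (p : ZMod l)) {a : ℕ} (h0 : 0 < a) (ha : a < l) :
    ∃ i < r, (a : ZMod l) ^ ((l - 1) / r) = ((p : ZMod l) ^ ((l - 1) / r)) ^ i := by
  haveI := Fact.mk hl
  haveI := NeZero.mk hr.ne_zero
  have h1 : (a : ZMod l) ≠ 0 := fun h =>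
    absurd (Nat.le_of_dvd h0 ((ZMod.natCast_eq_zero_iff _ _).1 h)) (by omega)
  obtain ⟨i, hi, e⟩ := (GS_prim hr hl hrl hn).eq_pow_of_pow_eq_one
    (ξ := (a : ZMod l) ^ ((l - 1) / r))
    (by rw [← pow_mul, Nat.div_mul_cancel hrl, ZMod.pow_card_sub_one_eq_one h1])
  exact ⟨i, hi, e.symm⟩

theorem GS_pow {M : Type} [CommMonoid M] {ζ : M} {r : ℕ} (h : IsPrimitiveRoot ζ r) (hr : r ≠ 0)
    (i j : ℕ) : ζ ^ i = ζ ^ j ↔ i ≡ j [MOD r] := by
  rw [(h.isOfFinOrder hr).pow_eq_pow_iff_modEq, ← h.eq_orderOf]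

/-- If `p` is not an `r`-th power modulo the prime `l ≡ 1 mod r`, then in a field `K` with `p ^ d`
elements, `0 < d < r`, containing a primitive `r`-th root of unity `ζ`, one of `-1`, `l` and the
Jacobi sums of the character `a ↦ ζ ^ ind a` is not an `r`-th power. -/
theorem jacobi_nonres {K : Type} [Field K] [Finite K] {p d r l : ℕ} (hp : p.Prime)
    (hr : r.Prime) (hl : l.Prime) (hK : Nat.card K = p ^ d) (hd0 : 0 < d) (hd : d < r) {ζ : K}
    (hζ : IsPrimitiveRoot ζ r) (hrl : r ∣ l - 1) (hlp : l ≠ p)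
    (hn : ¬ ∃ x : ZMod l, x ^ r = (p : ZMod l)) (ind : ℕ → ℕ)
    (hind : ∀ a, 0 < a → a < l →
      (a : ZMod l) ^ ((l - 1) / r) = ((p : ZMod l) ^ ((l - 1) / r)) ^ ind a) :
    (¬ ∃ y : K, y ^ r = -1) ∨ (¬ ∃ y : K, y ^ r = l) ∨
      ∃ j, 1 ≤ j ∧ j < r ∧
        ¬ ∃ y : K, y ^ r = ∑ a ∈ Ico 2 l, ζ ^ (ind a + j * ind (l + 1 - a)) := by
  classical
  haveI := Fact.mk hl
  haveI := Fact.mk hp
  haveI := Fintype.ofFinite K
  haveI := NeZero.mk hr.ne_zero
  rw [Nat.card_eq_fintype_card] at hK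
  haveI : CharP K p := charP_of_card_eq_prime_pow hK
  by_contra! hc
  obtain ⟨⟨y1, h1⟩, ⟨y2, h2⟩, h3⟩ := hc
  have hg := GS_prim hr hl hrl hn
  set Ω := AlgebraicClosure K
  set f := algebraMap K Ω
  have hξ : IsPrimitiveRoot (f ζ) r := hζ.map_of_injective f.injective
  have hv : ∀ x : ZMod l, x ≠ 0 → x ^ ((l - 1) / r) = ((p : ZMod l) ^ ((l - 1) / r)) ^ ind x.val :=
    fun x hx => by
      simpa using hind x.val (Nat.pos_of_ne_zero ((ZMod.val_ne_zero x).2 hx)) (ZMod.val_lt x)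
  have hw : ∀ (x : ZMod l) (i : ℕ), x ≠ 0 →
      x ^ ((l - 1) / r) = ((p : ZMod l) ^ ((l - 1) / r)) ^ i → f ζ ^ ind x.val = f ζ ^ i :=
    fun x i hx h => (GS_pow hξ hr.ne_zero _ _).2 ((GS_pow hg hr.ne_zero _ _).1
      ((hv x hx).symm.trans h))
  let χ : MulChar (ZMod l) Ω :=
    { toFun := fun x => if x = 0 then 0 else f ζ ^ ind x.val
      map_one' := by rw [if_neg one_ne_zero, hw 1 0 one_ne_zero (by simp), pow_zero]
      map_mul' := fun x y => by
        by_cases hx : x = 0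
        · simp [hx]
        by_cases hy : y = 0
        · simp [hy]
        rw [if_neg hx, if_neg hy, if_neg (mul_ne_zero hx hy), ← pow_add]
        exact hw _ _ (mul_ne_zero hx hy) (by rw [mul_pow, pow_add, hv x hx, hv y hy])
      map_nonunit' := fun x hx => if_pos (by simpa using hx) }
  have hχ : ∀ x, χ x = if x = 0 then 0 else f ζ ^ ind x.val := fun _ => rfl
  have hp0 : (p : ZMod l) ≠ 0 := fun h =>
    hlp ((Nat.prime_dvd_prime_iff_eq hl hp).1 ((ZMod.natCast_eq_zero_iff _ _).1 h))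
  have χp : χ p = f ζ := by rw [hχ, if_neg hp0, hw _ 1 hp0 (pow_one _).symm, pow_one]
  have χ1 : χ ≠ 1 := fun h => hξ.ne_one hr.one_lt (by
    rw [← χp, h, MulChar.one_apply (IsUnit.mk0 _ hp0)])
  have χo : orderOf χ = r := by
    haveI := Fact.mk hr
    refine orderOf_eq_prime (MulChar.ext fun x => ?_) χ1
    rw [MulChar.pow_apply_coe, MulChar.one_apply_coe, hχ, if_neg x.ne_zero, pow_right_comm,
      hξ.pow_eq_one, one_pow]
  have hl0 : (l : Ω) ≠ 0 := fun h =>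
    hlp ((Nat.prime_dvd_prime_iff_eq hp hl).1 ((CharP.cast_eq_zero_iff Ω p l).1 h)).symm
  haveI := NeZero.mk hl0
  obtain ⟨ω, hω⟩ := HasEnoughRootsOfUnity.exists_primitiveRoot Ω l
  obtain ⟨ψ, hψ⟩ : ∃ ψ : AddChar (ZMod l) Ω, ψ.IsPrimitive :=
    ⟨_, AddChar.zmodChar_primitive_of_primitive_root l hω⟩
  have hG := gaussSum_ne_zero_of_nontrivial (by rwa [ZMod.card]) χ1 hψ
  have e1 := gaussSum_pow_eq_prod_jacobiSum (χo ▸ hr.two_le) hψ
  rw [χo, ZMod.card] at e1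
  have hJ : ∀ j, 1 ≤ j → jacobiSum χ (χ ^ j) =
      f (∑ a ∈ Ico 2 l, ζ ^ (ind a + j * ind (l + 1 - a))) := fun j hj => by
    rw [jacobiSum, map_sum]
    symm
    refine Finset.sum_bij_ne_zero (fun a _ _ => (a : ZMod l)) (fun _ _ _ => mem_univ _)
      (fun a ha _ b hb _ e => ?_) (fun x _ hx => ?_) fun a ha _ => ?_
    · rw [ZMod.natCast_eq_natCast_iff', Nat.mod_eq_of_lt (mem_Ico.1 ha).2,
        Nat.mod_eq_of_lt (mem_Ico.1 hb).2] at e
      exact e
    · refine ⟨x.val, mem_Ico.2 ⟨?_, ZMod.val_lt x⟩,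
        by simp [hζ.ne_zero hr.ne_zero], ZMod.natCast_zmod_val x⟩
      have x0 : x ≠ 0 := by rintro rfl; exact hx (by rw [MulChar.map_zero, zero_mul])
      have x1 : x ≠ 1 := by rintro rfl; exact hx (by rw [sub_self, MulChar.map_zero, mul_zero])
      have := (ZMod.val_ne_zero x).2 x0
      have : x.val ≠ 1 := fun h => x1 (by rw [← ZMod.natCast_zmod_val x, h, Nat.cast_one])
      omega
    · obtain ⟨a1, a2⟩ := mem_Ico.1 ha
      have e : (1 - a : ZMod l) = (l + 1 - a : ℕ) := by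
        rw [Nat.cast_sub (by omega)]; simp
      have n : ∀ b : ℕ, 0 < b → b < l → (b : ZMod l) ≠ 0 := fun b b1 b2 h =>
        absurd (Nat.le_of_dvd b1 ((ZMod.natCast_eq_zero_iff _ _).1 h)) (by omega)
      rw [MulChar.pow_apply' _ (by omega), e, hχ, hχ, if_neg (n _ (by omega) a2),
        if_neg (n _ (by omega) (by omega)), ZMod.val_cast_of_lt a2, ZMod.val_cast_of_lt (by omega),
        map_pow, pow_add, mul_comm j, pow_mul]
  obtain ⟨y, hy⟩ : ∃ y : K, f y ^ r = gaussSum χ ψ ^ r := by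
    choose! z hz using h3
    obtain ⟨y0, h0⟩ : ∃ y : K, f y ^ r = χ (-1) := by
      rcases mul_self_eq_one_iff.1 (show χ (-1) * χ (-1) = 1 by rw [← map_mul]; simp) with h | h
      · exact ⟨1, by simp [h]⟩
      · exact ⟨y1, by rw [← map_pow, h1, h]; simp⟩
    refine ⟨y0 * y2 * ∏ j ∈ Ico 1 (r - 1), z j, ?_⟩
    rw [e1, map_mul, map_mul, mul_pow, mul_pow, h0, ← map_pow, h2, map_natCast, map_prod,
      ← prod_pow]
    congr 1
    refine prod_congr rfl fun j hj => ?_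
    obtain ⟨j1, j2⟩ := mem_Ico.1 hj
    rw [← map_pow, hz j j1 (by omega), hJ j j1]
  have hfix : ∀ y : K, f y ^ p ^ d = f y := fun y => by rw [← map_pow, ← hK, FiniteField.pow_card]
  have e2 : gaussSum χ ψ ^ p ^ d = gaussSum χ ψ := by
    have y0 : f y ≠ 0 := fun h => hG (pow_eq_zero_iff hr.ne_zero |>.1 (by
      rw [← hy, h, zero_pow hr.ne_zero]))
    obtain ⟨i, -, hi⟩ := hξ.eq_pow_of_pow_eq_one (ξ := gaussSum χ ψ / f y)
      (by rw [div_pow, hy, div_self (pow_ne_zero _ hG)])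
    rw [eq_div_iff y0, ← map_pow, ← map_mul] at hi
    rw [← hi, hfix]
  have e3 : gaussSum χ ψ ^ p ^ d = gaussSum χ (ψ.mulShift (Units.mk0 _ (pow_ne_zero d hp0))) := by
    rw [gaussSum, gaussSum, sum_pow_char_pow]
    refine sum_congr rfl fun x _ => ?_
    rw [mul_pow, AddChar.mulShift_apply, ← AddChar.map_nsmul_eq_pow, nsmul_eq_mul, Nat.cast_pow,
      Units.val_mk0]
    congr 1
    rw [hχ]
    split_ifs
    · exact zero_pow (pow_pos hp.pos _).ne'
    · rw [pow_right_comm, hfix]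
  have e4 := gaussSum_mulShift χ ψ (Units.mk0 _ (pow_ne_zero d hp0))
  rw [← e3, e2, Units.val_mk0, map_pow, χp, mul_left_eq_self₀] at e4
  exact hξ.pow_ne_one_of_pos_of_lt hd0.ne' hd (e4.resolve_right hG)

end Vale.Agent.P319
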