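import Vale.Agent.P319.Dv
import Vale.Agent.P319.GS

/-! Eta: finding the nonresidue in `𝔽_p[z]/ψ`, `ψ` an irreducible factor of the `r`-th cyclotomic
polynomial, `r` the length of the list `u`: the first candidate among `z`, the small integers,
`-1` and the Jacobi sums that passes Euler's test. -/

namespace Vale.Agent.P319
open Polynomial Vale.Agent.Common.TreeTM Vale.Agent.P337

noncomputable def psum (P : Nat.Primes) (l : List (List ℕ)) : List ℕ := l.foldl (padd P) []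

theorem tp_psum (P : Nat.Primes) (l : List (List ℕ)) : tp P (psum P l) = (l.map (tp P)).sum := by
  induction l using List.reverseRecOn with
  | nil => rfl
  | append_singleton l c ih =>
    rw [psum, List.foldl_append, List.foldl_cons, List.foldl_nil, ← psum, padd, tp_cf, ih]
    simp

@[fun_prop] theorem tc_psum {α : Type} [Enc α] {P : α → Nat.Primes} {l : α → List (List ℕ)}
    (hP : TC 0 P) (hl : TC 0 l) : TC 0 fun x => psum (P x) (l x) := by
  refine TC.foldl_inv (f := fun x g r => padd (P x) g r) (by fun_prop) (by fun_prop) hl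
    (PA2_bd hP hl.bd) (fun x _ g => (tp (P x) g).natDegree ≤ sz (l x) ∧
      sz g ≤ (sz (l x) + 1) * (4 * sz (P x : ℕ) + 2) + 1)
    (fun x => ⟨by simp, by rw [sz_lnil]; omega⟩) (fun x _ g r hr h => ?_) fun _ _ _ _ h => h.2
  have : (tp (P x) g + tp (P x) r).natDegree ≤ sz (l x) := (natDegree_add_le _ _).trans
    (max_le h.1 ((PA2_deg _ _).trans ((length_le_sz _).trans (sz_mem hr))))
  exact ⟨by rwa [padd, tp_cf], PA2_sz this⟩

def Eta_ind (p : ℕ) (u : List ℕ) (l a : ℕ) : ℕ :=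
  ((idx u).flatMap fun i => cond (neq (a ^ ((l - 1) / u.length) % (l - 1 + 1))
    ((p ^ ((l - 1) / u.length) % (l - 1 + 1)) ^ i % (l - 1 + 1))) [i] []).headD 0

@[fun_prop] theorem Eta_tc_ind {α : Type} [Enc α] {p l a : α → ℕ} {u : α → List ℕ} (hp : TC 0 p)
    (hu : TC 0 u) (hl : TC 0 l) (ha : TC 0 a) :
    TC 0 fun x => Eta_ind (p x) (u x) (l x) (a x) := by
  unfold Eta_ind
  fun_prop

theorem Eta_ind_spec {p l : ℕ} {u : List ℕ} (hp : p.Prime) (hr : u.length.Prime) (hl : l.Prime)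
    (hrl : u.length ∣ l - 1) (hlp : l ≠ p) (hn : ¬ ∃ x : ZMod l, x ^ u.length = (p : ZMod l))
    (a : ℕ) (h0 : 0 < a) (ha : a < l) : (a : ZMod l) ^ ((l - 1) / u.length) =
      ((p : ZMod l) ^ ((l - 1) / u.length)) ^ Eta_ind p u l a := by
  have key : ∀ i, neq (a ^ ((l - 1) / u.length) % (l - 1 + 1))
      ((p ^ ((l - 1) / u.length) % (l - 1 + 1)) ^ i % (l - 1 + 1)) = true ↔
      (a : ZMod l) ^ ((l - 1) / u.length) = ((p : ZMod l) ^ ((l - 1) / u.length)) ^ i := fun i => by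
    rw [neq, decide_eq_true_eq, Nat.sub_add_cancel hl.one_le, ← ZMod.natCast_eq_natCast_iff']
    simp
  obtain ⟨i, hi, e⟩ := exists_ind hp hr hl hrl hlp hn h0 ha
  exact headD_flatMap (fun i => (a : ZMod l) ^ ((l - 1) / u.length) =
    ((p : ZMod l) ^ ((l - 1) / u.length)) ^ i) _ (fun i => i) _ _ (fun i _ => (key i).1)
    ⟨i, List.mem_range.2 hi, (key i).2 e⟩

theorem Eta_bd {α : Type} [Enc α] {m : α → ℕ} (h : Bd 0 m) (k : ℕ) : Bd 0 fun x => m x ^ k := by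
  induction k with
  | zero => simpa using Bd.const 0 1
  | succ k ih => simpa [pow_succ] using ih.mul h

noncomputable def Eta_J (P : Nat.Primes) (u ψ : List ℕ) (U : List Bool) (l j : ℕ) : List ℕ :=
  psum P ((idx (U.take l)).map fun a =>
    cond (nlt 1 a) (ppow P [0, 1] (Eta_ind P u l a + j * Eta_ind P u l (l + 1 - a)) ψ) [])

theorem Eta_J_spec {P : Nat.Primes} (u : List ℕ) {ψ : List ℕ} (h : tp P ψ ≠ 0) {U : List Bool}
    {l : ℕ} (hl : l ≤ U.length) (j : ℕ) : AdjoinRoot.mk (tp P ψ) (tp P (Eta_J P u ψ U l j)) =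
    ∑ a ∈ Finset.Ico 2 l, AdjoinRoot.root (tp P ψ) ^
      (Eta_ind P u l a + j * Eta_ind P u l (l + 1 - a)) := by
  rw [Eta_J, tp_psum, List.map_map, idx, List.length_take, min_eq_left hl, PA1_sum_range, map_sum,
    eq_comm]
  refine (Finset.sum_congr rfl fun a ha => ?_).trans (Finset.sum_subset (fun a ha => by
    simp only [Finset.mem_Ico, Finset.mem_range] at ha ⊢; omega) fun a ha hb => ?_)
  · have : nlt 1 a = true := by simp only [Finset.mem_Ico] at ha; simp [nlt]; omega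
    simp only [Function.comp, this, cond_true, ppow, if_neg h, tp_cf]
    rw [AdjoinRoot.mk_eq_mk.2 (dvd_mod_sub _ _)]
    simp
  · have : nlt 1 a = false := by
      simp only [Finset.mem_Ico, Finset.mem_range] at ha hb; simp [nlt]; omega
    simp [this]

noncomputable def Eta_test (P : Nat.Primes) (u ψ c : List ℕ) : Bool :=
  !(pz P (pmod P c ψ)) && !(pz P (pmod P (psub P (ppow P c
    (((P : ℕ) ^ (ψ.take (pdeg P ψ)).length - 1) / u.length) ψ) [1]) ψ))

@[fun_prop] theorem Eta_tc_test {α : Type} [Enc α] {P : α → Nat.Primes} {u ψ c : α → List ℕ}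
    (hP : TC 0 P) (hu : TC 0 u) (hψ : TC 0 ψ) (hc : TC 0 c) :
    TC 0 fun x => Eta_test (P x) (u x) (ψ x) (c x) := by
  have h1 : TC 0 fun x => ((P x : ℕ) ^ ((ψ x).take (pdeg (P x) (ψ x))).length - 1) /
    (u x).length := by fun_prop
  exact TC.and (TC.not (tc_pz hP (tc_pmod hP hc hψ))) (TC.not (tc_pz hP (tc_pmod hP
    (tc_psub hP (tc_ppow hP hc h1 hψ) (TC.const _)) hψ)))

theorem Eta_field {P : Nat.Primes} {r : ℕ} {ψ : (ZMod P)[X]} (hr : r.Prime) (hrp : r ≠ P)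
    (hi : Irreducible ψ) (hd : ψ ∣ cyclotomic r (ZMod P)) :
    IsPrimitiveRoot (AdjoinRoot.root ψ) r ∧ (∀ m, ψ.natDegree ∣ m ↔ r ∣ (P : ℕ) ^ m - 1) ∧
      ψ.natDegree ∣ r - 1 := by
  haveI := Fact.mk hi
  haveI : NeZero (r : ZMod P) := ⟨fun h => hrp ((Nat.prime_dvd_prime_iff_eq P.2 hr).1
    ((ZMod.natCast_eq_zero_iff _ _).1 h)).symm⟩
  haveI : NeZero (r : AdjoinRoot ψ) :=
    NeZero.of_injective (algebraMap (ZMod P) (AdjoinRoot ψ)).injective
  have hz : IsPrimitiveRoot (AdjoinRoot.root ψ) r := by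
    rw [← isRoot_cyclotomic_iff, ← map_cyclotomic _ (algebraMap (ZMod P) _), IsRoot.def,
      eval_map_algebraMap, AdjoinRoot.aeval_eq]
    exact AdjoinRoot.mk_eq_zero.2 hd
  have hdeg : ∀ m, ψ.natDegree ∣ m ↔ r ∣ (P : ℕ) ^ m - 1 := fun m => by
    rw [hi.natDegree_dvd_iff_dvd_X_pow_card_pow_sub_X, Nat.card_zmod, ← AdjoinRoot.mk_eq_zero,
      map_sub, map_pow, AdjoinRoot.mk_X, sub_eq_zero, ← hz.pow_eq_one_iff_dvd]
    conv_lhs => rw [← Nat.sub_add_cancel (Nat.one_le_pow m _ P.2.pos), pow_succ]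
    exact mul_eq_right₀ (hz.ne_zero hr.ne_zero)
  have h2 : ψ.natDegree ∣ r - 1 := (hdeg _).2 (by
    have := ((Nat.coprime_primes P.2 hr).2 hrp.symm)
    have h3 := Nat.ModEq.pow_totient this
    rw [Nat.totient_prime hr] at h3
    exact (Nat.modEq_iff_dvd' (Nat.one_le_pow _ _ P.2.pos)).1 h3.symm)
  exact ⟨hz, hdeg, h2⟩

theorem Eta_key {P : Nat.Primes} {u ψ : List ℕ} (hr : u.length.Prime)
    (hi : Irreducible (tp P ψ)) (h1 : u.length ∣ (P : ℕ) ^ (tp P ψ).natDegree - 1) (c : List ℕ) :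
    Eta_test P u ψ c = true ↔
      ¬ ∃ y : AdjoinRoot (tp P ψ), y ^ u.length = AdjoinRoot.mk _ (tp P c) := by
  haveI := Fact.mk hi
  obtain ⟨f1, c1⟩ := BM_card hi.ne_zero
  rw [not_pow_iff hr (c1 ▸ h1), c1, Eta_test, List.length_take, pdeg, min_eq_left (PA2_deg _ _),
    Bool.and_eq_true, Bool.not_eq_true', Bool.not_eq_true', pz, pz, decide_eq_false_iff_not,
    decide_eq_false_iff_not, pmod, pmod, psub, ppow, if_neg hi.ne_zero, tp_cf, tp_cf, tp_cf,
    tp_cf, EuclideanDomain.mod_eq_zero, EuclideanDomain.mod_eq_zero, ← AdjoinRoot.mk_eq_zero,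
    ← AdjoinRoot.mk_eq_zero, map_sub, AdjoinRoot.mk_eq_mk.2 (dvd_mod_sub _ _), sub_eq_zero]
  simp

theorem Eta_wief {r q m : ℕ} (h1 : r ∣ q - 1) (h : r ∣ (q - 1) / r) : r ^ 2 ∣ q ^ m - 1 := by
  rw [sq]
  refine (Nat.mul_dvd_of_dvd_div h1 h).trans ?_
  simpa using Nat.sub_dvd_pow_sub_pow q 1 m

noncomputable def Eta_L (P : Nat.Primes) (u ψ : List ℕ) (U : List Bool) : List (List ℕ) :=
  [0, 1] :: [(P : ℕ) - 1] :: (((idx U).map fun a => [a]) ++
    (idx U).flatMap fun l => (idx u).map fun j => Eta_J P u ψ U l j)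

theorem Eta_ex {k : ℕ} {P : Nat.Primes} {u ψ : List ℕ} {U : List Bool} (hr : u.length.Prime)
    (hrp : u.length ≠ P) (hi : Irreducible (tp P ψ)) (hd : tp P ψ ∣ cyclotomic u.length (ZMod P))
    (hc : Cond k P u.length) (hB' : ∀ a, a ≤ (u.length * Nat.log 2 P + 2) ^ k → a < U.length) :
    ∃ c ∈ Eta_L P u ψ U,
      ¬ ∃ y : AdjoinRoot (tp P ψ), y ^ u.length = AdjoinRoot.mk _ (tp P c) := by
  haveI := Fact.mk hi
  obtain ⟨f1, c1⟩ := BM_card hi.ne_zero
  obtain ⟨hz, hdeg, h2⟩ := Eta_field hr hrp hi hd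
  have h1 := (hdeg _).1 dvd_rfl
  have hsm : ∀ a, a < U.length → [a] ∈ Eta_L P u ψ U := fun a ha =>
    List.mem_cons_of_mem _ (List.mem_cons_of_mem _ (List.mem_append_left _
      (List.mem_map_of_mem (List.mem_range.2 ha))))
  have hc1 : ∀ a : ℕ, AdjoinRoot.mk (tp P ψ) (tp P [a]) = a := fun a => by simp
  rcases hc with hc | ⟨hc, a, a1, a2⟩ | ⟨l, l1, l2, l3, l4, l5⟩
  · refine ⟨[0, 1], List.mem_cons_self, (not_pow_iff hr (c1 ▸ h1) _).2 ?_⟩
    have e : AdjoinRoot.mk (tp P ψ) (tp P [0, 1]) = AdjoinRoot.root (tp P ψ) := by simp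
    rw [e, c1]
    refine ⟨hz.ne_zero hr.ne_zero, fun h => hc ?_⟩
    obtain ⟨m, hm⟩ := h2
    have h3 := Eta_wief (m := m) h1 ((hz.pow_eq_one_iff_dvd _).1 h)
    rwa [← pow_mul, ← hm] at h3
  · refine ⟨[a], hsm a (hB' a (a1.trans (Nat.pow_le_pow_left
      (Nat.add_le_add_right (Nat.le_mul_of_pos_left _ hr.pos) _) _))), ?_⟩
    have d1 : (tp P ψ).natDegree = 1 := Nat.dvd_one.1 ((hdeg 1).2 (by rwa [pow_one]))
    rintro ⟨y, hy⟩
    have hs : Function.Surjective (algebraMap (ZMod P) (AdjoinRoot (tp P ψ))) :=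
      ((Nat.bijective_iff_injective_and_card _).2 ⟨(algebraMap (ZMod P) _).injective,
        by rw [c1, d1, pow_one, Nat.card_zmod]⟩).2
    obtain ⟨x, rfl⟩ := hs y
    exact a2 ⟨x, (algebraMap (ZMod P) (AdjoinRoot (tp P ψ))).injective (by
      rw [map_pow, hy, hc1, map_natCast])⟩
  · have := hr.two_le
    rcases jacobi_nonres P.2 hr l1 c1 hi.natDegree_pos
      ((Nat.le_of_dvd (by omega) h2).trans_lt (by omega)) hz l3 l4 l5 (Eta_ind P u l)
      (Eta_ind_spec P.2 hr l1 l3 l4 l5) with h | h | ⟨j, -, j2, h⟩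
    · refine ⟨[P - 1], List.mem_cons_of_mem _ List.mem_cons_self, ?_⟩
      have h0 : ((P : ℕ) : AdjoinRoot (tp P ψ)) = 0 := by
        rw [← map_natCast (algebraMap (ZMod P) _), ZMod.natCast_self, map_zero]
      rwa [hc1, Nat.cast_sub P.2.one_le, h0, Nat.cast_one, zero_sub]
    · exact ⟨[l], hsm l (hB' l l2), by rwa [hc1]⟩
    · refine ⟨_, List.mem_cons_of_mem _ (List.mem_cons_of_mem _ (List.mem_append_right _
        (List.mem_flatMap.2 ⟨l, List.mem_range.2 (hB' l l2),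
          List.mem_map_of_mem (List.mem_range.2 j2)⟩))), ?_⟩
      rwa [Eta_J_spec u hi.ne_zero (hB' l l2).le]

theorem exists_eta (k : ℕ) : ∃ E : Nat.Primes × List ℕ × List ℕ → List ℕ, TC 0 E ∧
    ∀ (P : Nat.Primes) (u ψ : List ℕ), u.length.Prime → u.length ≠ P → (tp P ψ).Monic →
      Irreducible (tp P ψ) → tp P ψ ∣ cyclotomic u.length (ZMod P) → Cond k P u.length →
      Good P u.length (ψ, E (P, u, ψ)) := by
  obtain ⟨U, hU, hB⟩ := exists_unary (m := fun x : Nat.Primes × List ℕ × List ℕ =>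
    (x.2.1.length * sz (x.1 : ℕ) + 2) ^ k + 1) ((Eta_bd (((PA2_len (by fun_prop)).mul
      (tc_primeVal (e := 0) (by fun_prop)).bd).add (Bd.const _ _)) k).add (Bd.const _ _))
  have hL : TC 0 fun x : Nat.Primes × List ℕ × List ℕ => Eta_L x.1 x.2.1 x.2.2 (U x) := by
    unfold Eta_L Eta_J
    fun_prop
  refine ⟨fun x => ((Eta_L x.1 x.2.1 x.2.2 (U x)).flatMap
      fun c => cond (Eta_test x.1 x.2.1 x.2.2 c) [c] []).headD [],
    TC.headD (tc_flatMap (by fun_prop) hL) (by fun_prop), fun P u ψ hr hrp hm hi hd hc => ?_⟩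
  have h1 := ((Eta_field hr hrp hi hd).2.1 _).1 dvd_rfl
  have key := Eta_key hr hi h1
  have hlog : Nat.log 2 P ≤ sz (P : ℕ) := (Nat.log_lt_of_lt_pow' (one_le_sz _ |> Nat.ne_of_gt)
    (lt_two_pow_sz _)).le
  obtain ⟨c, h2, h3⟩ := Eta_ex (U := U (P, u, ψ)) hr hrp hi hd hc fun a ha =>
    lt_of_lt_of_le (Nat.lt_succ_of_le (ha.trans (Nat.pow_le_pow_left (Nat.add_le_add_right
      (Nat.mul_le_mul_left _ hlog) _) _))) (hB (P, u, ψ))
  exact ⟨hm, hi, h1, headD_flatMap (fun c => ∀ y : AdjoinRoot (tp P ψ),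
    y ^ u.length ≠ AdjoinRoot.mk _ (tp P c)) _ (fun c => c) _ _
    (fun c _ h y hy => (key c).1 h ⟨y, hy⟩) ⟨c, h2, (key c).2 h3⟩⟩

end Vale.Agent.P319
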