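import Vale.Agent.P319.T2b

/-! T2c: degree of principal divisors, the spaces `LL (m H)`.
`degree_dv`: `l * deg (dv u) = deg (dv (nj u l))`, and `nj u l` is a rational function of `x`;
`dv (x - a) + H` is the fibre over `a` (`l` simple points or `l` times a ramification point).
`mem_LL_H`: `u = ∑ g_b y ^ b` with `g_b y ^ b = (1/l) ∑_j ζ ^ (-j b) σ ^ j u ∈ LL (m H)`, `g_b`
fixed by `σ`; at a ramification point `ord g_b > -l` is divisible by `l`; so `g_b` is a polynomial. -/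

namespace Vale.Agent.P319
open Polynomial Finsupp
namespace Model
variable {K L Pt : Type} [Field K] [Field L] [Algebra K L] {Y : Model K L Pt}
  {Q : Pt} {u v : L} {D D' : Pt →₀ ℤ}

theorem t2c_fib {a : K} (h : Y.px Q ≠ some a) :
    Y.ord Q (Y.x - algebraMap K L a) + Y.H Q = 0 := by
  rcases e : Y.px Q with _ | b
  · have := ord_aeval_inf e (X_sub_C_ne_zero a)
    rw [natDegree_X_sub_C, map_sub, aeval_X, aeval_C] at this
    rw [this, H_inf e]
    simp
  · rw [H_fin (by simp [e]), add_zero]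
    exact (((val_x e).sub val_c).ord_eq (sub_ne_zero.2 fun h' => h (by rw [e, h']))).2
theorem fib_unram {a : K} (h : Y.px Q = some a) (h0 : Y.py Q ≠ 0) :
    Y.dv (Y.x - algebraMap K L a) + Y.H = Y.uE Y.l (single Q 1) := by
  ext Q'
  rw [t2b_uE_single h0, Finsupp.add_apply, dv_apply, h]
  split_ifs with e
  · have h1 : Y.py Q' ≠ 0 := fun h1 => by
      have h2 := Y.pt_eq Q'
      rw [e, ← h, ← Y.pt_eq, h1, zero_pow Y.prime.ne_zero] at h2
      exact pow_ne_zero _ h0 h2.symm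
    rw [Y.ord_x Q' a e h1, H_fin (by simp [e]), add_zero]
  · exact t2c_fib e
theorem fib_ram {a : K} (h : Y.f.IsRoot a) :
    Y.dv (Y.x - algebraMap K L a) + Y.H = single (Y.P a) (Y.l : ℤ) := by
  ext Q
  rw [Finsupp.add_apply, dv_apply]
  by_cases e : Q = Y.P a
  · rw [e, single_eq_same, Y.ord_xP _ a (px_P h) (py_P h), H_ram (py_P h), add_zero]
  · rw [single_eq_of_ne e]
    refine t2c_fib fun h1 => e (Y.pt_inj _ _ (h1.trans (px_P h).symm) ?_)
    have h2 := Y.pt_eq Q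
    rw [h1] at h2
    rw [py_P h]
    exact eq_zero_of_pow_eq_zero (h2.trans h)
theorem fib_inf (h : Y.px Q = none) : Y.H = Y.uE Y.l (single Q 1) := by
  ext Q'
  rw [t2b_uE_single (py_ne_of_inf h), t2b_H, h]
theorem dv_y : Y.dv Y.y + (Y.n1 : ℤ) • Y.H = Y.Ram := by
  ext Q
  rw [Finsupp.add_apply, dv_apply, Finsupp.smul_apply, smul_eq_mul]
  rcases e : Y.px Q with _ | a
  · rw [ord_y_of_inf e, H_inf e, Ram_unram (py_ne_of_inf e)]
    simp
  · rw [H_fin (by simp [e]), mul_zero, add_zero]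
    by_cases h : Y.py Q = 0
    · rw [ord_y_ram h, Ram_ram h]
    · rw [((val_y e).ord_eq h).2, Ram_unram h]
open Classical in
theorem Ram_eq : Y.Ram = ∑ α ∈ Y.f.roots.toFinset, single (Y.P α) 1 := by
  have hr : ∀ α ∈ Y.f.roots.toFinset, Y.f.IsRoot α := fun α h =>
    isRoot_of_mem_roots (Multiset.mem_toFinset.1 h)
  ext Q
  rw [finset_sum_apply]
  by_cases h : Y.py Q = 0
  · obtain ⟨a, ha, rfl⟩ := eq_P h
    rw [Ram_ram h, Finset.sum_eq_single a (fun b hb hab => single_eq_of_ne fun e => hab ?_)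
      (fun h => absurd (Multiset.mem_toFinset.2 ((mem_roots Y.monic.ne_zero).2 ha)) h),
      single_eq_same]
    have := px_P ha
    rw [e, px_P (hr b hb)] at this
    exact Option.some.inj this
  · rw [Ram_unram h]
    exact (Finset.sum_eq_zero fun b hb => single_eq_of_ne fun e =>
      h (by rw [e, py_P (hr b hb)])).symm
open Classical in
theorem card_roots : Y.f.roots.toFinset.card = Y.n := by
  have := Y.closed
  rw [Multiset.toFinset_card_of_nodup (nodup_roots Y.separable),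
    ← (IsAlgClosed.splits Y.f).natDegree_eq_card_roots, Y.natDegree, n]
theorem t2c_degree_x (a : K) : degree (Y.dv (Y.x - algebraMap K L a)) = 0 := by
  obtain ⟨Q, hQ⟩ := exists_pt (Y := Y) a
  have key : degree (Y.dv (Y.x - algebraMap K L a) + Y.H) = Y.l := by
    by_cases h : Y.py Q = 0
    · obtain ⟨b, hb, rfl⟩ := eq_P h
      obtain rfl : b = a := Option.some.inj ((px_P hb).symm.trans hQ)
      rw [fib_ram hb, degree_single]
    · rw [fib_unram hQ h, degree_uE, degree_single, mul_one]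
  rw [map_add, degree_H] at key
  omega
theorem t2c_ind (Y : Model K L Pt) (p : K[X] → Prop) (hC : ∀ c, c ≠ 0 → p (C c))
    (hX : ∀ a g, g ≠ 0 → p g → p ((X - C a) * g)) {g : K[X]} (hg : g ≠ 0) : p g := by
  have := Y.closed
  induction h : g.natDegree generalizing g with
  | zero =>
    rw [eq_C_of_natDegree_eq_zero h] at hg ⊢
    exact hC _ (C_ne_zero.1 hg)
  | succ n ih =>
    obtain ⟨a, ha⟩ := IsAlgClosed.exists_root g (by
      rw [degree_eq_natDegree hg, h]
      exact_mod_cast Nat.succ_ne_zero n)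
    obtain ⟨g', rfl⟩ := dvd_iff_isRoot.2 ha
    have h' := right_ne_zero_of_mul hg
    rw [natDegree_mul (X_sub_C_ne_zero a) h', natDegree_X_sub_C] at h
    exact hX a g' h' (ih h' (by omega))
theorem t2c_degree_aeval {g : K[X]} (hg : g ≠ 0) : degree (Y.dv (aeval Y.x g)) = 0 := by
  refine t2c_ind Y (fun g => degree (Y.dv (aeval Y.x g)) = 0) (fun c _ => ?_)
    (fun a g hg ih => ?_) hg
  · rw [aeval_C, dv_c, map_zero]
  · rw [map_mul, map_sub, aeval_X, aeval_C, dv_mul (Y.x_sub_ne a) (Y.aeval_ne hg), map_add,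
      t2c_degree_x, ih, add_zero]
theorem degree_dv (u : L) : degree (Y.dv u) = 0 := by
  by_cases hu : u = 0
  · have := dv_c (Y := Y) 0
    rw [map_zero] at this
    rw [hu, this, map_zero]
  obtain ⟨d, g, hd, e⟩ := Y.fixed (σ_nj_l u)
  have h4 := nj_ne (Y := Y) hu Y.l
  have h5 : g ≠ 0 := by
    rintro rfl
    exact mul_ne_zero (Y.aeval_ne hd) h4 (e.trans (map_zero _))
  have h6 := t2c_degree_aeval (Y := Y) h5
  rw [← e, dv_mul (Y.aeval_ne hd) h4, map_add, t2c_degree_aeval hd, zero_add, dv_nj hu,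
    degree_uE] at h6
  exact (mul_eq_zero.1 h6).resolve_left (by exact_mod_cast Y.prime.ne_zero)
theorem dvd_degree_of_Prin (h : D ∈ Y.Prin) : (Y.l : ℤ) ∣ degree D := by
  obtain ⟨u, -, k, rfl⟩ := mem_Prin.1 h
  rw [map_add, degree_dv, map_zsmul, degree_H, zero_add, smul_eq_mul]
  exact dvd_mul_left _ _
theorem exists_dv_of_Prin (h : D ∈ Y.Prin) (h0 : degree D = 0) : ∃ u, u ≠ 0 ∧ D = Y.dv u := by
  obtain ⟨u, hu, k, rfl⟩ := mem_Prin.1 h
  rw [map_add, degree_dv, map_zsmul, degree_H, zero_add, smul_eq_mul] at h0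
  obtain rfl := (mul_eq_zero.1 h0).resolve_right (by exact_mod_cast Y.prime.ne_zero)
  exact ⟨u, hu, by simp⟩
theorem LL_eq_bot (h : degree D < 0) : Y.LL D = ⊥ := by
  refine (Submodule.eq_bot_iff _).2 fun u hu => ?_
  by_contra h0
  have := degree_nonneg ((mem_LL_iff h0).1 hu)
  rw [map_add, degree_dv] at this
  omega
theorem const_of_dv (h : 0 ≤ Y.dv u) : ∃ c, u = algebraMap K L c := by
  have h1 : ∀ Q, Y.Ge Q 0 u := fun Q => Or.inr (by rw [← dv_apply]; exact h Q)
  obtain ⟨c, hc⟩ := (h1 Y.inf).exists_val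
  refine ⟨c, sub_eq_zero.1 ?_⟩
  by_contra h0
  have h2 : Y.dv (u - algebraMap K L c) = 0 := eq_zero_of_degree (fun Q => by
    rw [dv_apply]
    exact ((h1 Q).sub ge_c).resolve_left h0) (degree_dv _).le
  have h3 := hc.resolve_left h0
  rw [← dv_apply, h2] at h3
  simp at h3
theorem t2c_σ_pow_fix {r : L} (h : Y.σ r = r) (j : ℕ) : (Y.σ ^ j) r = r := by
  induction j with
  | zero => simp
  | succ j ih => rw [pow_succ, AlgEquiv.mul_apply, h, ih]
theorem t2c_comp (r : ℕ → L) (hr : ∀ b, Y.σ (r b) = r b) (hD : ∀ j, (Y.sE ^ j) D = D)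
    (h : ∑ b ∈ Finset.range Y.l, r b * Y.y ^ b ∈ Y.LL D) {b : ℕ} (hb : b < Y.l) :
    r b * Y.y ^ b ∈ Y.LL D := by
  have h1 : ∀ j, ∑ c ∈ Finset.range Y.l, (Y.ζ ^ c) ^ j • (r c * Y.y ^ c) ∈ Y.LL D := fun j => by
    have := (σ_pow_mem_LL j).2 h
    rw [hD, map_sum] at this
    convert this using 2 with c
    rw [map_mul, map_pow, t2c_σ_pow_fix (hr c), Y.σ_pow_y, Algebra.smul_def, pow_right_comm,
      mul_pow, map_pow]
    ring
  have h2 := sum_mem fun j (_ : j ∈ Finset.range Y.l) =>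
    (Y.LL D).smul_mem ((Y.ζ ^ b)⁻¹ ^ j) (h1 j)
  simp only [Finset.smul_sum, smul_smul, ← mul_pow] at h2
  rw [Finset.sum_comm] at h2
  simp only [← Finset.sum_smul] at h2
  have h0 := pow_ne_zero b Y.ζ_ne
  rw [Finset.sum_eq_single b (fun c hc hcb => ?_) (fun h => absurd (Finset.mem_range.2 hb) h),
    inv_mul_cancel₀ h0] at h2
  · simp only [one_pow, Finset.sum_const, Finset.card_range, nsmul_eq_mul, mul_one] at h2
    exact ((Y.LL D).smul_mem_iff Y.l_ne).1 h2
  · have h3 : (Y.ζ ^ b)⁻¹ * Y.ζ ^ c ≠ 1 := fun e => hcb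
      (Y.prim.pow_inj (Finset.mem_range.1 hc) hb ((inv_mul_eq_one₀ h0).1 e).symm)
    rw [geom_sum_eq h3, mul_pow, inv_pow, pow_right_comm, pow_right_comm _ c, Y.prim.pow_eq_one]
    simp
theorem t2c_poly {d : K[X]} (hd : d ≠ 0) {r : L} (hr : ∀ Q, Y.px Q ≠ none → Y.Ge Q 0 r) :
    ∀ g : K[X], aeval Y.x d * r = aeval Y.x g → ∃ p : K[X], r = aeval Y.x p := by
  refine t2c_ind Y (fun d => ∀ g : K[X], aeval Y.x d * r = aeval Y.x g →
    ∃ p : K[X], r = aeval Y.x p) (fun c hc g e => ?_) (fun a d _ ih g e => ?_) hd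
  · refine ⟨C c⁻¹ * g, ?_⟩
    rw [map_mul, ← e, ← mul_assoc, ← map_mul, ← map_mul, inv_mul_cancel₀ hc]
    simp
  · obtain ⟨Q, hQ⟩ := exists_pt (Y := Y) a
    obtain ⟨c, hc⟩ := (hr Q (by simp [hQ])).exists_val
    have h1 := (val_aeval hQ ((X - C a) * d)).mul hc
    rw [e] at h1
    have h2 : g.IsRoot a := by simpa using (val_aeval hQ g).unique h1
    obtain ⟨g', rfl⟩ := dvd_iff_isRoot.2 h2
    rw [map_mul, map_mul, mul_assoc] at e
    exact ih g' (mul_left_cancel₀ (Y.aeval_ne (X_sub_C_ne_zero a)) e)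
theorem t2c_deg {m b : ℕ} {p : K[X]} (h : aeval Y.x p * Y.y ^ b ∈ Y.LL ((m : ℤ) • Y.H)) :
    p = 0 ∨ p.natDegree + Y.n1 * b ≤ m := by
  refine or_iff_not_imp_left.2 fun hp => ?_
  have h1 := (h Y.inf).resolve_left (mul_ne_zero (Y.aeval_ne hp) (pow_ne_zero _ Y.y_ne))
  rw [Y.ord_mul _ _ _ (Y.aeval_ne hp) (pow_ne_zero _ Y.y_ne), ord_pow, ord_aeval_inf px_inf hp,
    ord_y_of_inf px_inf, Finsupp.smul_apply, H_inf px_inf, smul_eq_mul] at h1
  have : ((p.natDegree + Y.n1 * b : ℕ) : ℤ) ≤ m := by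
    push_cast
    linarith
  exact_mod_cast this
theorem t2c_main {m : ℕ} (hu : u ∈ Y.LL ((m : ℤ) • Y.H)) : ∃ p : ℕ → K[X],
    u = ∑ b ∈ Finset.range Y.l, aeval Y.x (p b) * Y.y ^ b ∧
      ∀ b < Y.l, p b = 0 ∨ (p b).natDegree + Y.n1 * b ≤ m := by
  obtain ⟨d, g, hd, e⟩ := Y.gen u
  have hd' := Y.aeval_ne hd
  have hr : ∀ b, Y.σ (aeval Y.x (g b) / aeval Y.x d) = aeval Y.x (g b) / aeval Y.x d :=
    fun b => by rw [map_div₀, Y.σ_aeval, Y.σ_aeval]
  have e' : u = ∑ b ∈ Finset.range Y.l, aeval Y.x (g b) / aeval Y.x d * Y.y ^ b := by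
    simp only [div_mul_eq_mul_div]
    rw [← Finset.sum_div, ← e, mul_div_cancel_left₀ _ hd']
  have h1 := fun b hb => t2c_comp _ hr (fun j => by rw [map_smul, sE_pow_H]) (e' ▸ hu) (b := b) hb
  have h2 : ∀ b, ∃ p : K[X], b < Y.l → aeval Y.x (g b) / aeval Y.x d = aeval Y.x p := fun b => by
    by_cases hb : b < Y.l
    · refine (t2c_poly hd (fun Q hQ => ?_) (g b) (mul_div_cancel₀ _ hd')).imp fun _ h _ => h
      have h3 := h1 b hb Q
      have h4 := hr b
      generalize aeval Y.x (g b) / aeval Y.x d = r at h3 h4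
      by_cases h0 : r = 0
      · exact Or.inl h0
      have h5 := h3.resolve_left (mul_ne_zero h0 (pow_ne_zero _ Y.y_ne))
      rw [Y.ord_mul _ _ _ h0 (pow_ne_zero _ Y.y_ne), ord_pow, Finsupp.smul_apply, H_fin hQ,
        smul_zero, neg_zero] at h5
      refine Or.inr ?_
      by_cases hp : Y.py Q = 0
      · obtain ⟨k, hk⟩ := dvd_ord_of_fixed hp h4
        rw [ord_y_ram hp, hk] at h5
        rw [hk]
        have h6 : (b : ℤ) < Y.l := by exact_mod_cast hb
        by_contra h7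
        have h8 : k ≤ -1 := by
          by_contra h8
          exact h7 (mul_nonneg (Int.natCast_nonneg _) (by omega))
        nlinarith
      · obtain ⟨a, ha⟩ := Option.ne_none_iff_exists'.1 hQ
        rw [((val_y ha).ord_eq hp).2] at h5
        simpa using h5
    · exact ⟨0, fun h => absurd h hb⟩
  choose p hp using h2
  refine ⟨p, e'.trans (Finset.sum_congr rfl fun b hb => by rw [hp b (Finset.mem_range.1 hb)]),
    fun b hb => t2c_deg ?_⟩
  rw [← hp b hb]
  exact h1 b hb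
theorem mem_LL_H (m : ℕ) : u ∈ Y.LL ((m : ℤ) • Y.H) ↔
    u ∈ Submodule.span K {w | ∃ a b, b < Y.l ∧ a + Y.n1 * b ≤ m ∧ w = Y.x ^ a * Y.y ^ b} := by
  constructor
  · intro hu
    obtain ⟨p, rfl, hp⟩ := t2c_main hu
    refine sum_mem fun b hb => ?_
    have hb := Finset.mem_range.1 hb
    rcases hp b hb with h | h
    · simp [h]
    · rw [aeval_eq_sum_range, Finset.sum_mul]
      refine sum_mem fun a ha => ?_
      have := Finset.mem_range.1 ha
      rw [smul_mul_assoc]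
      exact Submodule.smul_mem _ _ (Submodule.subset_span ⟨a, b, hb, by omega, rfl⟩)
  · refine fun hu => Submodule.span_le.2 ?_ hu
    rintro _ ⟨a, b, -, h, rfl⟩
    exact mono_mem_LL h
theorem fn_apply (N : ℕ) (w : ℕ → K) : Y.fn N w =
    ∑ b ∈ Finset.range Y.l, ∑ a ∈ Finset.range N, w (b * N + a) • (Y.x ^ a * Y.y ^ b) := by
  simp [fn, LinearMap.sum_apply]
/-- the coefficient of `y ^ b` -/
noncomputable def t2cP (N : ℕ) (w : ℕ → K) (b : ℕ) : K[X] :=
  ∑ a ∈ Finset.range N, monomial a (w (b * N + a))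
theorem t2c_coeff {N : ℕ} (w : ℕ → K) (b : ℕ) {a : ℕ} (ha : a < N) :
    (t2cP N w b).coeff a = w (b * N + a) := by
  simp [t2cP, finset_sum_coeff, coeff_monomial, ha]
theorem t2c_eval (N : ℕ) (w : ℕ → K) (b : ℕ) (α : K) :
    (t2cP N w b).eval α = ∑ a ∈ Finset.range N, w (b * N + a) * α ^ a := by
  simp [t2cP, eval_finset_sum]
theorem t2c_fn (N : ℕ) (w : ℕ → K) :
    Y.fn N w = ∑ b ∈ Finset.range Y.l, aeval Y.x (t2cP N w b) * Y.y ^ b := by
  rw [fn_apply]
  refine Finset.sum_congr rfl fun b _ => ?_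
  simp only [t2cP, map_sum, aeval_monomial, Finset.sum_mul, Algebra.smul_def, mul_assoc]
theorem fn_eq_zero {N : ℕ} {w : ℕ → K} : Y.fn N w = 0 ↔ ∀ k < Y.l * N, w k = 0 := by
  constructor
  · intro h k hk
    have hN : 0 < N := Nat.pos_of_ne_zero fun e => by simp [e] at hk
    have h1 := Y.indep _ ((t2c_fn N w).symm.trans h) (k / N) ((Nat.div_lt_iff_lt_mul hN).2 hk)
    have h2 := t2c_coeff w (k / N) (Nat.mod_lt k hN)
    rw [h1, coeff_zero, Nat.div_add_mod'] at h2
    exact h2.symm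
  · intro h
    rw [fn_apply]
    refine Finset.sum_eq_zero fun b hb => Finset.sum_eq_zero fun a ha => ?_
    have h1 := Finset.mem_range.1 hb
    have h2 := Finset.mem_range.1 ha
    rw [h _ (by nlinarith), zero_smul]
theorem fn_mem_LL_H {N m : ℕ} {w : ℕ → K} : Y.fn N w ∈ Y.LL ((m : ℤ) • Y.H) ↔
    ∀ b < Y.l, ∀ a < N, m < a + Y.n1 * b → w (b * N + a) = 0 := by
  constructor
  · intro h b hb a ha hm
    rw [t2c_fn] at h
    rw [← t2c_coeff w b ha]
    rcases t2c_deg (t2c_comp _ (fun b => Y.σ_aeval _) (fun j => by rw [map_smul, sE_pow_H]) h hb)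
      with h1 | h1
    · rw [h1, coeff_zero]
    · exact coeff_eq_zero_of_natDegree_lt (by omega)
  · intro h
    rw [fn_apply]
    refine sum_mem fun b hb => sum_mem fun a ha => ?_
    by_cases hm : m < a + Y.n1 * b
    · rw [h b (Finset.mem_range.1 hb) a (Finset.mem_range.1 ha) hm, zero_smul]
      exact zero_mem _
    · exact Submodule.smul_mem _ _ (mono_mem_LL (not_lt.1 hm))
theorem exists_fn {N m : ℕ} (hm : m < N) (hu : u ∈ Y.LL ((m : ℤ) • Y.H)) :
    ∃ w, u = Y.fn N w := by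
  obtain ⟨p, rfl, hp⟩ := t2c_main hu
  refine ⟨fun k => (p (k / N)).coeff (k % N), ?_⟩
  rw [t2c_fn]
  refine Finset.sum_congr rfl fun b hb => ?_
  have h1 : (p b).natDegree < N := by
    rcases hp b (Finset.mem_range.1 hb) with h | h
    · rw [h, natDegree_zero]
      omega
    · omega
  congr 2
  rw [t2cP]
  refine ((p b).as_sum_range' N h1).trans (Finset.sum_congr rfl fun a ha => ?_)
  have h2 := Finset.mem_range.1 ha
  rw [add_comm, Nat.add_mul_div_right _ _ (by omega), Nat.add_mul_mod_self_right,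
    Nat.div_eq_of_lt h2, Nat.mod_eq_of_lt h2, zero_add]
/-- the value at a ramification point -/
theorem val_fn {N : ℕ} (w : ℕ → K) {α : K} (h : Y.f.IsRoot α) :
    Y.Val (Y.P α) (Y.fn N w) (∑ a ∈ Finset.range N, w a * α ^ a) := by
  have h1 := Val.sum (S := Finset.range Y.l) fun b _ =>
    (val_aeval (px_P h) (t2cP N w b)).mul ((val_y (px_P h)).pow b)
  rw [← t2c_fn, py_P h, Finset.sum_eq_single 0 (fun b _ hb => by simp [hb])
    (fun h => absurd (Finset.mem_range.2 Y.prime.pos) h), t2c_eval] at h1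
  simpa using h1
/-- the order at a ramification point -/
theorem ge_fn {N : ℕ} (w : ℕ → K) {α : K} (h : Y.f.IsRoot α) {c : ℕ} (hc : c ≤ Y.l) :
    Y.Ge (Y.P α) c (Y.fn N w) ↔
      ∀ b < c, ∑ a ∈ Finset.range N, w (b * N + a) * α ^ a = 0 := by
  have hy : ∀ b : ℕ, Y.Ge (Y.P α) b (Y.y ^ b) := fun b =>
    Or.inr (by rw [ord_pow, ord_y_ram (py_P h), mul_one])
  have h1 : ∀ (g : K[X]) (b : ℕ), Y.Ge (Y.P α) b (aeval Y.x g * Y.y ^ b) := fun g b => by
    simpa using (val_aeval (px_P h) g).ge.mul (hy b)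
  have h2 : ∀ (g : K[X]) (b : ℕ), g.eval α = 0 → Y.Ge (Y.P α) Y.l (aeval Y.x g * Y.y ^ b) :=
    fun g b hg => by
      have h3 := val_aeval (px_P h) g
      rw [hg, val_zero_iff] at h3
      have h4 : Y.Ge (Y.P α) Y.l (aeval Y.x g) := h3.imp_right fun h3 =>
        Int.le_of_dvd (by omega) (dvd_ord_of_fixed (py_P h) (Y.σ_aeval g))
      exact (h4.mul (hy b)).mono (by omega)
  simp only [← t2c_eval]
  rw [t2c_fn]
  constructor
  · intro H b
    induction b using Nat.strong_induction_on with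
    | _ b ih =>
      intro hb
      by_contra h0
      obtain ⟨h3, h4⟩ := (val_aeval (px_P h) (t2cP N w b)).ord_eq h0
      have h5 : Y.ord (Y.P α) (aeval Y.x (t2cP N w b) * Y.y ^ b) = b := by
        rw [Y.ord_mul _ _ _ h3 (pow_ne_zero _ Y.y_ne), h4, ord_pow, ord_y_ram (py_P h)]
        simp
      rw [← Finset.add_sum_erase _ _ (Finset.mem_range.2 (hb.trans_le hc))] at H
      obtain ⟨h6, h7⟩ := ord_add_eq (mul_ne_zero h3 (pow_ne_zero b Y.y_ne))
        (Ge.sum (S := (Finset.range Y.l).erase b)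
          (g := fun b => aeval Y.x (t2cP N w b) * Y.y ^ b) fun i hi => by
          rw [h5]
          rcases lt_or_gt_of_ne (Finset.ne_of_mem_erase hi) with h6 | h6
          · exact (h2 _ i (ih i h6 (h6.trans hb))).mono (by omega)
          · exact (h1 _ i).mono (by omega))
      have h8 := H.resolve_left h6
      rw [h7, h5] at h8
      omega
  · refine fun H => Ge.sum fun b _ => ?_
    rcases lt_or_ge b c with hb | hb
    · exact (h2 _ b (H b hb)).mono (by omega)
    · exact (h1 _ b).mono (by omega)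

end Model
end Vale.Agent.P319
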