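import Vale.Agent.P319.Code
import Vale.Agent.P319.T2c

/-! F1a: arithmetic of coded functions.  A vector has `l` blocks of length `N`; block `j` is the
coefficient polynomial of `y ^ j`.  `fmul`: block `j` of the product is
`∑_{i+i'=j} u_i v_i' + f * ∑_{i+i'=j+l} u_i v_i'` (`f = cmd c ++ [rone]`), polynomial products
truncated to length `N`; by `fn_mem_LL_H` the block `u_i` has degree `≤ m₁ - n1 i`, so nothing is
lost.  `n1 = (cmd c).length / (cL c).length`. -/

namespace Vale.Agent.P319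
open Vale.Agent.Common.TreeTM Vale.Agent.P337 Finsupp

section
variable {K L Pt : Type} [Field K] [Field L] [Algebra K L] {Y : Model K L Pt} {m : ℕ} {c : Cx}
  {b : ℕ → K}
theorem Sem.n_eq (h : Sem Y m c b) : (cmd c).length = Y.n := by
  rw [← natDegree_mpol (cR c) b, h.f_eq, Y.natDegree, Model.n]
theorem Sem.n1_eq (h : Sem Y m c b) : (cmd c).length / (cL c).length = Y.n1 := by
  rw [h.n_eq, h.l_eq, Model.n, Nat.mul_div_cancel_left _ Y.prime.pos]
theorem Sem.lvM_eq (h : Sem Y m c b) : lvM c = (Y.n + 1) ^ 6 := by rw [lvM, h.n_eq]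
theorem Sem.wd_eq (h : Sem Y m c b) : (wd c).length = Y.l * (cN c).length := by
  rw [length_wd, h.l_eq]
theorem Sem.charP (h : Sem Y m c b) : CharP K (cR c).1 :=
  (CharP.charP_iff_prime_eq_zero h.prime).2 h.hom.char
theorem F1a_congr {N : ℕ} {u v : ℕ → K} (h : ∀ k < Y.l * N, u k = v k) :
    Y.fn N u = Y.fn N v := by
  rw [← sub_eq_zero, ← map_sub, Model.fn_eq_zero]
  intro k hk
  simp [h k hk]
theorem fv_congr {u v : List El}
    (h : ∀ k < Y.l * (cN c).length, vec (cR c) b u k = vec (cR c) b v k) :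
    fv Y c b u = fv Y c b v := F1a_congr h
theorem fv_nil : fv Y c b [] = 0 :=
  Model.fn_eq_zero.2 fun _ _ => vec_eq_zero _ _ (by simp)
theorem Sem.fv_vadd (h : Sem Y m c b) (u v : List El) :
    fv Y c b (vadd (cR c) (wd c) u v) = fv Y c b u + fv Y c b v := by
  rw [fv, fv, fv, ← map_add]
  exact F1a_congr fun k hk => by rw [h.hom.vadd, if_pos (h.wd_eq ▸ hk)]; rfl
theorem Sem.fv_vsmul (h : Sem Y m c b) (a : El) (v : List El) :
    fv Y c b (vsmul (cR c) (wd c) a v) = ev (cR c) b a • fv Y c b v := by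
  rw [fv, fv, ← map_smul]
  exact F1a_congr fun k hk => by rw [h.hom.vsmul, if_pos (h.wd_eq ▸ hk)]; rfl
theorem Sem.fv_vsum (h : Sem Y m c b) (W : Mx) :
    fv Y c b (vsum (cR c) (wd c) W) = (W.map (fv Y c b)).sum := by
  have : (W.map (fv Y c b)).sum = Y.fn (cN c).length (W.map (vec (cR c) b)).sum := by
    rw [map_list_sum, List.map_map]
    rfl
  rw [this, fv]
  refine F1a_congr fun k hk => ?_
  rw [h.hom.vsum, if_pos (h.wd_eq ▸ hk)]
  clear this
  induction W with
  | nil => rfl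
  | cons v W ih => simp [ih]
theorem fv_mem_Sp {W : Mx} {v : List El} (h : v ∈ W) : fv Y c b v ∈ Sp Y c b W :=
  Submodule.subset_span ⟨v, h, rfl⟩
theorem Sp_le {W : Mx} {U : Submodule K L} : Sp Y c b W ≤ U ↔ ∀ v ∈ W, fv Y c b v ∈ U := by
  rw [Sp, Submodule.span_le]
  exact ⟨fun h v hv => h ⟨v, hv, rfl⟩, by rintro h _ ⟨v, hv, rfl⟩; exact h v hv⟩
theorem Sp_eq_map (W : Mx) : Sp Y c b W = (rsp (cR c) b W).map (Y.fn (cN c).length) := by
  rw [Sp, rsp, Submodule.map_span]
  congr 1
  ext u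
  exact ⟨by rintro ⟨v, hv, rfl⟩; exact ⟨_, ⟨v, hv, rfl⟩, rfl⟩,
    by rintro ⟨_, ⟨v, hv, rfl⟩, rfl⟩; exact ⟨v, hv, rfl⟩⟩
theorem mem_Sp {W : Mx} {u : L} : u ∈ Sp Y c b W ↔
    ∃ a : ℕ → K, u = ∑ j ∈ Finset.range W.length, a j • fv Y c b (W.getD j []) := by
  constructor
  · intro h
    induction h using Submodule.span_induction with
    | mem u hu =>
      obtain ⟨v, hv, rfl⟩ := hu
      obtain ⟨j, hj, rfl⟩ := List.getElem_of_mem hv
      refine ⟨fun i => if i = j then 1 else 0, ?_⟩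
      simp [hj]
    | zero => exact ⟨0, by simp⟩
    | add u v _ _ h1 h2 =>
      obtain ⟨a, rfl⟩ := h1
      obtain ⟨a', rfl⟩ := h2
      exact ⟨a + a', by simp [add_smul, Finset.sum_add_distrib]⟩
    | smul t u _ h1 =>
      obtain ⟨a, rfl⟩ := h1
      exact ⟨t • a, by simp [Finset.smul_sum, smul_smul]⟩
  · rintro ⟨a, rfl⟩
    refine sum_mem fun j hj => Submodule.smul_mem _ _ (fv_mem_Sp ?_)
    rw [List.getD_eq_getElem _ _ (Finset.mem_range.1 hj)]
    exact List.getElem_mem _
end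

theorem F1a_div {j N k : ℕ} (hk : k < N) : (j * N + k) / N = j := by
  rw [Nat.add_comm, Nat.add_mul_div_right _ _ (by omega), Nat.div_eq_of_lt hk, Nat.zero_add]

theorem F1a_mod {j N k : ℕ} (hk : k < N) : (j * N + k) % N = k := by
  rw [Nat.add_comm, Nat.add_mul_mod_self_right, Nat.mod_eq_of_lt hk]

theorem F1a_lt {j l N k : ℕ} (hj : j < l) (hk : k < N) : j * N + k < l * N := by nlinarith

theorem F1a_rsum {K : Type} [Field K] {R : RC} {q : ℕ} {b : ℕ → K} (h : IsHom R q b) {τ : Type}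
    (w : List τ) (g : ℕ → El) :
    ev R b (rsum R ((idx w).map g)) = ∑ i ∈ Finset.range w.length, ev R b (g i) := by
  rw [h.rsum, List.map_map, idx, R1_sum_range]
  rfl

def F1apm (R : RC) (iN : List ℕ) (u v : List El) : List El :=
  (idx iN).map fun a => rsum R ((idx iN).map fun e =>
    cond (nlt a e) [] (rmul R (u.getD e []) (v.getD (a - e) [])))

def F1ablk (c : Cx) (u : List El) (i : ℕ) : List El :=
  (idx (cN c)).map fun a => u.getD (i * (cN c).length + a) []

@[fun_prop] theorem F1a_tc_pm {α : Type} [Enc α] {R : α → RC} {iN : α → List ℕ}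
    {u v : α → List El} (h1 : TC 0 R) (h2 : TC 0 iN) (h3 : TC 0 u) (h4 : TC 0 v) :
    TC 0 fun a => F1apm (R a) (iN a) (u a) (v a) := by
  unfold F1apm; fun_prop

@[fun_prop] theorem F1a_tc_blk {α : Type} [Enc α] {c : α → Cx} {i : α → ℕ}
    {u : α → List El} (h1 : TC 0 c) (h2 : TC 0 u) (h3 : TC 0 i) :
    TC 0 fun a => F1ablk (c a) (u a) (i a) := by
  unfold F1ablk; fun_prop

theorem F1a_pm {K : Type} [Field K] {R : RC} {q : ℕ} {b : ℕ → K} (h : IsHom R q b)
    {iN : List ℕ} {u v : List El} {P Q : Polynomial K}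
    (hP : ∀ e < iN.length, vec R b u e = P.coeff e) (hQ : ∀ e < iN.length, vec R b v e = Q.coeff e)
    (a : ℕ) (ha : a < iN.length) : vec R b (F1apm R iN u v) a = (P * Q).coeff a := by
  rw [vec, F1apm, R1_getD_idx, if_pos ha, F1a_rsum h, Polynomial.coeff_mul,
    Finset.Nat.sum_antidiagonal_eq_sum_range_succ_mk,
    ← Finset.sum_subset (Finset.range_subset_range.2 (show a + 1 ≤ iN.length from ha))]
  · refine Finset.sum_congr rfl fun e he => ?_
    have := Finset.mem_range.1 he
    rw [show nlt a e = false from decide_eq_false (by omega), cond_false, h.rmul,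
      ← hP e (by omega), ← hQ (a - e) (by omega)]
    rfl
  · intro e _ he
    rw [show nlt a e = true from decide_eq_true (by simpa using he), cond_true, ev_nil]

theorem F1a_fl {K : Type} [Field K] {R : RC} {q : ℕ} {b : ℕ → K} (h : IsHom R q b)
    (md : List El) (e : ℕ) : vec R b (md ++ [rone R]) e = (mpol R b md).coeff e := by
  rw [mpol, Polynomial.coeff_add, coeff_pol, Polynomial.coeff_X_pow, vec]
  rcases lt_trichotomy e md.length with he | rfl | he
  · rw [List.getD_append _ _ _ _ he, if_neg he.ne, zero_add]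
  · rw [List.getD_append_right _ _ _ _ le_rfl, List.getD_eq_default md _ le_rfl]
    simp [h.rone, ev_nil]
  · rw [List.getD_eq_default _ _ (by simp; omega), List.getD_eq_default md _ he.le, if_neg he.ne',
      zero_add]

theorem F1a_prod {K L Pt : Type} [Field K] [Field L] [Algebra K L] (Y : Model K L Pt)
    (U V : ℕ → Polynomial K) :
    (∑ i ∈ Finset.range Y.l, Polynomial.aeval Y.x (U i) * Y.y ^ i) *
      ∑ i ∈ Finset.range Y.l, Polynomial.aeval Y.x (V i) * Y.y ^ i =
    ∑ j ∈ Finset.range Y.l, Polynomial.aeval Y.x (∑ i ∈ Finset.range Y.l, ∑ i' ∈ Finset.range Y.l,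
      if i + i' = j then U i * V i' else if i + i' = j + Y.l then Y.f * (U i * V i') else 0) *
      Y.y ^ j := by
  simp only [map_sum, Finset.sum_mul, Finset.mul_sum]
  rw [Finset.sum_comm (s := Finset.range Y.l) (t := Finset.range Y.l)]
  conv_rhs => rw [Finset.sum_comm]
  refine Finset.sum_congr rfl fun i hi => ?_
  conv_rhs => rw [Finset.sum_comm]
  refine Finset.sum_congr rfl fun i' hi' => ?_
  have h1 := Finset.mem_range.1 hi
  have h2 := Finset.mem_range.1 hi'
  by_cases h : i + i' < Y.l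
  · rw [Finset.sum_eq_single (i + i') (fun j hj hne => by
      have := Finset.mem_range.1 hj
      rw [if_neg hne.symm, if_neg (by omega), map_zero, zero_mul]) (by simp [h]), if_pos rfl,
      map_mul, pow_add]
    ring
  · rw [Finset.sum_eq_single (i + i' - Y.l) (fun j hj hne => by
      have := Finset.mem_range.1 hj
      rw [if_neg (by omega), if_neg (by omega), map_zero, zero_mul]) (by simp; omega),
      if_neg (by omega), if_pos (by omega), map_mul, map_mul, ← Y.yl]
    have : Y.y ^ i * Y.y ^ i' = Y.y ^ Y.l * Y.y ^ (i + i' - Y.l) := by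
      rw [← pow_add, ← pow_add]
      congr 1
      omega
    linear_combination (Polynomial.aeval Y.x (U i) * Polynomial.aeval Y.x (V i')) * this

theorem F1a_coeff {K : Type} [Field K] {N : ℕ} (w : ℕ → K) (j : ℕ) {a : ℕ} (ha : N ≤ a) :
    (Model.t2cP N w j).coeff a = 0 := by
  rw [Model.t2cP, Polynomial.finsetSum_coeff]
  refine Finset.sum_eq_zero fun i hi => ?_
  have := Finset.mem_range.1 hi
  rw [Polynomial.coeff_monomial, if_neg (by omega)]

theorem exists_fmul : ∃ F : Cx × List El × List El → List El, TC 0 F ∧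
    (∀ c u v, ShV c (F (c, u, v))) ∧
    ∀ {K L Pt : Type} [Field K] [Field L] [Algebra K L] (Y : Model K L Pt) (m : ℕ) (c : Cx)
      (b : ℕ → K), Sem Y m c b → ∀ (u v : List El) (m₁ m₂ : ℕ), m₁ + m₂ < (cN c).length →
      fv Y c b u ∈ Y.LL ((m₁ : ℤ) • Y.H) → fv Y c b v ∈ Y.LL ((m₂ : ℤ) • Y.H) →
      fv Y c b (F (c, u, v)) = fv Y c b u * fv Y c b v := by
  refine ⟨fun a => (idx (wd a.1)).map fun k => rsum (cR a.1) ((idx (cL a.1)).map fun i =>
    rsum (cR a.1) ((idx (cL a.1)).map fun i' => cond (neq (i + i') (k / (cN a.1).length))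
      ((F1apm (cR a.1) (cN a.1) (F1ablk a.1 a.2.1 i) (F1ablk a.1 a.2.2 i')).getD
        (k % (cN a.1).length) [])
      (cond (neq (i + i') (k / (cN a.1).length + (cL a.1).length))
        ((F1apm (cR a.1) (cN a.1) (cmd a.1 ++ [rone (cR a.1)]) (F1apm (cR a.1) (cN a.1)
          (F1ablk a.1 a.2.1 i) (F1ablk a.1 a.2.2 i'))).getD (k % (cN a.1).length) []) []))),
    by fun_prop, fun c u v => R1_nmV_map _ _ _ fun _ => nm_rsum _ _, ?_⟩
  intro K L Pt _ _ _ Y m c b h u v m₁ m₂ hm hu hv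
  have blk : ∀ (u : List El) (i : ℕ), ∀ e < (cN c).length, vec (cR c) b (F1ablk c u i) e =
      (Model.t2cP (cN c).length (vec (cR c) b u) i).coeff e := by
    intro u i e he
    rw [Model.t2c_coeff _ _ he, vec, F1ablk, R1_getD_idx, if_pos he]
    rfl
  have deg : ∀ {u : List El} {m : ℕ}, fv Y c b u ∈ Y.LL ((m : ℤ) • Y.H) → ∀ i < Y.l, ∀ a,
      m < a + Y.n1 * i → (Model.t2cP (cN c).length (vec (cR c) b u) i).coeff a = 0 := by
    intro u m hu i hi a ha
    by_cases h1 : a < (cN c).length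
    · rw [Model.t2c_coeff _ _ h1]
      exact Model.fn_mem_LL_H.1 hu i hi a h1 ha
    · exact F1a_coeff _ _ (by omega)
  have deg2 : ∀ i < Y.l, ∀ i' < Y.l, ∀ a, m₁ + m₂ < a + Y.n1 * (i + i') →
      (Model.t2cP (cN c).length (vec (cR c) b u) i *
        Model.t2cP (cN c).length (vec (cR c) b v) i').coeff a = 0 := by
    intro i hi i' hi' a ha
    rw [Polynomial.coeff_mul]
    refine Finset.sum_eq_zero fun p hp => ?_
    have := Finset.HasAntidiagonal.mem_antidiagonal.1 hp
    rw [mul_add] at ha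
    by_cases h1 : m₁ < p.1 + Y.n1 * i
    · rw [deg hu i hi _ h1, zero_mul]
    · rw [deg hv i' hi' _ (by omega), mul_zero]
  rw [fv, fv, fv, Model.t2c_fn, Model.t2c_fn, Model.t2c_fn, F1a_prod]
  refine Finset.sum_congr rfl fun j hj => ?_
  have hj' := Finset.mem_range.1 hj
  congr 2
  ext a
  simp only [Polynomial.finsetSum_coeff]
  by_cases ha : a < (cN c).length
  · rw [Model.t2c_coeff _ _ ha, vec, R1_getD_idx, if_pos (h.wd_eq ▸ F1a_lt hj' ha), F1a_rsum h.hom,
      h.l_eq, F1a_div ha, F1a_mod ha]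
    refine Finset.sum_congr rfl fun i _ => ?_
    rw [F1a_rsum h.hom, h.l_eq]
    refine Finset.sum_congr rfl fun i' _ => ?_
    have e1 := F1a_pm h.hom (blk u i) (blk v i')
    have e2 := F1a_pm h.hom (fun e _ => F1a_fl h.hom (cmd c) e) e1 a ha
    rw [h.f_eq] at e2
    unfold neq
    split_ifs with h1 h2
    · rw [decide_eq_true h1, cond_true]
      exact e1 a ha
    · rw [decide_eq_false h1, decide_eq_true h2, cond_false, cond_true]
      exact e2
    · rw [decide_eq_false h1, decide_eq_false h2, cond_false, cond_false, ev_nil,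
        Polynomial.coeff_zero]
  · rw [F1a_coeff _ _ (by omega)]
    refine (Finset.sum_eq_zero fun i hi => Finset.sum_eq_zero fun i' hi' => ?_).symm
    have g := deg2 i (Finset.mem_range.1 hi) i' (Finset.mem_range.1 hi')
    split_ifs with h1 h2
    · exact g a (by omega)
    · rw [Polynomial.coeff_mul]
      refine Finset.sum_eq_zero fun p hp => ?_
      have := Finset.HasAntidiagonal.mem_antidiagonal.1 hp
      by_cases h3 : Y.l * Y.n1 < p.1
      · rw [Polynomial.coeff_eq_zero_of_natDegree_lt (Y.natDegree ▸ h3), zero_mul]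
      · rw [g p.2 (by rw [h2, mul_add, mul_comm Y.n1 Y.l]; omega), mul_zero]
    · exact Polynomial.coeff_zero _

theorem exists_fsig : ∃ F : Cx × ℕ × List El → List El, TC 0 F ∧
    (∀ c j u, ShV c (F (c, j, u))) ∧
    ∀ {K L Pt : Type} [Field K] [Field L] [Algebra K L] (Y : Model K L Pt) (m : ℕ) (c : Cx)
      (b : ℕ → K), Sem Y m c b → ∀ (j : ℕ) (u : List El),
      fv Y c b (F (c, j, u)) = (Y.σ ^ j) (fv Y c b u) := by
  refine ⟨fun a => (idx (wd a.1)).map fun k => rmul (cR a.1)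
    (rpow (cR a.1) (cz a.1) (a.2.1 * (k / (cN a.1).length))) (a.2.2.getD k []), by fun_prop,
    fun c u v => R1_nmV_map _ _ _ fun _ => nm_rmul _ _ _, ?_⟩
  intro K L Pt _ _ _ Y m c b h j u
  have hx : (Y.σ ^ j) Y.x = Y.x := by
    induction j with
    | zero => rfl
    | succ j ih => rw [pow_succ, AlgEquiv.mul_apply, Y.σ_x, ih]
  rw [fv, fv, Model.fn_apply, Model.fn_apply, map_sum]
  refine Finset.sum_congr rfl fun i hi => ?_
  rw [map_sum]
  refine Finset.sum_congr rfl fun a ha => ?_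
  have ha' := Finset.mem_range.1 ha
  rw [vec, R1_getD_idx, if_pos (h.wd_eq ▸ F1a_lt (Finset.mem_range.1 hi) ha'), h.hom.rmul,
    h.hom.rpow, h.ζ_eq, F1a_div ha', map_smul, map_mul, map_pow, map_pow, hx, Y.σ_pow_y, vec]
  simp only [Algebra.smul_def, map_mul, map_pow, mul_pow, pow_mul]
  ring

theorem exists_mono : ∃ F : Cx × ℕ × ℕ → List El, TC 0 F ∧ (∀ c i j, ShV c (F (c, i, j))) ∧
    ∀ {K L Pt : Type} [Field K] [Field L] [Algebra K L] (Y : Model K L Pt) (m : ℕ) (c : Cx)
      (b : ℕ → K), Sem Y m c b → ∀ i < (cN c).length, ∀ j < Y.l,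
      fv Y c b (F (c, i, j)) = Y.x ^ i * Y.y ^ j := by
  refine ⟨fun a => (idx (wd a.1)).map fun k => cond (neq k (a.2.2 * (cN a.1).length + a.2.1))
    (rone (cR a.1)) (rzero (cR a.1)), by fun_prop, fun c i j => R1_nmV_map _ _ _ fun k => ?_, ?_⟩
  · cases neq k (j * (cN c).length + i)
    · exact nm_rzero _
    · exact nm_rone _
  intro K L Pt _ _ _ Y m c b h i hi j hj
  have key : ∀ j' < Y.l, ∀ a < (cN c).length, vec (cR c) b ((idx (wd c)).map fun k =>
      cond (neq k (j * (cN c).length + i)) (rone (cR c)) (rzero (cR c))) (j' * (cN c).length + a) =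
      if j' = j ∧ a = i then 1 else 0 := by
    intro j' hj' a ha
    rw [vec, R1_getD_idx, if_pos (h.wd_eq ▸ F1a_lt hj' ha), neq]
    split_ifs with e
    · rw [e.1, e.2, decide_eq_true rfl, cond_true, h.hom.rone]
    · rw [decide_eq_false, cond_false, ev_rzero]
      intro e'
      exact e ⟨by rw [← F1a_div (j := j') ha, e', F1a_div hi],
        by rw [← F1a_mod (j := j') ha, e', F1a_mod hi]⟩
  rw [fv, Model.fn_apply, Finset.sum_congr rfl fun j' hj' => Finset.sum_congr rfl fun a ha => by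
    rw [key j' (Finset.mem_range.1 hj') a (Finset.mem_range.1 ha)]]
  simp [ite_and, hi, hj]

theorem exists_basis : ∃ F : Cx × ℕ → Mx, TC 0 F ∧ (∀ c k, Sh c (F (c, k))) ∧
    ∀ {K L Pt : Type} [Field K] [Field L] [Algebra K L] (Y : Model K L Pt) (m : ℕ) (c : Cx)
      (b : ℕ → K), Sem Y m c b → ∀ k < (cN c).length,
      Sp Y c b (F (c, k)) = Y.LL ((k : ℤ) • Y.H) := by
  obtain ⟨F, tF, sF, hF⟩ := exists_mono
  refine ⟨fun a => (idx (wd a.1)).map fun k => cond (nlt a.2 (k % (cN a.1).length +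
      (cmd a.1).length / (cL a.1).length * (k / (cN a.1).length))) (F (a.1, 0, 0))
      (F (a.1, k % (cN a.1).length, k / (cN a.1).length)), by fun_prop,
    fun c k => ⟨by simp [idx], fun v hv => ?_⟩, ?_⟩
  · obtain ⟨j, -, rfl⟩ := List.mem_map.1 hv
    cases nlt k _ <;> exact sF _ _ _
  intro K L Pt _ _ _ Y m c b h k hk
  refine le_antisymm (Sp_le.2 fun v hv => ?_) fun u hu => ?_
  · obtain ⟨j, hj, rfl⟩ := List.mem_map.1 hv
    rw [idx, List.mem_range, h.wd_eq] at hj
    dsimp only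
    rw [h.n1_eq, nlt]
    by_cases e : k < j % (cN c).length + Y.n1 * (j / (cN c).length)
    · rw [decide_eq_true e, cond_true, hF Y m c b h 0 (by omega) 0 Y.prime.pos]
      exact Model.mono_mem_LL (by simp)
    · rw [decide_eq_false e, cond_false, hF Y m c b h _ (Nat.mod_lt _ (by omega)) _
        (Nat.div_lt_of_lt_mul (by rwa [mul_comm]))]
      exact Model.mono_mem_LL (by omega)
  · refine Submodule.span_mono ?_ ((Model.mem_LL_H k).1 hu)
    rintro _ ⟨i, j, hj, hij, rfl⟩
    have hi : i < (cN c).length := by omega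
    refine ⟨_, List.mem_map.2 ⟨j * (cN c).length + i, by
      rw [idx, List.mem_range, h.wd_eq]; exact F1a_lt hj hi, rfl⟩, ?_⟩
    rw [h.n1_eq, F1a_div hi, F1a_mod hi, nlt, decide_eq_false (by omega), cond_false,
      hF Y m c b h i hi j hj]

end Vale.Agent.P319
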