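import Vale.Agent.P319.F1a
import Vale.Agent.P319.A1

/-! F1b: linear algebra on coded function spaces (A1 applied to the rows cut to the width `wd c`,
e.g. by `vsmul (cR c) (wd c) (rone _)`; on such vectors `fn` is injective, `fn_eq_zero`). -/

namespace Vale.Agent.P319
open Vale.Agent.Common.TreeTM Vale.Agent.P337 Finsupp

/-- cutting to the standard width -/
def F1bcut (c : Cx) (W : Mx) : Mx := W.map (vsmul (cR c) (wd c) (rone (cR c)))

@[fun_prop] theorem F1b_tc {α : Type} [Enc α] {c : α → Cx} {W : α → Mx} (h : TC 0 c)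
    (h' : TC 0 W) : TC 0 fun a => F1bcut (c a) (W a) := by
  unfold F1bcut; fun_prop

section
variable {K L Pt : Type} [Field K] [Field L] [Algebra K L] {Y : Model K L Pt} {m : ℕ} {c : Cx}
  {b : ℕ → K}

theorem F1b_fv (h : Sem Y m c b) (v : List El) :
    fv Y c b (vsmul (cR c) (wd c) (rone (cR c)) v) = fv Y c b v := by
  rw [h.fv_vsmul, h.hom.rone, one_smul]

theorem F1b_Sp (h : Sem Y m c b) (W : Mx) : Sp Y c b (F1bcut c W) = Sp Y c b W := by
  refine le_antisymm (Sp_le.2 fun v hv => ?_) (Sp_le.2 fun v hv => ?_)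
  · obtain ⟨v, hv', rfl⟩ := List.mem_map.1 hv
    rw [F1b_fv h]
    exact fv_mem_Sp hv'
  · rw [← F1b_fv h]
    exact fv_mem_Sp (List.mem_map_of_mem hv)

open Classical in
theorem F1b_nz (h : Sem Y m c b) (v : List El) :
    ev (cR c) b (nzV (cR c) (cq c) (vsmul (cR c) (wd c) (rone (cR c)) v)) =
      if fv Y c b v = 0 then 0 else 1 := by
  rw [h.hom.nzV]
  refine if_congr ?_ rfl rfl
  rw [← F1b_fv h, fv, Model.fn_eq_zero]
  refine ⟨fun e k _ => congrFun e k, fun e => funext fun k => ?_⟩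
  by_cases hk : k < Y.l * (cN c).length
  · exact e k hk
  · exact vec_eq_zero _ _ (by rw [(nmV_vsmul _ _ _ _).1, h.wd_eq]; omega)

theorem F1b_bot {W : Mx} : Sp Y c b W = ⊥ ↔ ∀ v ∈ W, fv Y c b v = 0 := by
  rw [← le_bot_iff, Sp_le]
  rfl
end

/-- splitting a list at the first element with a property -/
theorem exists_first_split {α : Type} (p : α → Prop) (l : List α) (h : ∃ a ∈ l, p a) :
    ∃ l₁ a l₂, l = l₁ ++ a :: l₂ ∧ p a ∧ ∀ t ∈ l₁, ¬p t := by
  induction l with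
  | nil => simp at h
  | cons x l ih =>
    by_cases hx : p x
    · exact ⟨[], x, l, rfl, hx, by simp⟩
    · obtain ⟨l₁, a, l₂, rfl, h1, h2⟩ := ih (by simpa [hx] using h)
      exact ⟨x :: l₁, a, l₂, rfl, h1, by simpa [hx] using h2⟩

theorem exists_fpiv : ∃ F : Cx × Mx → Mx, TC 0 F ∧ (∀ c W, Sh c (F (c, W))) ∧
    ∀ {K L Pt : Type} [Field K] [Field L] [Algebra K L] (Y : Model K L Pt) (m : ℕ) (c : Cx)
      (b : ℕ → K), Sem Y m c b → ∀ W : Mx, Sp Y c b (F (c, W)) = Sp Y c b W := by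
  obtain ⟨F, tF, sF, hF⟩ := exists_piv
  refine ⟨fun a => F (cR a.1, cq a.1, wd a.1, F1bcut a.1 a.2), by fun_prop,
    fun _ _ => sF _ _ _ _, ?_⟩
  intro K L Pt _ _ _ Y m c b h W
  rw [Sp_eq_map, hF _ _ b h.hom _ _ (fun v hv => by
    obtain ⟨v, -, rfl⟩ := List.mem_map.1 hv
    exact (nmV_vsmul _ _ _ _).1.le), ← Sp_eq_map, F1b_Sp h]

open Classical in
theorem exists_nzS : ∃ F : Cx × Mx → El, TC 0 F ∧ (∀ c W, Nm (cR c) (F (c, W))) ∧
    ∀ {K L Pt : Type} [Field K] [Field L] [Algebra K L] (Y : Model K L Pt) (m : ℕ) (c : Cx)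
      (b : ℕ → K), Sem Y m c b → ∀ W : Mx,
      ev (cR c) b (F (c, W)) = if Sp Y c b W = ⊥ then 0 else 1 := by
  refine ⟨fun a => nzV (cR a.1) (cq a.1) (a.2.map fun v =>
    nzV (cR a.1) (cq a.1) (vsmul (cR a.1) (wd a.1) (rone (cR a.1)) v)), by fun_prop,
    fun _ _ => nm_nzV _ _ _, ?_⟩
  intro K L Pt _ _ _ Y m c b h W
  rw [h.hom.nzV]
  refine if_congr ?_ rfl rfl
  rw [F1b_bot]
  refine ⟨fun e v hv => ?_, fun e => funext fun j => ?_⟩
  · obtain ⟨j, hj, rfl⟩ := List.getElem_of_mem hv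
    have := congrFun e j
    rw [vec, List.getD_eq_getElem _ _ (by simpa using hj), List.getElem_map, F1b_nz h] at this
    by_contra e'
    simp [e'] at this
  · by_cases hj : j < W.length
    · rw [vec, List.getD_eq_getElem _ _ (by simpa using hj), List.getElem_map, F1b_nz h,
        if_pos (e _ (List.getElem_mem hj))]
      rfl
    · exact vec_eq_zero _ _ (by simpa using hj)

theorem exists_first : ∃ F : Cx × Mx → List El, TC 0 F ∧ (∀ c W, ShV c (F (c, W))) ∧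
    ∀ {K L Pt : Type} [Field K] [Field L] [Algebra K L] (Y : Model K L Pt) (m : ℕ) (c : Cx)
      (b : ℕ → K), Sem Y m c b → ∀ W : Mx, Sp Y c b W ≠ ⊥ →
      fv Y c b (F (c, W)) ∈ Sp Y c b W ∧ fv Y c b (F (c, W)) ≠ 0 := by
  obtain ⟨F, tF, sF, hF⟩ := exists_sel
  refine ⟨fun a => vsmul (cR a.1) (wd a.1) (rone (cR a.1)) ((F (cR a.1, cq a.1, [0], wd a.1,
    a.2.map fun v => (nzV (cR a.1) (cq a.1) (vsmul (cR a.1) (wd a.1) (rone (cR a.1)) v),
      [v]))).getD 0 []), by fun_prop, fun _ _ => nmV_vsmul _ _ _ _, ?_⟩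
  intro K L Pt _ _ _ Y m c b h W hW
  rw [Ne, F1b_bot] at hW
  push Not at hW
  obtain ⟨l₁, v, l₂, rfl, hv, h1⟩ := exists_first_split (fun v => fv Y c b v ≠ 0) W hW
  have := hF (cR c) (cq c) b h.hom [0] (wd c) (l₁.map fun v => (nzV (cR c) (cq c)
    (vsmul (cR c) (wd c) (rone (cR c)) v), [v])) (nzV (cR c) (cq c)
    (vsmul (cR c) (wd c) (rone (cR c)) v)) [v] (l₂.map fun v => (nzV (cR c) (cq c)
    (vsmul (cR c) (wd c) (rone (cR c)) v), [v])) (fun t ht => by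
      obtain ⟨v', hv', rfl⟩ := List.mem_map.1 ht
      rw [F1b_nz h, if_pos (not_not.1 (h1 v' hv'))])
    (by rw [F1b_nz h, if_neg hv]; exact one_ne_zero) 0 (by simp)
  rw [F1b_fv h, List.map_append, List.map_cons,
    fv_congr (v := v) fun k hk => this k (h.wd_eq ▸ hk)]
  exact ⟨fv_mem_Sp (by simp), hv⟩

/-- selection of the first matrix with nonzero tag, `h.length` rows -/
theorem exists_selS : ∃ F : Cx × List ℕ × List (El × Mx) → Mx, TC 0 F ∧
    (∀ c h l, NmL (cR c) h.length (wd c).length (F (c, h, l))) ∧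
    ∀ {K L Pt : Type} [Field K] [Field L] [Algebra K L] (Y : Model K L Pt) (m : ℕ) (c : Cx)
      (b : ℕ → K), Sem Y m c b → ∀ (h : List ℕ) (l₁ : List (El × Mx)) (a : El) (W : Mx)
      (l₂ : List (El × Mx)), (∀ t ∈ l₁, ev (cR c) b t.1 = 0) → ev (cR c) b a ≠ 0 →
      W.length = h.length →
      (∀ j, fv Y c b ((F (c, h, l₁ ++ (a, W) :: l₂)).getD j []) = fv Y c b (W.getD j [])) ∧
      Sp Y c b (F (c, h, l₁ ++ (a, W) :: l₂)) = Sp Y c b W := by
  obtain ⟨F, tF, sF, hF⟩ := exists_sel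
  refine ⟨fun a => F (cR a.1, cq a.1, a.2.1, wd a.1, a.2.2), by fun_prop,
    fun _ _ _ => sF _ _ _ _ _, ?_⟩
  intro K L Pt _ _ _ Y m c b h w l₁ a W l₂ h1 h2 h3
  have h4 := (sF (cR c) (cq c) w (wd c) (l₁ ++ (a, W) :: l₂)).1
  have key : ∀ j, fv Y c b ((F (cR c, cq c, w, wd c, l₁ ++ (a, W) :: l₂)).getD j []) =
      fv Y c b (W.getD j []) := by
    intro j
    by_cases hj : j < w.length
    · exact fv_congr fun k hk =>
        hF (cR c) (cq c) b h.hom w (wd c) l₁ a W l₂ h1 h2 j hj k (h.wd_eq ▸ hk)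
    · rw [List.getD_eq_default _ _ (by omega), List.getD_eq_default _ _ (by omega)]
  refine ⟨key, ?_⟩
  ext u
  simp only [mem_Sp, key, h3, h4]

/-- the moment curve -/
theorem exists_mom : ∃ F : Cx × ℕ × Mx → List El, TC 0 F ∧ (∀ c t W, ShV c (F (c, t, W))) ∧
    ∀ {K L Pt : Type} [Field K] [Field L] [Algebra K L] (Y : Model K L Pt) (m : ℕ) (c : Cx)
      (b : ℕ → K), Sem Y m c b → ∀ (t : ℕ) (W : Mx), fv Y c b (F (c, t, W)) =
      ∑ j ∈ Finset.range W.length, (t : K) ^ j • fv Y c b (W.getD j []) := by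
  refine ⟨fun a => vsum (cR a.1) (wd a.1) ((idx a.2.2).map fun j => vsmul (cR a.1) (wd a.1)
    (rpow (cR a.1) (rcst (cR a.1) a.2.1) j) (a.2.2.getD j [])), by fun_prop,
    fun _ _ _ => nmV_vsum _ _ _, ?_⟩
  intro K L Pt _ _ _ Y m c b h t W
  rw [h.fv_vsum, List.map_map, idx, R1_sum_range]
  exact Finset.sum_congr rfl fun j _ => by
    rw [Function.comp, h.fv_vsmul, h.hom.rpow, h.hom.rcst]

end Vale.Agent.P319
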