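import Vale.Agent.P319.F1a
import Vale.Agent.P319.Mom
import Vale.Agent.P319.Tour

/-! F1c: base change, Frobenius invariance, values at the ramification points.
`allnz`: in `A = cA c` let `e = nzV A q l` (value `1` at `α` iff some entry is nonzero); the tag is
`1 - nzV (cR c) q (slc (e - 1))`: a polynomial of degree `< n` vanishing at the `n` roots of `f`
(`card_roots`) is zero.  `constA`: the same argument for `slc a - κ`. -/

namespace Vale.Agent.P319
open Vale.Agent.Common.TreeTM Vale.Agent.P337 Finsupp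

section
variable {K L Pt : Type} [Field K] [Field L] [Algebra K L] {Y : Model K L Pt} {m : ℕ} {c : Cx}
  {b : ℕ → K} {α : K}
theorem Sem.root_fix (h : Sem Y m c b) (hα : Y.f.IsRoot α) : α ^ cq c = α := by
  have : ∀ j, α ^ Y.q0 ^ j = α := by
    intro j
    induction j with
    | zero => simp
    | succ j ih => rw [pow_succ, pow_mul, ih, Y.root_fix α hα]
  rw [h.qm, this]
theorem Sem.homA (h : Sem Y m c b) (hα : Y.f.IsRoot α) :
    IsHom (cA c) (cq c) (bq (cmd c) b α) := by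
  obtain ⟨k, hk⟩ := h.qp
  exact h.hom.quot h.prime (k := k * m) (by rw [h.qm, hk, pow_mul]) (h.f_eq ▸ hα) (h.root_fix hα)
theorem Sem.lift (h : Sem Y m c b) (hα : Y.f.IsRoot α) :
    Sem Y m (lift c) (bq (cmd c) b α) := by
  have hα' : (mpol (cR c) b (cmd c)).IsRoot α := h.f_eq ▸ hα
  have e := h.hom.emb hα' (cη c)
  exact ⟨h.homA hα, h.prime, h.qp, h.qm, h.m_pos, (Tour_mpol h.hom hα').trans h.f_eq,
    (h.hom.emb hα' _).trans h.ζ_eq, h.l_eq, e.trans_ne h.η_ne,
    (congrArg (· ^ ((cq c - 1) / Y.l)) e).trans_ne h.η_non, h.dvd, h.N_ge, h.p_gt⟩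
theorem Sem.evA_emb (h : Sem Y m c b) (hα : Y.f.IsRoot α) (a : El) :
    evA c b α (emb (cR c) (cmd c) a) = ev (cR c) b a := h.hom.emb (h.f_eq ▸ hα) a
theorem Sem.evA_gen (h : Sem Y m c b) (hα : Y.f.IsRoot α) :
    evA c b α (gen (cR c) (cmd c)) = α := h.hom.gen (h.f_eq ▸ hα)
theorem Sem.fv_emb (h : Sem Y m c b) (hα : Y.f.IsRoot α) (u : List El) :
    fv Y (Vale.Agent.P319.lift c) (bq (cmd c) b α) (u.map (emb (cR c) (cmd c))) = fv Y c b u := by
  refine congrArg (Y.fn (cN c).length) (funext fun k => ?_)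
  by_cases hk : k < u.length
  · rw [vec, vec, List.getD_eq_getElem _ _ (by simpa using hk), List.getD_eq_getElem _ _ hk,
      List.getElem_map]
    exact h.evA_emb hα _
  · rw [vec_eq_zero _ _ (by simpa using hk), vec_eq_zero _ _ (by simpa using hk)]
theorem Sem.val_atP (h : Sem Y m c b) (hα : Y.f.IsRoot α) (u : List El) :
    Y.Val (Y.P α) (fv Y c b u) (evA c b α (atP c u)) := by
  have e : evA c b α (atP c u) =
      ∑ a ∈ Finset.range (cN c).length, vec (cR c) b u a * α ^ a := by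
    rw [evA, cA, atP, h.hom.atT (h.f_eq ▸ hα), A3_eval_pol,
      ← Finset.sum_subset (Finset.range_subset_range.2 (List.length_take_le (cN c).length u))]
    · refine Finset.sum_congr rfl fun a ha => ?_
      have ha' := Finset.mem_range.1 ha
      rw [List.getD_eq_getElem _ _ ha', List.getElem_take, vec, List.getD_eq_getElem]
    · intro a h1 h2
      rw [Finset.mem_range] at h1 h2
      rw [List.length_take] at h2
      rw [vec_eq_zero _ _ (by omega), zero_mul]
  rw [e]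
  exact Model.val_fn _ hα
theorem Sem.Φ_fv (h : Sem Y m c b) (u : List El) : Y.Φ^[m] (fv Y c b u) = fv Y c b u := by
  have key : ∀ j (w : ℕ → K), Y.Φ^[j] (Y.fn (cN c).length w) =
      Y.fn (cN c).length fun k => w k ^ Y.q0 ^ j := by
    intro j w
    induction j with
    | zero => simp
    | succ j ih =>
      rw [Function.iterate_succ_apply', ih]
      simp only [Model.fn_apply, map_sum, Algebra.smul_def, map_mul, Y.Φ_c, pow_succ, pow_mul]
      simp only [map_pow, Y.Φ_x, Y.Φ_y]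
  rw [fv, key, ← h.qm]
  exact congrArg _ (funext fun k => h.hom.fix _)
theorem Rep.bpf {W : Mx} {Z : Pt →₀ ℤ} (h : Rep Y c b W Z) (hs : Small Y Z) :
    Y.Bpf (Sp Y c b W) ((((Y.n + 1) ^ 6 : ℕ) : ℤ) • Y.H - Z) := by
  rw [h.2]
  refine Model.bpf_small h.1 ?_
  have h1 : (Y.n1 : ℤ) ≤ (Y.n + 1 : ℕ) := by exact_mod_cast Y.n1_le_n.trans (Nat.le_succ _)
  calc _ ≤ ((Y.n + 1 : ℕ) : ℤ) * (((Y.n + 1) ^ 5 : ℕ) : ℤ) :=
        mul_le_mul h1 hs (Model.degree_nonneg h.1) (by positivity)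
    _ = _ := by push_cast; ring
theorem Rep.φE_pow (hc : Sem Y m c b) {W : Mx} {Z : Pt →₀ ℤ} (h : Rep Y c b W Z)
    (hs : Small Y Z) : (Y.φE ^ m) Z = Z := by
  have hB := h.bpf hs
  have hΦ : ∀ u ∈ Sp Y c b W, Y.Φ^[m] u ∈ Sp Y c b W := by
    intro u hu
    induction hu using Submodule.span_induction with
    | mem u hu =>
      obtain ⟨v, hv, rfl⟩ := hu
      rw [hc.Φ_fv]
      exact fv_mem_Sp hv
    | zero => rw [iterate_map_zero]; exact zero_mem _
    | add u v _ _ h1 h2 => rw [iterate_map_add]; exact add_mem h1 h2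
    | smul a u _ h1 =>
      have : ∀ j, ∃ a', Y.Φ^[j] (algebraMap K L a) = algebraMap K L a' := by
        intro j
        induction j with
        | zero => exact ⟨a, rfl⟩
        | succ j ih =>
          obtain ⟨a', ih⟩ := ih
          exact ⟨_, by rw [Function.iterate_succ_apply', ih, Y.Φ_c]⟩
      obtain ⟨a', ha⟩ := this m
      rw [Algebra.smul_def, iterate_map_mul, ha, ← Algebra.smul_def]
      exact Submodule.smul_mem _ _ h1
  have h1 : 0 ≤ (Y.φE ^ m) Z - Z := by
    intro Q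
    obtain ⟨Q, rfl⟩ := (Y.φ ^ m).surjective Q
    obtain ⟨u, hu, h0, h1⟩ := hB.2 Q
    have h2 := (hB.1 (hΦ u hu) ((Y.φ ^ m) Q)).resolve_left
      (by rwa [Model.t2b_Φ_eq_zero])
    have h3 := Model.φE_pow_apply (Y := Y) m Y.H Q
    rw [Model.φE_pow_H] at h3
    rw [Model.t2b_ord_Φ, h1, Finsupp.sub_apply, Finsupp.sub_apply, Finsupp.smul_apply,
      Finsupp.smul_apply, h3] at h2
    rw [Finsupp.sub_apply, Model.φE_pow_apply, Finsupp.coe_zero, Pi.zero_apply]
    omega
  exact sub_eq_zero.1 (Model.eq_zero_of_degree h1 (by rw [map_sub, Model.degree_φE_pow, sub_self]))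
theorem Rep.avoid_iff (hc : Sem Y m c b) {W : Mx} {Z : Pt →₀ ℤ} (h : Rep Y c b W Z)
    (hs : Small Y Z) :
    Y.Avoid Z ↔ ∀ α, Y.f.IsRoot α → ∃ u ∈ W, evA c b α (atP c u) ≠ 0 := by
  have hB := h.bpf hs
  have hD : ∀ α, Y.f.IsRoot α →
      ((((Y.n + 1) ^ 6 : ℕ) : ℤ) • Y.H - Z) (Y.P α) = -Z (Y.P α) := fun α hα => by
    rw [Finsupp.sub_apply, Finsupp.smul_apply, Model.H_ram (Model.py_P hα)]
    simp
  constructor
  · intro hA α hα
    obtain ⟨j, hj, h1⟩ := mom_row hB (Y.P α)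
    rw [List.getD_eq_getElem _ _ hj] at h1
    obtain ⟨h2, h3⟩ := mom_exact (hB.1 (fv_mem_Sp (List.getElem_mem hj))) h1
    exact ⟨_, List.getElem_mem hj, (hc.val_atP hα _).ne_zero h2
      (by rw [h3, hD α hα, hA _ (Model.py_P hα)]; rfl)⟩
  · intro h1 Q hQ
    obtain ⟨α, hα, rfl⟩ := Model.eq_P hQ
    obtain ⟨u, hu, h2⟩ := h1 α hα
    obtain ⟨h3, h4⟩ := (hc.val_atP hα u).ord_eq h2
    have h5 := (hB.1 (fv_mem_Sp hu) (Y.P α)).resolve_left h3
    have h6 : 0 ≤ Z (Y.P α) := h.1 _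
    rw [hD α hα, h4] at h5
    omega
theorem F1c_poly {g : Polynomial K} (hg : g.degree < Y.n)
    (h : ∀ α, Y.f.IsRoot α → g.eval α = 0) : g = 0 := by
  classical
  exact Polynomial.eq_zero_of_degree_lt_of_eval_finset_eq_zero Y.f.roots.toFinset
    (by rwa [Model.card_roots]) fun α hα => h α (mem_roots_iff.1 hα)
theorem F1c_deg (h : Sem Y m c b) (a : El) :
    (pol (cR c) b (slc (cR c) (cmd c) a)).degree < Y.n := by
  have := A3_degree_pol (cR c) b (slc (cR c) (cmd c) a)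
  rwa [length_slc, h.n_eq] at this
/-- an element of `R[T] / f` vanishing at all roots has zero coefficients -/
theorem Sem.slc_eq_zero (h : Sem Y m c b) {a : El} (ha : ∀ α, Y.f.IsRoot α → evA c b α a = 0) :
    vec (cR c) b (slc (cR c) (cmd c) a) = 0 := by
  have := F1c_poly (F1c_deg h a) fun α hα => (ev_quot _ _ _ _ _).symm.trans (ha α hα)
  funext k
  rw [vec, ← coeff_pol, this]
  rfl
theorem Sem.constA (h : Sem Y m c b) {a : El} {κ : K}
    (ha : ∀ α, Y.f.IsRoot α → evA c b α a = κ) :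
    ev (cR c) b ((slc (cR c) (cmd c) a).getD 0 []) = κ := by
  have hn : 0 < Y.n := Y.prime.pos.trans_le Y.l_le_n
  have := F1c_poly (Y := Y) (g := pol (cR c) b (slc (cR c) (cmd c) a) - Polynomial.C κ)
    ((Polynomial.degree_sub_le _ _).trans_lt (max_lt (F1c_deg h a)
      (Polynomial.degree_C_le.trans_lt (by exact_mod_cast hn)))) fun α hα => by
      rw [Polynomial.eval_sub, Polynomial.eval_C, ← ev_quot, sub_eq_zero]
      exact ha α hα
  rw [← coeff_pol, sub_eq_zero.1 this, Polynomial.coeff_C_zero]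
end

open Classical in
theorem exists_allnz : ∃ F : Cx × List El → El, TC 0 F ∧ (∀ c l, Nm (cR c) (F (c, l))) ∧
    ∀ {K L Pt : Type} [Field K] [Field L] [Algebra K L] (Y : Model K L Pt) (m : ℕ) (c : Cx)
      (b : ℕ → K), Sem Y m c b → ∀ l : List El, ev (cR c) b (F (c, l)) =
      if ∀ α, Y.f.IsRoot α → ∃ a ∈ l, evA c b α a ≠ 0 then 1 else 0 := by
  refine ⟨fun a => rsub (cR a.1) (rone (cR a.1)) (nzV (cR a.1) (cq a.1) (slc (cR a.1) (cmd a.1)
    (rsub (cA a.1) (nzV (cA a.1) (cq a.1) a.2) (rone (cA a.1))))), by fun_prop,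
    fun _ _ => nm_rsub _ _ _, ?_⟩
  intro K L Pt _ _ _ Y m c b h l
  have key : ∀ α, Y.f.IsRoot α → (evA c b α (rsub (cA c) (nzV (cA c) (cq c) l) (rone (cA c))) = 0 ↔
      ∃ a ∈ l, evA c b α a ≠ 0) := by
    intro α hα
    rw [evA, (h.homA hα).rsub, (h.homA hα).rone, (h.homA hα).nzV]
    split_ifs with e
    · refine ⟨fun e' => by simp at e', ?_⟩
      rintro ⟨a, ha, h1⟩
      obtain ⟨j, hj, rfl⟩ := List.getElem_of_mem ha
      have := congrFun e j
      rw [vec, List.getD_eq_getElem _ _ hj] at this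
      exact absurd this h1
    · refine ⟨fun _ => ?_, fun _ => sub_self _⟩
      by_contra hc
      push Not at hc
      refine e (funext fun j => ?_)
      by_cases hj : j < l.length
      · rw [vec, List.getD_eq_getElem _ _ hj]
        exact hc _ (List.getElem_mem hj)
      · exact vec_eq_zero _ _ (by omega)
  rw [h.hom.rsub, h.hom.rone, h.hom.nzV]
  by_cases e : ∀ α, Y.f.IsRoot α → ∃ a ∈ l, evA c b α a ≠ 0
  · rw [if_pos e, if_pos (h.slc_eq_zero fun α hα => (key α hα).2 (e α hα)), sub_zero]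
  · rw [if_neg e, if_neg, sub_self]
    intro e'
    refine e fun α hα => (key α hα).1 ?_
    rw [evA, cA, ev_quot, A3_eval_pol]
    exact Finset.sum_eq_zero fun k _ => mul_eq_zero_of_left (congrFun e' k) _

end Vale.Agent.P319
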