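import Vale.Agent.P319.PA2

/-! Fac: complete factorization from a divisor-finding procedure (worklist). -/

namespace Vale.Agent.P319
open Polynomial Vale.Agent.Common.TreeTM Vale.Agent.P337

noncomputable def Fac_one (P : Nat.Primes) (h d : List ℕ) : List (List ℕ) :=
  cond (nlt 0 (pdeg P d) && nlt (pdeg P d) (pdeg P h) && pz P (pmod P h d))
    [pmon P d, pdiv P h (pmon P d)] [h]

theorem Fac_one_spec (P : Nat.Primes) (q : (ZMod P)[X]) (d : List ℕ) :
    (Fac_one P (cf q) d = [cf q] ∧ ¬ (0 < (tp P d).natDegree ∧ (tp P d).natDegree < q.natDegree ∧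
      tp P d ∣ q)) ∨ ∃ a b : (ZMod P)[X], Fac_one P (cf q) d = [cf a, cf b] ∧ a * b = q ∧ a.Monic ∧
      0 < a.natDegree ∧ 0 < b.natDegree ∧ a.natDegree + b.natDegree = q.natDegree := by
  by_cases h : 0 < (tp P d).natDegree ∧ (tp P d).natDegree < q.natDegree ∧ tp P d ∣ q
  · right
    obtain ⟨h1, h2, h3⟩ := h
    have h0 : tp P d ≠ 0 := by rintro h; simp [h] at h1
    have hq : q ≠ 0 := by rintro rfl; simp at h2
    have h4 : tp P d * C (tp P d).leadingCoeff⁻¹ ∣ q := (IsUnit.mul_right_dvd (isUnit_C.2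
      (IsUnit.mk0 _ (inv_ne_zero (leadingCoeff_ne_zero.2 h0))))).2 h3
    have hm := monic_mul_leadingCoeff_inv h0
    have h5 := EuclideanDomain.mul_div_cancel' hm.ne_zero h4
    have h6 := natDegree_mul hm.ne_zero (right_ne_zero_of_mul (h5.symm ▸ hq))
    rw [h5, natDegree_mul_leadingCoeff_inv _ h0] at h6
    refine ⟨_, _, ?_, h5, hm, ?_, by omega, ?_⟩
    · simp [Fac_one, nlt, pdeg, pz, pmod, pmon, pdiv, h1, h2, h3]
    all_goals rw [natDegree_mul_leadingCoeff_inv _ h0]; omega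
  · refine Or.inl ⟨?_, h⟩
    have : (nlt 0 (pdeg P d) && nlt (pdeg P d) (pdeg P (cf q)) && pz P (pmod P (cf q) d)) =
        false := by
      by_contra hc
      rw [Bool.not_eq_false, Bool.and_eq_true, Bool.and_eq_true, nlt, nlt, pz, decide_eq_true_eq,
        decide_eq_true_eq, decide_eq_true_eq, pdeg, pdeg, pmod, tp_cf, tp_cf,
        EuclideanDomain.mod_eq_zero] at hc
      exact h ⟨hc.1.1, hc.1.2, hc.2⟩
    rw [Fac_one, this]
    rfl

theorem Fac_step (P : Nat.Primes) (δ : List ℕ → List ℕ) (qs : List (ZMod P)[X])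
    (h : ∀ q ∈ qs, 0 < q.natDegree) : ∃ rs : List (ZMod P)[X],
    ((qs.map cf).flatMap fun c => Fac_one P c (δ c)) = rs.map cf ∧ rs.prod = qs.prod ∧
      (rs.map natDegree).sum = (qs.map natDegree).sum ∧ (∀ r ∈ rs, 0 < r.natDegree) ∧
      ∀ r ∈ rs, ∃ q ∈ qs, (q.Monic → r.Monic) ∧ ((r.natDegree < q.natDegree ∧ r ∣ q) ∨ (r = q ∧
        ¬ (0 < (tp P (δ (cf q))).natDegree ∧ (tp P (δ (cf q))).natDegree < q.natDegree ∧
          tp P (δ (cf q)) ∣ q))) := by
  induction qs with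
  | nil => exact ⟨[], by simp⟩
  | cons q qs ih =>
    obtain ⟨rs, h1, h2, h3, h4, h5⟩ := ih fun a ha => h a (List.mem_cons_of_mem _ ha)
    have h6 : ∀ r ∈ rs, ∃ q' ∈ q :: qs, _ := fun r hr =>
      (h5 r hr).imp fun q' hq' => ⟨List.mem_cons_of_mem _ hq'.1, hq'.2⟩
    rw [List.map_cons, List.flatMap_cons, h1]
    rcases Fac_one_spec P q (δ (cf q)) with ⟨e, hn⟩ | ⟨a, b, e, rfl, e1, e2, e3, e4⟩
    · refine ⟨q :: rs, by simp [e], by simp [h2], by simp [h3], ?_, ?_⟩
      · exact List.forall_mem_cons.2 ⟨h q List.mem_cons_self, h4⟩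
      · exact List.forall_mem_cons.2 ⟨⟨q, List.mem_cons_self, id, Or.inr ⟨rfl, hn⟩⟩, h6⟩
    · refine ⟨a :: b :: rs, by simp [e], by simp [h2, mul_assoc], by simp [h3, ← e4, add_assoc],
        ?_, ?_⟩
      · exact List.forall_mem_cons.2 ⟨e2, List.forall_mem_cons.2 ⟨e3, h4⟩⟩
      · exact List.forall_mem_cons.2 ⟨⟨_, List.mem_cons_self, fun _ => e1,
          Or.inl ⟨by omega, dvd_mul_right _ _⟩⟩, List.forall_mem_cons.2 ⟨⟨_, List.mem_cons_self,
            e1.of_mul_monic_left, Or.inl ⟨by omega, dvd_mul_left _ _⟩⟩, h6⟩⟩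

theorem Fac_len {P : ℕ} (qs : List (ZMod P)[X]) (h : ∀ q ∈ qs, 0 < q.natDegree) :
    qs.length ≤ (qs.map natDegree).sum := by
  induction qs with
  | nil => simp
  | cons q qs ih =>
    have := h q List.mem_cons_self
    have := ih fun a ha => h a (List.mem_cons_of_mem _ ha)
    simp only [List.length_cons, List.map_cons, List.sum_cons]
    omega

noncomputable def Fac_I (x : Nat.Primes × List ℕ × Tab) : List (List ℕ) :=
  cond (nlt 0 (pdeg x.1 x.2.1)) [cf (tp x.1 x.2.1)] []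

@[fun_prop] theorem Fac_tc_one {α : Type} [Enc α] {P : α → Nat.Primes} {a b : α → List ℕ}
    (hP : TC 0 P) (ha : TC 0 a) (hb : TC 0 b) : TC 0 fun x => Fac_one (P x) (a x) (b x) := by
  unfold Fac_one
  fun_prop

theorem exists_fac {D : Nat.Primes × List ℕ × Tab → List ℕ} (hD : TC 0 D) (h : DivSpec D) :
    ∃ F, TC 0 F ∧ FacSpec F := by
  have hI : ∀ x : Nat.Primes × List ℕ × Tab, ∃ qs : List (ZMod x.1)[X], Fac_I x = qs.map cf ∧ ((tp x.1 x.2.1).Monic →
      qs.prod = tp x.1 x.2.1) ∧ (qs.map natDegree).sum = (tp x.1 x.2.1).natDegree ∧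
      ∀ q ∈ qs, 0 < q.natDegree ∧ q = tp x.1 x.2.1 := fun x => by
    by_cases h0 : 0 < (tp x.1 x.2.1).natDegree
    · exact ⟨[tp x.1 x.2.1], by simp [Fac_I, nlt, pdeg, h0], by simp, by simp, by simp [h0]⟩
    · exact ⟨[], by simp [Fac_I, nlt, pdeg, h0], fun hm => (hm.natDegree_eq_zero.1 (by omega)).symm,
        by simp; omega, by simp⟩
  refine ⟨fun x => x.2.1.foldl (fun L _ => L.flatMap fun c => Fac_one x.1 c (D (x.1, c, x.2.2)))
    (Fac_I x), ?_, fun P g t hg ht => ?_⟩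
  · have hb : Bd 0 fun x : Nat.Primes × List ℕ × Tab => x.2.1.length := PA2_len (by fun_prop)
    have h1 : TC 0 fun p : (Nat.Primes × List ℕ × Tab) × List (List ℕ) × ℕ =>
        p.2.1.flatMap fun c => Fac_one p.1.1 c (D (p.1.1, c, p.1.2.2)) :=
      tc_flatMap (Fac_tc_one (by fun_prop) (by fun_prop) (TC.comp hD (by fun_prop))) (by fun_prop)
    have h2 : TC 0 Fac_I := by unfold Fac_I; fun_prop
    have h3 : TC 0 fun x : Nat.Primes × List ℕ × Tab => x.2.1 := by fun_prop
    have h4 := ((hb.mul ((PA2_bd (P := fun x => x.1) (by fun_prop) hb).add (Bd.const 0 1))).add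
        (Bd.const 0 1))
    refine TC.foldl_inv (f := fun (x : Nat.Primes × List ℕ × Tab) (L : List (List ℕ)) (_ : ℕ) =>
      L.flatMap fun c => Fac_one x.1 c (D (x.1, c, x.2.2))) h1 h2 h3 h4
      (fun x _ L => ∃ qs : List (ZMod x.1)[X], L = qs.map cf ∧
        (qs.map natDegree).sum = (tp x.1 x.2.1).natDegree ∧ ∀ q ∈ qs, 0 < q.natDegree)
      (fun x => (hI x).imp fun _ h => ⟨h.1, h.2.2.1, fun q hq => (h.2.2.2 q hq).1⟩)
      (fun x _ L _ _ hL => ?_) fun x _ L _ hL => ?_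
    · obtain ⟨qs, rfl, h1, h2⟩ := hL
      obtain ⟨rs, e1, -, e2, e3, -⟩ := Fac_step x.1 (fun c => D (x.1, c, x.2.2)) qs h2
      exact ⟨rs, e1, e2.trans h1, e3⟩
    · obtain ⟨qs, rfl, h1, h2⟩ := hL
      have h3 := PA2_deg x.1 x.2.1
      have h4 := Fac_len qs h2
      refine (sz_list_le (b := (x.2.1.length + 1) * (4 * sz (x.1 : ℕ) + 2) + 1) fun a ha => ?_).trans
        (Nat.add_le_add_right (Nat.mul_le_mul_right _ (by rw [List.length_map]; omega)) _)
      obtain ⟨q, hq, rfl⟩ := List.mem_map.1 ha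
      have := List.single_le_sum (l := qs.map natDegree) (fun _ _ => Nat.zero_le _) _
        (List.mem_map_of_mem hq)
      exact PA2_sz (by omega)
  · have key : ∀ (l : List ℕ) (k : ℕ) (qs : List (ZMod P)[X]), qs.prod = tp P g →
        (∀ q ∈ qs, 0 < q.natDegree ∧ q.Monic ∧ q.natDegree ≤ (tp P g).natDegree ∧
          (Irreducible q ∨ q.natDegree + k ≤ (tp P g).natDegree)) →
        ∃ rs : List (ZMod P)[X], l.foldl (fun L _ => L.flatMap fun c =>
          Fac_one P c (D (P, c, t))) (qs.map cf) = rs.map cf ∧ rs.prod = tp P g ∧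
          ∀ q ∈ rs, 0 < q.natDegree ∧ q.Monic ∧
            (Irreducible q ∨ q.natDegree + (k + l.length) ≤ (tp P g).natDegree) := by
      intro l
      induction l with
      | nil => exact fun k qs h1 h2 => ⟨qs, rfl, h1, fun q hq =>
          ⟨(h2 q hq).1, (h2 q hq).2.1, (h2 q hq).2.2.2⟩⟩
      | cons c l ih =>
        intro k qs h1 h2
        obtain ⟨rs, e1, e2, -, e3, e4⟩ := Fac_step P (fun c => D (P, c, t)) qs
          fun q hq => (h2 q hq).1
        rw [List.foldl_cons, e1, List.length_cons, add_comm l.length, ← add_assoc]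
        refine ih _ _ (e2.trans h1) fun r hr => ?_
        obtain ⟨q, hq, m, e5⟩ := e4 r hr
        obtain ⟨q1, q2, q3, q4⟩ := h2 q hq
        refine ⟨e3 r hr, m q2, ?_⟩
        rcases e5 with ⟨e5, s, rfl⟩ | ⟨rfl, e5⟩
        · refine ⟨by omega, Or.inr ?_⟩
          have hi : ¬ Irreducible (r * s) := fun hi => by
            have := e3 r hr
            rw [natDegree_mul (left_ne_zero_of_mul q2.ne_zero)
              (right_ne_zero_of_mul q2.ne_zero)] at e5
            rcases hi.isUnit_or_isUnit rfl with hu | hu <;>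
              have := natDegree_eq_zero_of_isUnit hu <;> omega
          have := q4.resolve_left hi
          omega
        · refine ⟨q3, Or.inl (by_contra fun hi => e5 ?_)⟩
          have := h P (cf r) t (by simpa using q2) (by simpa using q1) (by simpa using hi)
            fun s hs h1 h2 => ht s hs (h1.trans (by simpa using q3)) h2
          rw [tp_cf] at this
          exact ⟨this.2.2.1, this.2.2.2, this.2.1⟩
    obtain ⟨qs, e1, e2, -, e3⟩ := hI (P, g, t)
    obtain ⟨rs, e4, e5, e6⟩ := key g 0 qs (e2 hg) fun q hq => by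
      obtain ⟨h1, rfl⟩ := e3 q hq
      exact ⟨h1, hg, le_rfl, Or.inr le_rfl⟩
    dsimp only
    rw [e1, e4]
    refine ⟨by simpa [Function.comp_def] using e5, fun c hc => ?_⟩
    obtain ⟨q, hq, rfl⟩ := List.mem_map.1 hc
    obtain ⟨q1, q2, q3⟩ := e6 q hq
    have := PA2_deg P g
    rw [tp_cf]
    exact ⟨q2, q3.resolve_right (by omega)⟩

end Vale.Agent.P319
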