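import Vale.Agent.P319.F1b
import Vale.Agent.P319.CodeTC

/-! G1: the multiple colon space `{u ∈ LL (k H) | u * s ∈ Sp T for all (s, T) ∈ l}`. -/

namespace Vale.Agent.P319
open Vale.Agent.Common.TreeTM Vale.Agent.P337 Finsupp

section
variable {K L Pt : Type} [Field K] [Field L] [Algebra K L] {Y : Model K L Pt} {c : Cx}
  {b : ℕ → K}

theorem G1_Sp_map {W : Mx} (g : List El → List El) (T : L →ₗ[K] L)
    (h : ∀ v ∈ W, fv Y c b (g v) = T (fv Y c b v)) :
    Sp Y c b (W.map g) = (Sp Y c b W).map T := by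
  refine le_antisymm (Sp_le.2 fun v hv => ?_) (Submodule.map_le_iff_le_comap.2
    (Sp_le.2 fun v hv => ?_))
  · obtain ⟨w, hw, rfl⟩ := List.mem_map.1 hv
    rw [h w hw]
    exact Submodule.mem_map_of_mem (fv_mem_Sp hw)
  · rw [Submodule.mem_comap, ← h v hv]
    exact fv_mem_Sp (List.mem_map_of_mem hv)

theorem G1_forall {W : Mx} {u : L} {U : Submodule K L} :
    (∀ w ∈ W, u * fv Y c b w ∈ U) ↔ ∀ z ∈ Sp Y c b W, u * z ∈ U :=
  (Sp_le (Y := Y) (c := c) (b := b) (W := W) (U := U.comap (LinearMap.mulLeft K u))).symm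

theorem G1_fn_congr {N : ℕ} {w w' : ℕ → K} (h : ∀ k < Y.l * N, w k = w' k) :
    Y.fn N w = Y.fn N w' := by
  rw [← sub_eq_zero, ← map_sub, Model.fn_eq_zero]
  exact fun k hk => sub_eq_zero.2 (h k hk)

theorem G1_vec_left (R : RC) (b : ℕ → K) (g h : List El) {k : ℕ} (hk : k < g.length) :
    vec R b (g ++ h) k = vec R b g k := by
  simp only [vec]
  rw [List.getD_append _ _ _ _ hk]

theorem G1_vec_right (R : RC) (b : ℕ → K) (g h : List El) (k : ℕ) :
    vec R b (g ++ h) (k + g.length) = vec R b h k := by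
  simp only [vec]
  rw [List.getD_append_right _ _ _ _ (Nat.le_add_left _ _), Nat.add_sub_cancel]

theorem G1_vec_take (R : RC) (b : ℕ → K) (t : List El) {n k : ℕ} (hk : k < n) :
    vec R b (t.take n) k = vec R b t k := by
  simp only [vec, List.getD_eq_getElem?_getD, List.getElem?_take_of_lt hk]

theorem G1_vec_nil (R : RC) (b : ℕ → K) (w : List ℕ) (k : ℕ) :
    vec R b (w.map fun _ => ([] : El)) k = 0 := by
  simp only [vec, List.getD_eq_getElem?_getD, List.getElem?_map]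
  cases w[k]? <;> simp [ev_nil]

end

theorem G1_step : ∃ F : Cx × Mx × List El × Mx → Mx, TC 0 F ∧
    (∀ c B t, Sh c (F (c, B, t))) ∧
    ∀ {K L Pt : Type} [Field K] [Field L] [Algebra K L] (Y : Model K L Pt) (m : ℕ) (c : Cx)
      (b : ℕ → K), Sem Y m c b → ∀ (k k' : ℕ) (B : Mx) (s : List El) (T : Mx),
      k + k' < (cN c).length → Sh c B → Sp Y c b B ≤ Y.LL ((k : ℤ) • Y.H) →
      fv Y c b s ∈ Y.LL ((k' : ℤ) • Y.H) → ∀ u,
      u ∈ Sp Y c b (F (c, B, s, T)) ↔ u ∈ Sp Y c b B ∧ u * fv Y c b s ∈ Sp Y c b T := by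
  obtain ⟨fmul, tmul, smul, hmul⟩ := exists_fmul
  obtain ⟨fpiv, tpiv, spiv, hpiv⟩ := exists_fpiv
  obtain ⟨elim, telim, -, helim⟩ := exists_elim
  refine ⟨fun a => fpiv (a.1, elim (cR a.1, cq a.1, wd a.1 ++ wd a.1,
    a.2.1.map (fun g => g ++ fmul (a.1, g, a.2.2.1)) ++
      a.2.2.2.map (fun t => (wd a.1).map (fun _ => ([] : El)) ++ t.take (wd a.1).length),
    (idx (wd a.1)).map fun k => k + (wd a.1).length)), by fun_prop, fun c B t => spiv _ _, ?_⟩
  intro K L Pt _ _ _ Y m c b h k k' B s T hk hB hle hs u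
  have hn := h.wd_eq
  set M := B.map (fun g => g ++ fmul (c, g, s)) ++
    T.map (fun t => (wd c).map (fun _ => ([] : El)) ++ t.take (wd c).length) with hM
  let π : (ℕ → K) →ₗ[K] L := Y.fn (cN c).length ∘ₗ LinearMap.funLeft K K (· + (wd c).length)
  have hπ : ∀ z, π z = Y.fn (cN c).length fun k => z (k + (wd c).length) := fun _ => rfl
  have r1 : ∀ g ∈ B, Y.fn (cN c).length (vec (cR c) b (g ++ fmul (c, g, s))) = fv Y c b g ∧
      π (vec (cR c) b (g ++ fmul (c, g, s))) = fv Y c b g * fv Y c b s := fun g hg => by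
    have hl : g.length = (wd c).length := (hB.2 g hg).1
    refine ⟨G1_fn_congr fun i hi => G1_vec_left _ _ _ _ (by omega), ?_⟩
    rw [← hmul Y m c b h g s k k' hk (hle (fv_mem_Sp hg)) hs, hπ, ← hl]
    exact congrArg _ (funext fun i => G1_vec_right ..)
  have r2 : ∀ t : List El, Y.fn (cN c).length (vec (cR c) b
      ((wd c).map (fun _ => ([] : El)) ++ t.take (wd c).length)) = 0 ∧
      π (vec (cR c) b ((wd c).map (fun _ => ([] : El)) ++ t.take (wd c).length)) =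
        fv Y c b t := fun t => by
    refine ⟨Model.fn_eq_zero.2 fun i hi => ?_, G1_fn_congr fun i hi => ?_⟩
    · rw [G1_vec_left _ _ _ _ (by rw [List.length_map]; omega), G1_vec_nil]
    · have := G1_vec_right (cR c) b ((wd c).map fun _ => ([] : El)) (t.take (wd c).length) i
      rw [List.length_map] at this
      exact this.trans (G1_vec_take _ _ _ (by omega))
  have hlen : ∀ v ∈ M, v.length ≤ (wd c ++ wd c).length := by
    intro v hv
    rcases List.mem_append.1 hv with hv | hv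
    · obtain ⟨g, hg, rfl⟩ := List.mem_map.1 hv
      rw [List.length_append, List.length_append, (hB.2 g hg).1, (smul c g s).1]
    · obtain ⟨t, -, rfl⟩ := List.mem_map.1 hv
      simp
  have hks : ∀ z : ℕ → K, (∀ i ∈ (idx (wd c)).map fun k => k + (wd c).length, z i = 0) ↔
      π z = 0 := fun z => by
    rw [hπ, Model.fn_eq_zero, ← hn]
    simp [idx]
  change u ∈ Sp Y c b (fpiv (c, elim (cR c, cq c, wd c ++ wd c, M, _))) ↔ _
  rw [hpiv Y m c b h, Sp_eq_map, Submodule.mem_map]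
  simp only [helim _ _ _ h.hom _ _ _ hlen, hks]
  constructor
  · rintro ⟨z, ⟨hz, h0⟩, rfl⟩
    have key : Y.fn (cN c).length z ∈ Sp Y c b B ∧
        Y.fn (cN c).length z * fv Y c b s - π z ∈ Sp Y c b T := by
      clear h0
      induction hz using Submodule.span_induction with
      | mem x hx =>
        obtain ⟨v, hv, rfl⟩ := hx
        rcases List.mem_append.1 hv with hv | hv
        · obtain ⟨g, hg, rfl⟩ := List.mem_map.1 hv
          rw [(r1 g hg).1, (r1 g hg).2, sub_self]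
          exact ⟨fv_mem_Sp hg, zero_mem _⟩
        · obtain ⟨t, ht, rfl⟩ := List.mem_map.1 hv
          rw [(r2 t).1, (r2 t).2, zero_mul, zero_sub]
          exact ⟨zero_mem _, neg_mem (fv_mem_Sp ht)⟩
      | zero => simp
      | add x y _ _ hx hy =>
        rw [map_add, map_add, add_mul, add_sub_add_comm]
        exact ⟨add_mem hx.1 hy.1, add_mem hx.2 hy.2⟩
      | smul a x _ hx =>
        rw [map_smul, map_smul, smul_mul_assoc, ← smul_sub]
        exact ⟨Submodule.smul_mem _ a hx.1, Submodule.smul_mem _ a hx.2⟩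
    rwa [h0, sub_zero] at key
  · rintro ⟨h1, h2⟩
    have k1 : Sp Y c b B ≤ ((rsp (cR c) b M).map ((Y.fn (cN c).length).prod π)).comap
        (LinearMap.id.prod (LinearMap.mulRight K (fv Y c b s))) := Sp_le.2 fun g hg =>
      ⟨_, A1_mem (List.mem_append_left _ (List.mem_map_of_mem hg)), Prod.ext (r1 g hg).1 (r1 g hg).2⟩
    have k2 : Sp Y c b T ≤ ((rsp (cR c) b M).map ((Y.fn (cN c).length).prod π)).comap
        (LinearMap.inr K L L) := Sp_le.2 fun t ht =>
      ⟨_, A1_mem (List.mem_append_right _ (List.mem_map_of_mem ht)), Prod.ext (r2 t).1 (r2 t).2⟩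
    obtain ⟨z1, hz1, e1⟩ := k1 h1
    obtain ⟨z2, hz2, e2⟩ := k2 h2
    have a1 : Y.fn (cN c).length z1 = u := congrArg Prod.fst e1
    have a2 : π z1 = u * fv Y c b s := congrArg Prod.snd e1
    have a3 : Y.fn (cN c).length z2 = 0 := congrArg Prod.fst e2
    have a4 : π z2 = u * fv Y c b s := congrArg Prod.snd e2
    exact ⟨z1 - z2, ⟨sub_mem hz1 hz2, by rw [map_sub, a2, a4, sub_self]⟩,
      by rw [map_sub, a1, a3, sub_zero]⟩

theorem exists_mcol : ∃ F : Cx × ℕ × List (List El × Mx) → Mx, TC 0 F ∧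
    (∀ c k l, Sh c (F (c, k, l))) ∧
    ∀ {K L Pt : Type} [Field K] [Field L] [Algebra K L] (Y : Model K L Pt) (m : ℕ) (c : Cx)
      (b : ℕ → K), Sem Y m c b → ∀ (k k' : ℕ) (l : List (List El × Mx)), k + k' < (cN c).length →
      (∀ t ∈ l, fv Y c b t.1 ∈ Y.LL ((k' : ℤ) • Y.H)) → ∀ u,
      u ∈ Sp Y c b (F (c, k, l)) ↔
        u ∈ Y.LL ((k : ℤ) • Y.H) ∧ ∀ t ∈ l, u * fv Y c b t.1 ∈ Sp Y c b t.2 := by
  obtain ⟨st, tst, sst, hst⟩ := G1_step
  obtain ⟨bas, tbas, sbas, hbas⟩ := exists_basis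
  refine ⟨fun a => a.2.2.foldl (fun B t => st (a.1, B, t)) (bas (a.1, a.2.1)),
    tc_fold_Sh (c := fun a : Cx × ℕ × List (List El × Mx) => a.1) (by fun_prop) (by fun_prop)
      (by fun_prop) (by fun_prop) (fun a => sbas _ _) fun a W x => sst _ _ _,
    fun c k l => R1_fold (Sh c) _ (fun B t => sst c B t) l _ (sbas c k), ?_⟩
  intro K L Pt _ _ _ Y m c b h k k' l hk hl
  have key : ∀ B, Sh c B → Sp Y c b B ≤ Y.LL ((k : ℤ) • Y.H) → ∀ u,
      u ∈ Sp Y c b (l.foldl (fun B t => st (c, B, t)) B) ↔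
        u ∈ Sp Y c b B ∧ ∀ t ∈ l, u * fv Y c b t.1 ∈ Sp Y c b t.2 := by
    induction l with
    | nil => simp
    | cons t l ih =>
      intro B hB hle u
      have h1 := hst Y m c b h k k' B t.1 t.2 hk hB hle (hl t (by simp))
      rw [List.foldl_cons, ih (fun t ht => hl t (by simp [ht])) _ (sst c B t)
        (fun u hu => hle ((h1 u).1 hu).1), h1, List.forall_mem_cons, and_assoc]
  intro u
  have h2 := hbas Y m c b h k (by omega)
  rw [← h2]
  exact key _ (sbas c k) h2.le u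

/-- `{u ∈ LL (k H) | u * Sp W ⊆ s * LL (k' H)}` -/
theorem exists_cneg : ∃ F : Cx × ℕ × ℕ × List El × Mx → Mx, TC 0 F ∧
    (∀ c k k' s W, Sh c (F (c, k, k', s, W))) ∧
    ∀ {K L Pt : Type} [Field K] [Field L] [Algebra K L] (Y : Model K L Pt) (m : ℕ) (c : Cx)
      (b : ℕ → K), Sem Y m c b → ∀ (k k' g g' : ℕ) (s : List El) (W : Mx) (D : Pt →₀ ℤ),
      k + g < (cN c).length → k' + g' < (cN c).length → Y.Bpf (Sp Y c b W) D →
      D ≤ (g : ℤ) • Y.H → fv Y c b s ∈ Y.LL ((g' : ℤ) • Y.H) →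
      (fv Y c b s = 0 → Sp Y c b (F (c, k, k', s, W)) = ⊥) ∧
      (fv Y c b s ≠ 0 → Sp Y c b (F (c, k, k', s, W)) =
        Y.LL ((k : ℤ) • Y.H) ⊓ Y.LL ((k' : ℤ) • Y.H - Y.dv (fv Y c b s) - D)) := by
  obtain ⟨mcol, tcol, scol, hcol⟩ := exists_mcol
  obtain ⟨bas, tbas, sbas, hbas⟩ := exists_basis
  obtain ⟨fmul, tmul, smul, hmul⟩ := exists_fmul
  refine ⟨fun a => mcol (a.1, a.2.1, a.2.2.2.2.map fun w =>
    (w, (bas (a.1, a.2.2.1)).map fun v => fmul (a.1, a.2.2.2.1, v))), by fun_prop,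
    fun c k k' s W => scol _ _ _, ?_⟩
  intro K L Pt _ _ _ Y m c b h k k' g g' s W D hk hk' hW hD hs
  have h1 := hbas Y m c b h k' (by omega)
  have h2 : Sp Y c b ((bas (c, k')).map fun v => fmul (c, s, v)) =
      (Y.LL ((k' : ℤ) • Y.H)).map (LinearMap.mulLeft K (fv Y c b s)) := by
    rw [← h1]
    exact G1_Sp_map _ _ fun v hv => hmul Y m c b h s v g' k' (by omega) hs (h1 ▸ fv_mem_Sp hv)
  have h3 : ∀ u, u ∈ Sp Y c b (mcol (c, k, W.map fun w =>
      (w, (bas (c, k')).map fun v => fmul (c, s, v)))) ↔ u ∈ Y.LL ((k : ℤ) • Y.H) ∧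
      ∀ z ∈ Sp Y c b W, u * z ∈
        (Y.LL ((k' : ℤ) • Y.H)).map (LinearMap.mulLeft K (fv Y c b s)) := fun u => by
    rw [hcol Y m c b h k g _ hk (fun t ht => by
      obtain ⟨w, hw, rfl⟩ := List.mem_map.1 ht
      exact Model.LL_mono hD (hW.1 (fv_mem_Sp hw))), List.forall_mem_map, ← h2, ← G1_forall]
  refine ⟨fun h0 => (Submodule.eq_bot_iff _).2 fun u hu => ?_, fun h0 => Submodule.ext fun u => ?_⟩
  · obtain ⟨z, hz, hz0, -⟩ := hW.2 Y.inf
    obtain ⟨y, -, hy⟩ := ((h3 u).1 hu).2 z hz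
    rw [LinearMap.mulLeft_apply, h0, zero_mul] at hy
    exact (mul_eq_zero.1 hy.symm).resolve_right hz0
  · have h4 : (Y.LL ((k' : ℤ) • Y.H)).map (LinearMap.mulLeft K (fv Y c b s)) =
        Y.LL ((k' : ℤ) • Y.H - Y.dv (fv Y c b s)) := by
      ext v
      obtain ⟨y, rfl⟩ : ∃ y, v = fv Y c b s * y := ⟨(fv Y c b s)⁻¹ * v, by field_simp⟩
      rw [Model.mul_mem_LL_iff h0, sub_add_cancel]
      exact ⟨fun ⟨z, hz, e⟩ => mul_left_cancel₀ h0 e ▸ hz, fun hy => ⟨y, hy, rfl⟩⟩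
    rw [h3, h4, hW.mul_mem_iff, Submodule.mem_inf]

end Vale.Agent.P319
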