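import Vale.Agent.P319.G1
import Vale.Agent.P319.F1c

/-! G2a: saturation and sums of effective divisors. -/

namespace Vale.Agent.P319
open Vale.Agent.Common.TreeTM Vale.Agent.P337 Finsupp

section
variable {K L Pt : Type} [Field K] [Field L] [Algebra K L] {Y : Model K L Pt} {c : Cx}
  {b : ℕ → K}

theorem G2a_two (Y : Model K L Pt) : 2 ≤ Y.n := Y.two_le.trans Y.l_le_n

theorem G2a_num {n : ℕ} (hn : 2 ≤ n) : (n + 1) ^ 6 + (n + 1) * (n * (n + 1) ^ 6) < (n + 1) ^ 9 := by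
  have h1 : 0 < (n + 1) ^ 6 := by positivity
  have h2 : 1 + (n + 1) * n < (n + 1) ^ 3 := by nlinarith [Nat.zero_le (n ^ 3)]
  calc _ = (1 + (n + 1) * n) * (n + 1) ^ 6 := by ring
    _ < (n + 1) ^ 3 * (n + 1) ^ 6 := Nat.mul_lt_mul_of_pos_right h2 h1
    _ = _ := by ring

theorem G2a_sub_le {D Z : Pt →₀ ℤ} (hZ : 0 ≤ Z) : D - Z ≤ D := sub_le_self D hZ

theorem G2a_H_mono {k m : ℕ} (h : k ≤ m) : (k : ℤ) • Y.H ≤ (m : ℤ) • Y.H :=
  smul_le_smul_of_nonneg_right (by exact_mod_cast h) Model.H_nonneg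

theorem G2a_small {Z Z' : Pt →₀ ℤ} (h : Small Y Z') (hZ : Z ≤ Z') : Small Y Z :=
  (Model.degree_mono hZ).trans h

end

theorem exists_sat : ∃ F : Cx × ℕ × Mx → Mx, TC 0 F ∧ (∀ c g W, Sh c (F (c, g, W))) ∧
    ∀ {K L Pt : Type} [Field K] [Field L] [Algebra K L] (Y : Model K L Pt) (m : ℕ) (c : Cx)
      (b : ℕ → K), Sem Y m c b → ∀ (g : ℕ) (W : Mx) (Z : Pt →₀ ℤ), g ≤ Y.n * (Y.n + 1) ^ 6 →
      0 ≤ Z → Y.Bpf (Sp Y c b W) ((g : ℤ) • Y.H - Z) → Rep Y c b (F (c, g, W)) Z := by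
  obtain ⟨cneg, tneg, sneg, hneg⟩ := exists_cneg
  obtain ⟨first, tfirst, -, hfirst⟩ := exists_first
  refine ⟨fun a => cneg (a.1, lvM a.1, lvM a.1 + (cmd a.1).length * a.2.1 - a.2.1,
    first (a.1, a.2.2), cneg (a.1, (cmd a.1).length * a.2.1, (cmd a.1).length * a.2.1,
      first (a.1, a.2.2), a.2.2)), by fun_prop, fun c g W => sneg _ _ _ _ _, ?_⟩
  intro K L Pt _ _ _ Y m c b h g W Z hg hZ hW
  refine ⟨hZ, ?_⟩
  change Sp Y c b (cneg (c, lvM c, lvM c + (cmd c).length * g - g, first (c, W),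
    cneg (c, (cmd c).length * g, (cmd c).length * g, first (c, W), W))) = _
  rw [h.n_eq, h.lvM_eq]
  have hn := G2a_two Y
  have h1 := G2a_num hn
  have h2 := h.N_ge
  have h3 : (Y.n + 1) * g ≤ (Y.n + 1) * (Y.n * (Y.n + 1) ^ 6) := Nat.mul_le_mul_left _ hg
  have h4 : g ≤ Y.n * g := Nat.le_mul_of_pos_left _ (by omega)
  rw [add_mul, one_mul] at h3
  obtain ⟨s1, s2⟩ := hfirst Y m c b h W fun h0 => by
    obtain ⟨u, hu, hu0, -⟩ := hW.2 Y.inf
    rw [h0] at hu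
    exact hu0 hu
  have s3 := Model.LL_mono (G2a_sub_le hZ) (hW.1 s1)
  have z1 := (Model.mem_LL_iff s2).1 (hW.1 s1)
  have e1 : ((Y.n * g : ℕ) : ℤ) • Y.H - Y.dv (fv Y c b (first (c, W))) - ((g : ℤ) • Y.H - Z) =
      ((Y.n * g : ℕ) : ℤ) • Y.H - (Y.dv (fv Y c b (first (c, W))) + ((g : ℤ) • Y.H - Z)) :=
    sub_sub ..
  have a1 := (hneg Y m c b h (Y.n * g) (Y.n * g) g g _ W _ (by omega) (by omega) hW
    (G2a_sub_le hZ) s3).2 s2
  rw [e1, inf_eq_right.2 (Model.LL_mono (G2a_sub_le z1))] at a1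
  have a2 := Model.bpf_small (Y := Y) (m := Y.n * g) z1 (by
    rw [map_add, map_sub, map_zsmul, Model.degree_dv, Model.degree_H, smul_eq_mul]
    have := mul_nonneg (Int.natCast_nonneg Y.n1) (Model.degree_nonneg hZ)
    simp only [Model.n]
    push_cast
    linarith)
  rw [← a1] at a2
  rw [(hneg Y m c b h ((Y.n + 1) ^ 6) ((Y.n + 1) ^ 6 + Y.n * g - g) (Y.n * g) g _ _ _ (by omega)
    (by omega) a2 (G2a_sub_le z1) s3).2 s2]
  have e2 : (((Y.n + 1) ^ 6 + Y.n * g - g : ℕ) : ℤ) • Y.H - Y.dv (fv Y c b (first (c, W))) -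
      (((Y.n * g : ℕ) : ℤ) • Y.H - (Y.dv (fv Y c b (first (c, W))) + ((g : ℤ) • Y.H - Z))) =
      (((Y.n + 1) ^ 6 : ℕ) : ℤ) • Y.H - Z := by
    rw [Nat.cast_sub (by omega), Nat.cast_add, sub_smul, add_smul]
    abel
  rw [e2, inf_eq_right.2 (Model.LL_mono (G2a_sub_le hZ))]

/-- change of the level: `mcol k [(1, W), (x ^ (M - k), W)]` -/
theorem exists_lvl : ∃ F : Cx × ℕ × Mx → Mx, TC 0 F ∧ (∀ c k W, Sh c (F (c, k, W))) ∧
    ∀ {K L Pt : Type} [Field K] [Field L] [Algebra K L] (Y : Model K L Pt) (m : ℕ) (c : Cx)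
      (b : ℕ → K), Sem Y m c b → ∀ (k : ℕ) (W : Mx) (Z : Pt →₀ ℤ), k ≤ (Y.n + 1) ^ 6 →
      Rep Y c b W Z → Sp Y c b (F (c, k, W)) = Y.LL ((k : ℤ) • Y.H - Z) := by
  obtain ⟨mcol, tcol, scol, hcol⟩ := exists_mcol
  obtain ⟨mono, tmono, -, hmono⟩ := exists_mono
  refine ⟨fun a => mcol (a.1, a.2.1, [(mono (a.1, 0, 0), a.2.2),
    (mono (a.1, lvM a.1 - a.2.1, 0), a.2.2)]), by fun_prop, fun c k W => scol _ _ _, ?_⟩
  intro K L Pt _ _ _ Y m c b h k W Z hk hW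
  have h1 := G2a_num (G2a_two Y)
  have h2 := h.N_ge
  have m0 := hmono Y m c b h 0 (by omega) 0 Y.prime.pos
  have m1 := hmono Y m c b h ((Y.n + 1) ^ 6 - k) (by omega) 0 Y.prime.pos
  have l0 := Model.mono_mem_LL (Y := Y) (a := 0) (b := 0) (m := (Y.n + 1) ^ 6 - k) (by simp)
  have l1 := Model.mono_mem_LL (Y := Y) (a := (Y.n + 1) ^ 6 - k) (b := 0)
    (m := (Y.n + 1) ^ 6 - k) (by simp)
  ext u
  change u ∈ Sp Y c b (mcol (c, k, [(mono (c, 0, 0), W), (mono (c, lvM c - k, 0), W)])) ↔ _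
  rw [h.lvM_eq, hcol Y m c b h k ((Y.n + 1) ^ 6 - k) _ (by omega) (by
    simp only [List.forall_mem_cons, m0, m1]
    exact ⟨l0, l1, nofun⟩)]
  simp only [List.forall_mem_cons, m0, m1, hW.2, pow_zero, mul_one, List.not_mem_nil, false_imp_iff,
    implies_true, and_true] at l1 ⊢
  constructor
  · rintro ⟨-, h3, h4⟩ Q
    by_cases hQ : Y.px Q = none
    · by_cases h0 : u = 0
      · exact Or.inl h0
      have h5 := (h4 Q).resolve_left (mul_ne_zero h0 (pow_ne_zero _ Y.x_ne))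
      right
      rw [Y.ord_mul Q _ _ h0 (pow_ne_zero _ Y.x_ne), Model.ord_pow, Y.ord_x_inf Q hQ,
        Nat.cast_sub hk] at h5
      simp only [Finsupp.sub_apply, Finsupp.smul_apply, Model.H_inf hQ, smul_eq_mul,
        mul_one] at h5 ⊢
      linarith
    · simpa [Model.H_fin hQ] using h3 Q
  · intro h3
    refine ⟨Model.LL_mono (G2a_sub_le hW.1) h3,
      Model.LL_mono (sub_le_sub_right (G2a_H_mono hk) _) h3, ?_⟩
    convert Model.mul_mem_LL h3 l1 using 2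
    rw [Nat.cast_sub hk, sub_smul]
    abel

theorem exists_gsig : ∃ F : Cx × ℕ × Mx → Mx, TC 0 F ∧ (∀ c j W, Sh c (F (c, j, W))) ∧
    ∀ {K L Pt : Type} [Field K] [Field L] [Algebra K L] (Y : Model K L Pt) (m : ℕ) (c : Cx)
      (b : ℕ → K), Sem Y m c b → ∀ (j : ℕ) (W : Mx) (Z : Pt →₀ ℤ),
      Rep Y c b W Z → Rep Y c b (F (c, j, W)) ((Y.sE ^ j) Z) := by
  obtain ⟨fpiv, tpiv, spiv, hpiv⟩ := exists_fpiv
  obtain ⟨fsig, tsig, -, hsig⟩ := exists_fsig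
  refine ⟨fun a => fpiv (a.1, a.2.2.map fun v => fsig (a.1, a.2.1, v)), by fun_prop,
    fun c j W => spiv _ _, ?_⟩
  intro K L Pt _ _ _ Y m c b h j W Z hW
  refine ⟨Model.sE_pow_nonneg j hW.1, ?_⟩
  rw [hpiv Y m c b h, G1_Sp_map _ (Y.σ ^ j).toLinearMap fun v _ => hsig Y m c b h j v, hW.2]
  ext u
  obtain ⟨v, rfl⟩ := (Y.σ ^ j).surjective u
  have h1 := Model.σ_pow_mem_LL (Y := Y) (u := v) (D := (((Y.n + 1) ^ 6 : ℕ) : ℤ) • Y.H - Z) j
  rw [map_sub, map_zsmul, Model.sE_pow_H] at h1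
  rw [h1]
  exact ⟨fun ⟨z, hz, e⟩ => (Y.σ ^ j).injective e ▸ hz, fun hv => ⟨v, hv, rfl⟩⟩

theorem exists_gadd : ∃ F : Cx × Mx × Mx → Mx, TC 0 F ∧ (∀ c W W', Sh c (F (c, W, W'))) ∧
    ∀ {K L Pt : Type} [Field K] [Field L] [Algebra K L] (Y : Model K L Pt) (m : ℕ) (c : Cx)
      (b : ℕ → K), Sem Y m c b → ∀ (W W' : Mx) (Z Z' : Pt →₀ ℤ), Rep Y c b W Z → Rep Y c b W' Z' →
      Small Y (Z + Z') → Rep Y c b (F (c, W, W')) (Z + Z') := by
  obtain ⟨sat, tsat, ssat, hsat⟩ := exists_sat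
  obtain ⟨fmul, tmul, -, hmul⟩ := exists_fmul
  refine ⟨fun a => sat (a.1, lvM a.1 + lvM a.1,
    a.2.1.flatMap fun u => a.2.2.map fun v => fmul (a.1, u, v)), ?_,
    fun c W W' => ssat _ _ _, ?_⟩
  · have t1 : TC 0 fun p : (Cx × Mx × Mx) × List El =>
        p.1.2.2.map fun v => fmul (p.1.1, p.2, v) := by fun_prop
    have t2 : TC 0 fun a : Cx × Mx × Mx =>
        a.2.1.flatMap fun u => a.2.2.map fun v => fmul (a.1, u, v) := tc_flatMap t1 (by fun_prop)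
    have t0 : TC 0 fun a : Cx × Mx × Mx => a.1 := by fun_prop
    have t3 : TC 0 fun a : Cx × Mx × Mx => lvM a.1 + lvM a.1 := (tc_lvM t0).add (tc_lvM t0)
    exact TC.comp tsat (t0.pair (t3.pair t2))
  intro K L Pt _ _ _ Y m c b h W W' Z Z' hW hW' hs
  have hn := G2a_two Y
  have h1 := G2a_num hn
  have h2 := h.N_ge
  have h3 : 2 * (Y.n + 1) ^ 6 ≤ Y.n * (Y.n + 1) ^ 6 := Nat.mul_le_mul_right _ hn
  have h4 : Y.n * (Y.n + 1) ^ 6 ≤ (Y.n + 1) * (Y.n * (Y.n + 1) ^ 6) :=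
    Nat.le_mul_of_pos_left _ (by omega)
  have b1 := hW.bpf (G2a_small hs (le_add_of_nonneg_right hW'.1))
  have b2 := hW'.bpf (G2a_small hs (le_add_of_nonneg_left hW.1))
  have hp : ∀ u ∈ W, ∀ v ∈ W', fv Y c b (fmul (c, u, v)) = fv Y c b u * fv Y c b v :=
    fun u hu v hv => hmul Y m c b h u v ((Y.n + 1) ^ 6) ((Y.n + 1) ^ 6) (by omega)
      (Model.LL_mono (G2a_sub_le hW.1) (b1.1 (fv_mem_Sp hu)))
      (Model.LL_mono (G2a_sub_le hW'.1) (b2.1 (fv_mem_Sp hv)))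
  have e : ((lvM c + lvM c : ℕ) : ℤ) • Y.H - (Z + Z') =
      (((Y.n + 1) ^ 6 : ℕ) : ℤ) • Y.H - Z + ((((Y.n + 1) ^ 6 : ℕ) : ℤ) • Y.H - Z') := by
    rw [h.lvM_eq, Nat.cast_add, add_smul]
    abel
  refine hsat Y m c b h _ _ _ (by rw [h.lvM_eq]; omega) (add_nonneg hW.1 hW'.1) ?_
  rw [e]
  refine ⟨Sp_le.2 fun w hw => ?_, fun Q => ?_⟩
  · obtain ⟨u, hu, hw⟩ := List.mem_flatMap.1 hw
    obtain ⟨v, hv, rfl⟩ := List.mem_map.1 hw
    rw [hp u hu v hv]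
    exact Model.mul_mem_LL (b1.1 (fv_mem_Sp hu)) (b2.1 (fv_mem_Sp hv))
  · obtain ⟨u, hu, u0, u1⟩ := b1.2 Q
    obtain ⟨v, hv, v0, v1⟩ := b2.2 Q
    refine ⟨v * u, G1_forall.1 (fun w hw => ?_) u hu, mul_ne_zero v0 u0, ?_⟩
    · rw [mul_comm]
      refine G1_forall.1 (fun w' hw' => ?_) v hv
      rw [← hp w hw w' hw']
      exact fv_mem_Sp (List.mem_flatMap.2 ⟨w, hw, List.mem_map_of_mem hw'⟩)
    · rw [Y.ord_mul Q _ _ v0 u0, u1, v1, Finsupp.add_apply]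
      ring

theorem exists_gsum : ∃ F : Cx × List Mx → Mx, TC 0 F ∧ (∀ c l, Sh c (F (c, l))) ∧
    ∀ {K L Pt : Type} [Field K] [Field L] [Algebra K L] (Y : Model K L Pt) (m : ℕ) (c : Cx)
      (b : ℕ → K), Sem Y m c b → ∀ (l : List Mx) (l' : List (Pt →₀ ℤ)),
      List.Forall₂ (Rep Y c b) l l' → Small Y l'.sum → Rep Y c b (F (c, l)) l'.sum := by
  obtain ⟨gadd, tadd, sadd, hadd⟩ := exists_gadd
  obtain ⟨bas, tbas, sbas, hbas⟩ := exists_basis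
  refine ⟨fun a => a.2.foldl (fun B W => gadd (a.1, B, W)) (bas (a.1, lvM a.1)),
    tc_fold_Sh (c := fun a : Cx × List Mx => a.1) (by fun_prop) (by fun_prop)
      (by fun_prop) (by fun_prop) (fun a => sbas _ _) fun a W x => sadd _ _ _,
    fun c l => R1_fold (Sh c) _ (fun B t => sadd c B t) l _ (sbas c _), ?_⟩
  intro K L Pt _ _ _ Y m c b h l l' hl
  have key : 0 ≤ l'.sum ∧ ∀ B Z, Rep Y c b B Z → Small Y (Z + l'.sum) →
      Rep Y c b (l.foldl (fun B W => gadd (c, B, W)) B) (Z + l'.sum) := by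
    induction hl with
    | nil => exact ⟨le_rfl, fun B Z hB _ => by simpa using hB⟩
    | cons h1 _ ih =>
      rw [List.sum_cons]
      refine ⟨add_nonneg h1.1 ih.1, fun B Z hB hs => ?_⟩
      rw [← add_assoc] at hs ⊢
      exact ih.2 _ _ (hadd Y m c b h _ _ _ _ hB h1 (G2a_small hs (le_add_of_nonneg_right ih.1))) hs
  intro hs
  have h1 := G2a_num (G2a_two Y)
  have h2 := h.N_ge
  have := key.2 (bas (c, lvM c)) 0 ⟨le_rfl, by
    rw [h.lvM_eq, hbas Y m c b h _ (by omega), sub_zero]⟩ (by rwa [zero_add])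
  rwa [zero_add] at this

/-- `uE j Z`, `j` in unary -/
theorem exists_gU : ∃ F : Cx × List ℕ × Mx → Mx, TC 0 F ∧ (∀ c j W, Sh c (F (c, j, W))) ∧
    ∀ {K L Pt : Type} [Field K] [Field L] [Algebra K L] (Y : Model K L Pt) (m : ℕ) (c : Cx)
      (b : ℕ → K), Sem Y m c b → ∀ (j : List ℕ) (W : Mx) (Z : Pt →₀ ℤ), Rep Y c b W Z →
      Small Y (Y.uE j.length Z) → Rep Y c b (F (c, j, W)) (Y.uE j.length Z) := by
  obtain ⟨gsum, tsum, ssum, hsum⟩ := exists_gsum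
  obtain ⟨gsig, tsig, -, hsig⟩ := exists_gsig
  refine ⟨fun a => gsum (a.1, (idx a.2.1).map fun i => gsig (a.1, i, a.2.2)), by fun_prop,
    fun c j W => ssum _ _, ?_⟩
  intro K L Pt _ _ _ Y m c b h j W Z hW
  have e : Y.uE j.length Z = ((idx j).map fun i => (Y.sE ^ i) Z).sum := by
    rw [idx, R1_sum_range, Model.uE, LinearMap.sum_apply]
  rw [e]
  refine hsum Y m c b h _ _ ?_
  rw [List.forall₂_map_left_iff, List.forall₂_map_right_iff, List.forall₂_same]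
  exact fun i _ => hsig Y m c b h i W Z hW

/-- `Z + j Z'`, `j` in unary -/
theorem exists_gmul : ∃ F : Cx × List ℕ × Mx × Mx → Mx, TC 0 F ∧
    (∀ c j W W', Sh c (F (c, j, W, W'))) ∧
    ∀ {K L Pt : Type} [Field K] [Field L] [Algebra K L] (Y : Model K L Pt) (m : ℕ) (c : Cx)
      (b : ℕ → K), Sem Y m c b → ∀ (j : List ℕ) (W W' : Mx) (Z Z' : Pt →₀ ℤ), Rep Y c b W Z →
      Rep Y c b W' Z' → Small Y (Z + (j.length : ℤ) • Z') →
      Rep Y c b (F (c, j, W, W')) (Z + (j.length : ℤ) • Z') := by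
  obtain ⟨gsum, tsum, ssum, hsum⟩ := exists_gsum
  refine ⟨fun a => gsum (a.1, a.2.2.1 :: a.2.1.map fun _ => a.2.2.2), by fun_prop,
    fun c j W W' => ssum _ _, ?_⟩
  intro K L Pt _ _ _ Y m c b h j W W' Z Z' hW hW'
  have e : Z + (j.length : ℤ) • Z' = (Z :: j.map fun _ => Z').sum := by simp
  rw [e]
  refine hsum Y m c b h _ _ (List.Forall₂.cons hW ?_)
  rw [List.forall₂_map_left_iff, List.forall₂_map_right_iff, List.forall₂_same]
  exact fun _ _ => hW'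

theorem G2a_n1 {K L Pt : Type} [Field K] [Field L] [Algebra K L] (Y : Model K L Pt) :
    Y.n1 ≤ Y.n * (Y.n + 1) ^ 6 := Y.n1_le_n.trans (Nat.le_mul_of_pos_right _ (by positivity))

theorem G2a_n1_lt {K L Pt : Type} [Field K] [Field L] [Algebra K L] {Y : Model K L Pt} {m : ℕ}
    {c : Cx} {b : ℕ → K} (h : Sem Y m c b) : Y.n1 + 1 < (cN c).length := by
  have h1 := G2a_num (G2a_two Y)
  have h2 := h.N_ge
  have h3 := G2a_n1 Y
  have h4 : Y.n * (Y.n + 1) ^ 6 ≤ (Y.n + 1) * (Y.n * (Y.n + 1) ^ 6) :=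
    Nat.le_mul_of_pos_left _ (by omega)
  have h5 : 0 < (Y.n + 1) ^ 6 := by positivity
  omega

theorem exists_repInf : ∃ F : Cx → Mx, TC 0 F ∧ (∀ c, Sh c (F c)) ∧
    ∀ {K L Pt : Type} [Field K] [Field L] [Algebra K L] (Y : Model K L Pt) (m : ℕ) (c : Cx)
      (b : ℕ → K), Sem Y m c b → Rep Y c b (F c) (single Y.inf 1) := by
  obtain ⟨sat, tsat, ssat, hsat⟩ := exists_sat
  obtain ⟨mono, tmono, -, hmono⟩ := exists_mono
  refine ⟨fun c => sat (c, (cmd c).length / (cL c).length, [mono (c, 0, 0),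
    mono (c, (cmd c).length / (cL c).length - 1, 0), vadd (cR c) (wd c) (mono (c, 0, 1))
      (vsmul (cR c) (wd c) (rneg (cR c) (rone (cR c)))
        (mono (c, (cmd c).length / (cL c).length, 0)))]), by fun_prop, fun c => ssat _ _ _, ?_⟩
  intro K L Pt _ _ _ Y m c b h
  classical
  have h1 := G2a_n1_lt h
  have h2 := Y.n1_pos
  refine hsat Y m c b h _ _ _ (by rw [h.n1_eq]; exact G2a_n1 Y) (by simp) ?_
  rw [h.n1_eq]
  have hxn : Y.x ^ Y.n1 ≠ 0 := pow_ne_zero _ Y.x_ne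
  have m0 : fv Y c b (mono (c, 0, 0)) = Y.x ^ 0 := by
    simpa using hmono Y m c b h 0 (by omega) 0 Y.prime.pos
  have m1 : fv Y c b (mono (c, Y.n1 - 1, 0)) = Y.x ^ (Y.n1 - 1) := by
    simpa using hmono Y m c b h (Y.n1 - 1) (by omega) 0 Y.prime.pos
  have m2 : fv Y c b (vadd (cR c) (wd c) (mono (c, 0, 1)) (vsmul (cR c) (wd c)
      (rneg (cR c) (rone (cR c))) (mono (c, Y.n1, 0)))) =
      (Y.y / Y.x ^ Y.n1 - algebraMap K L 1) * Y.x ^ Y.n1 := by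
    rw [h.fv_vadd, h.fv_vsmul, h.hom.rneg, h.hom.rone, hmono Y m c b h 0 (by omega) 1 Y.two_le,
      hmono Y m c b h Y.n1 (by omega) 0 Y.prime.pos, sub_mul, div_mul_cancel₀ _ hxn]
    simp [sub_eq_add_neg]
  have hi := Y.px_inf
  have hx : ∀ a, a < Y.n1 → Y.x ^ a ∈ Y.LL ((Y.n1 : ℤ) • Y.H - single Y.inf 1) := fun a ha => by
    refine Model.T3_sub_single (by
      simpa using Model.mono_mem_LL (Y := Y) (a := a) (b := 0) (m := Y.n1) (by simpa using ha.le))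
      (Or.inr ?_)
    simp only [Model.ord_pow, Y.ord_x_inf _ hi, Finsupp.smul_apply, Model.H_inf hi, smul_eq_mul]
    omega
  refine ⟨Sp_le.2 ?_, fun Q => ?_⟩
  · simp only [List.forall_mem_cons, m0, m1, m2]
    refine ⟨hx 0 h2, hx _ (by omega), Model.T3_sub_single ?_ ?_, nofun⟩
    · rw [sub_mul, div_mul_cancel₀ _ hxn, map_one, one_mul]
      exact sub_mem
        (by simpa using Model.mono_mem_LL (Y := Y) (a := 0) (b := 1) (m := Y.n1) (by simp))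
        (by simpa using Model.mono_mem_LL (Y := Y) (a := Y.n1) (b := 0) (m := Y.n1) (by simp))
    · have h3 := Y.ord_y_inf _ hi
      rw [Y.py_inf] at h3
      refine (Model.Ge.mul (Or.inr h3) Model.ge_ord).mono ?_
      simp [Model.ord_pow, Y.ord_x_inf _ hi, Model.H_inf hi, add_comm]
  · by_cases hQ : Y.px Q = none
    · by_cases hQR : Y.inf = Q
      · subst hQR
        refine ⟨_, m1 ▸ fv_mem_Sp (by simp), pow_ne_zero _ Y.x_ne, ?_⟩
        simp [Model.ord_pow, Y.ord_x_inf _ hi, Model.H_inf hi, Nat.cast_sub h2]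
      · have hv : Y.Val Q (Y.y / Y.x ^ Y.n1 - algebraMap K L 1) (Y.py Q - 1) :=
          Model.Val.sub (Or.inr (Y.ord_y_inf Q hQ)) Model.val_c
        have hv' := hv.ord_eq (sub_ne_zero.2 fun hc =>
          hQR (Y.pt_inj _ _ (hi.trans hQ.symm) (Y.py_inf.trans hc.symm)))
        refine ⟨_, m2 ▸ fv_mem_Sp (by simp), mul_ne_zero hv'.1 hxn, ?_⟩
        rw [Y.ord_mul Q _ _ hv'.1 hxn, hv'.2]
        simp [Model.ord_pow, Y.ord_x_inf Q hQ, Model.H_inf hQ, hQR]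
    · have hQR : Y.inf ≠ Q := fun e => hQ (e ▸ hi)
      refine ⟨_, m0 ▸ fv_mem_Sp (by simp), pow_ne_zero _ Y.x_ne, ?_⟩
      simp [Model.ord_one, Model.H_fin hQ, hQR]

theorem exists_repP : ∃ F : Cx × El → Mx, TC 0 F ∧ (∀ c τ, Sh c (F (c, τ))) ∧
    ∀ {K L Pt : Type} [Field K] [Field L] [Algebra K L] (Y : Model K L Pt) (m : ℕ) (c : Cx)
      (b : ℕ → K), Sem Y m c b → ∀ τ : El, Y.f.IsRoot (ev (cR c) b τ) →
      Rep Y c b (F (c, τ)) (single (Y.P (ev (cR c) b τ)) 1) := by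
  obtain ⟨sat, tsat, ssat, hsat⟩ := exists_sat
  obtain ⟨mono, tmono, -, hmono⟩ := exists_mono
  refine ⟨fun a => sat (a.1, (cmd a.1).length / (cL a.1).length,
    [vadd (cR a.1) (wd a.1) (mono (a.1, 1, 0))
      (vsmul (cR a.1) (wd a.1) (rneg (cR a.1) a.2) (mono (a.1, 0, 0))), mono (a.1, 0, 1)]),
    by fun_prop, fun c τ => ssat _ _ _, ?_⟩
  intro K L Pt _ _ _ Y m c b h τ hτ
  classical
  have h1 := G2a_n1_lt h
  refine hsat Y m c b h _ _ _ (by rw [h.n1_eq]; exact G2a_n1 Y) (by simp) ?_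
  rw [h.n1_eq]
  have m0 : fv Y c b (mono (c, 0, 1)) = Y.y := by
    simpa using hmono Y m c b h 0 (by omega) 1 Y.two_le
  have m1 : fv Y c b (vadd (cR c) (wd c) (mono (c, 1, 0)) (vsmul (cR c) (wd c)
      (rneg (cR c) τ) (mono (c, 0, 0)))) = Y.x - algebraMap K L (ev (cR c) b τ) := by
    rw [h.fv_vadd, h.fv_vsmul, h.hom.rneg, hmono Y m c b h 1 (by omega) 0 Y.prime.pos,
      hmono Y m c b h 0 (by omega) 0 Y.prime.pos]
    simp [sub_eq_add_neg, Algebra.smul_def]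
  generalize ev (cR c) b τ = α at hτ m1
  have hP := Model.px_P hτ
  have hP' := Model.py_P hτ
  have hH : Y.H (Y.P α) = 0 := Model.H_ram hP'
  refine ⟨Sp_le.2 ?_, fun Q => ?_⟩
  · simp only [List.forall_mem_cons, m0, m1]
    refine ⟨Model.T3_sub_single (Model.LL_mono ?_ (Model.T3_x_sub α))
      (by simpa [hH, Model.Val] using Model.val_x hP), Model.T3_sub_single
      (by simpa using Model.mono_mem_LL (Y := Y) (a := 0) (b := 1) (m := Y.n1) (by simp))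
      (Or.inr (by simp [hH, Model.ord_y_ram hP'])), nofun⟩
    simpa using G2a_H_mono (Y := Y) Y.n1_pos
  · by_cases hQR : Y.P α = Q
    · subst hQR
      exact ⟨_, m0 ▸ fv_mem_Sp (by simp), Y.y_ne, by simp [hH, Model.ord_y_ram hP']⟩
    cases hQ : Y.px Q with
    | none =>
      exact ⟨_, m0 ▸ fv_mem_Sp (by simp), Y.y_ne,
        by simp [Model.ord_y_of_inf hQ, Model.H_inf hQ, hQR]⟩
    | some a =>
      have ha : a ≠ α := by
        rintro rfl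
        have h3 := Y.pt_eq Q
        rw [hQ, Option.elim_some, hτ] at h3
        exact hQR (Y.pt_inj _ _ (hP.trans hQ.symm) (hP'.trans (pow_eq_zero_iff
          Y.prime.ne_zero |>.1 h3).symm))
      have hv := ((Model.val_x hQ).sub (Model.val_c (c := α))).ord_eq (sub_ne_zero.2 ha)
      exact ⟨_, m1 ▸ fv_mem_Sp (by simp), hv.1,
        by simp [hv.2, Model.H_fin (show Y.px Q ≠ none by simp [hQ]), hQR]⟩

end Vale.Agent.P319
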