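import Vale.Agent.P319.G2a

/-! G2b: negation with reduction.  `k = d / l + n * n + 1`, `B = lvl k W` spans
`LL (k H - Z)`, base point free by `bpf`.  For `t < n * l N + 1` (`idx` of `0 :: cmd.flatMap wd`):
`s = mom t B`, `C t = cneg M (2 M - k) s W` represents `Z' = dv s + k H - Z` if `s ≠ 0`, tag
`allnz ((C t).map (atP c))` (`Rep.avoid_iff`; the tag is zero if `s = 0`).  `exists_moment` with
the subspaces `LL (k H - Z - P α)` gives a good `t`.  Output `(l * k - d, selS ...)`. -/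

namespace Vale.Agent.P319
open Vale.Agent.Common.TreeTM Vale.Agent.P337 Finsupp

theorem G2b_num {n l : ℕ} (hl : 2 ≤ l) (hn : l ≤ n) :
    l * (n ^ 2 + 1) ≤ (n + 1) ^ 3 ∧ (n + 1) ^ 5 + n * n + 1 ≤ (n + 1) ^ 6 ∧
      2 * (n + 1) ^ 6 < (n + 1) ^ 9 := by
  refine ⟨by nlinarith [Nat.mul_le_mul_right (n ^ 2 + 1) hn], ?_, ?_⟩
  · have : (n + 1) ^ 2 ≤ (n + 1) ^ 5 := Nat.pow_le_pow_right (by omega) (by omega)
    nlinarith
  · have h1 : 0 < (n + 1) ^ 6 := by positivity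
    have h2 : 3 ^ 3 ≤ (n + 1) ^ 3 := Nat.pow_le_pow_left (by omega) 3
    nlinarith

theorem exists_ng : ∃ F : Cx × ℕ × Mx → ℕ × Mx, TC 0 F ∧ (∀ c w, ShS c (F (c, w))) ∧
    ∀ {K L Pt : Type} [Field K] [Field L] [Algebra K L] (Y : Model K L Pt) (m : ℕ) (c : Cx)
      (b : ℕ → K), Sem Y m c b → ∀ (d : ℕ) (W : Mx) (Z : Pt →₀ ℤ), Rep Y c b W Z → Small Y Z →
      degree Z = d → Std Y c b (F (c, d, W)) (-Z) ∧
        (Y.l ∣ d → (F (c, d, W)).1 = Y.l * (Y.n ^ 2 + 1)) := by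
  classical
  obtain ⟨lvl, t1, s1, h1⟩ := exists_lvl
  obtain ⟨mom, t2, -, h2⟩ := exists_mom
  obtain ⟨cneg, t3, s3, h3⟩ := exists_cneg
  obtain ⟨allnz, t4, -, h4⟩ := exists_allnz
  obtain ⟨selS, t5, s5, h5⟩ := exists_selS
  obtain ⟨kk, tk, hk⟩ : ∃ kk : Cx × ℕ × Mx → ℕ, TC 0 kk ∧ ∀ c d W, kk (c, d, W) =
      d / (cL c).length + ((cmd c).length * (cmd c).length + 1) :=
    ⟨fun a => a.2.1 / (cL a.1).length + ((cmd a.1).length * (cmd a.1).length + 1), by fun_prop,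
      fun _ _ _ => rfl⟩
  obtain ⟨M2, tM, hM⟩ : ∃ M : Cx → ℕ, TC 0 M ∧ ∀ c, M c = 2 * lvM c :=
    ⟨_, (TC.const 2).mul (tc_lvM TC.id), fun _ => rfl⟩
  obtain ⟨C, tC, hC⟩ : ∃ C : (Cx × ℕ × Mx) × ℕ → Mx, TC 0 C ∧ ∀ c d W t, C ((c, d, W), t) =
      cneg (c, lvM c, 2 * lvM c - kk (c, d, W), mom (c, t, lvl (c, kk (c, d, W), W)), W) :=
    ⟨fun p => cneg (p.1.1, lvM p.1.1, M2 p.1.1 - kk p.1,
      mom (p.1.1, p.2, lvl (p.1.1, kk p.1, p.1.2.2)), p.1.2.2), by fun_prop,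
      fun _ _ _ _ => by simp only [hM]⟩
  refine ⟨fun a => ((cL a.1).length * kk a - a.2.1, selS (a.1, wd a.1,
    (idx (0 :: (cmd a.1).flatMap fun _ => wd a.1)).map fun t =>
      (allnz (a.1, (C (a, t)).map (atP a.1)), C (a, t)))), by fun_prop,
    fun c w => ⟨?_, s5 _ _ _⟩, ?_⟩
  · obtain ⟨d, W⟩ := w
    have := Nat.mul_div_le d (cL c).length
    simp only [hk, mul_add] at this ⊢
    omega
  intro K L Pt _ _ _ Y m c b h d W Z hW hs hd
  obtain ⟨k, hkk⟩ : ∃ k, k = kk (c, d, W) := ⟨_, rfl⟩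
  have e1 : k = d / Y.l + (Y.n ^ 2 + 1) := by rw [hkk, hk, h.l_eq, h.n_eq, sq]
  obtain ⟨n1, n2, n3⟩ := G2b_num Y.two_le Y.l_le_n
  have n4 : (Y.n + 1) ^ 3 ≤ (Y.n + 1) ^ 5 := Nat.pow_le_pow_right (by omega) (by omega)
  have n5 : d ≤ (Y.n + 1) ^ 5 := by
    rw [Small, hd] at hs
    exact_mod_cast hs
  have n6 : k ≤ (Y.n + 1) ^ 6 := by
    have := Nat.div_le_self d Y.l
    rw [e1, sq]
    omega
  have n7 := Nat.div_add_mod d Y.l
  have n8 := Nat.mod_lt d Y.prime.pos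
  have n9 : Y.l * k = Y.l * (d / Y.l) + Y.l * Y.n ^ 2 + Y.l := by rw [e1]; ring
  have n10 := h.N_ge
  have n11 : Y.l * (Y.n ^ 2 + 1) = Y.l * Y.n ^ 2 + Y.l := by ring
  have hB := h1 Y m c b h k W Z n6 hW
  have hdeg : degree ((k : ℤ) • Y.H - Z) = ((Y.l * k - d : ℕ) : ℤ) := by
    rw [map_sub, map_zsmul, Model.degree_H, hd, smul_eq_mul, Nat.cast_sub (by omega)]
    push_cast
    ring
  have hbp : Y.Bpf (Y.LL ((k : ℤ) • Y.H - Z)) ((k : ℤ) • Y.H - Z) :=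
    Model.bpf (by rw [hdeg]; exact_mod_cast (by omega))
  have hmem : ∀ t, fv Y c b (mom (c, t, lvl (c, k, W))) ∈ Y.LL ((k : ℤ) • Y.H - Z) := fun t => by
    rw [h2 Y m c b h, ← hB]
    exact mem_Sp.2 ⟨_, rfl⟩
  have hC' := fun t => h3 Y m c b h (lvM c) (2 * lvM c - k) ((Y.n + 1) ^ 6) k
    (mom (c, t, lvl (c, k, W))) W _ (by rw [h.lvM_eq]; omega) (by rw [h.lvM_eq]; omega)
    (hW.bpf hs) (sub_le_self _ hW.1) (Model.LL_mono (sub_le_self _ hW.1) (hmem t))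
  have hrep : ∀ t, fv Y c b (mom (c, t, lvl (c, k, W))) ≠ 0 → Rep Y c b (C ((c, d, W), t))
      (Y.dv (fv Y c b (mom (c, t, lvl (c, k, W)))) + ((k : ℤ) • Y.H - Z)) := fun t ht => by
    have h0 := (Model.mem_LL_iff ht).1 (hmem t)
    refine ⟨h0, ?_⟩
    rw [hC, ← hkk, (hC' t).2 ht, h.lvM_eq, Nat.cast_sub (by omega), inf_eq_right.2]
    · congr 1
      push_cast
      module
    · refine Model.LL_mono (le_of_eq_of_le ?_ (sub_le_self _ h0))
      push_cast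
      module
  have hsm : ∀ u, Small Y (Y.dv u + ((k : ℤ) • Y.H - Z)) := fun u => by
    rw [Small, map_add, Model.degree_dv, hdeg, zero_add]
    exact_mod_cast (by omega)
  obtain ⟨α0, hα0⟩ : ∃ α, Y.f.IsRoot α := by
    have := Y.closed
    refine IsAlgClosed.exists_root _ fun hc => ?_
    have h6 := Polynomial.natDegree_eq_of_degree_eq_some (n := 0) hc
    rw [Y.natDegree] at h6
    have := Y.n1_pos
    have := Y.prime.pos
    nlinarith
  have htag : ∀ t, ev (cR c) b (allnz (c, (C ((c, d, W), t)).map (atP c))) ≠ 0 ↔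
      fv Y c b (mom (c, t, lvl (c, k, W))) ≠ 0 ∧
      Y.Avoid (Y.dv (fv Y c b (mom (c, t, lvl (c, k, W)))) + ((k : ℤ) • Y.H - Z)) := by
    intro t
    rw [h4 Y m c b h]
    simp only [ne_eq, ite_eq_right_iff, one_ne_zero, imp_false, not_not, List.mem_map,
      exists_exists_and_eq_and]
    refine ⟨fun h6 => ?_, fun h6 => ((hrep t h6.1).avoid_iff h (hsm _)).1 h6.2⟩
    have h7 : fv Y c b (mom (c, t, lvl (c, k, W))) ≠ 0 := fun h7 => by
      obtain ⟨u, hu, h8⟩ := h6 α0 hα0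
      have h9 := fv_mem_Sp (Y := Y) (c := c) (b := b) hu
      rw [hC, ← hkk, (hC' t).1 h7, Submodule.mem_bot] at h9
      have h10 := h.val_atP hα0 u
      rw [h9, ← map_zero (algebraMap K L)] at h10
      exact h8 (h10.unique Model.val_c)
    exact ⟨h7, ((hrep t h7).avoid_iff h (hsm _)).2 h6⟩
  have hlen : (lvl (c, k, W)).length = Y.l * (cN c).length := (s1 c k W).1.trans h.wd_eq
  have := h.charP
  obtain ⟨t, ht, hgood⟩ := exists_moment (cR c).1 (lvl (c, k, W)).length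
    (fun j => fv Y c b ((lvl (c, k, W)).getD j [])) Y.f.roots.toFinset
    (fun α => Y.LL ((k : ℤ) • Y.H - Z - single (Y.P α) 1)) (fun α _ => by
      by_contra hc
      push Not at hc
      obtain ⟨u, hu, h6, h7⟩ := hbp.2 (Y.P α)
      rw [← hB, mem_Sp] at hu
      obtain ⟨a, rfl⟩ := hu
      have h8 := (Submodule.sum_mem _ fun j hj => Submodule.smul_mem _ (a j)
        (hc j (Finset.mem_range.1 hj))) (Y.P α)
      have h9 := h8.resolve_left h6
      rw [h7, Finsupp.sub_apply _ (single _ _), single_eq_same] at h9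
      omega) (T := Y.n * (Y.l * (cN c).length) + 1)
    (by rw [Model.card_roots, hlen]; omega) h.p_gt
  rw [← h2 Y m c b h] at hgood
  have hroot : ∀ α, Y.f.IsRoot α → α ∈ Y.f.roots.toFinset := fun α hα =>
    Multiset.mem_toFinset.2 ((Polynomial.mem_roots Y.monic.ne_zero).2 hα)
  have hne : fv Y c b (mom (c, t, lvl (c, k, W))) ≠ 0 := fun hc =>
    hgood α0 (hroot α0 hα0) (hc ▸ Submodule.zero_mem _)
  obtain ⟨l₁, ⟨a, W'⟩, l₂, e2, h6, h7⟩ := exists_first_split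
    (fun t : El × Mx => ev (cR c) b t.1 ≠ 0)
    ((idx (0 :: (cmd c).flatMap fun _ => wd c)).map fun t =>
      (allnz (c, (C ((c, d, W), t)).map (atP c)), C ((c, d, W), t)))
    ⟨_, List.mem_map.2 ⟨t, by
      simpa [idx, List.length_flatMap, h.n_eq, h.wd_eq] using Nat.lt_succ_iff.1 ht, rfl⟩,
      (htag t).2 ⟨hne, fun Q hQ => by
        obtain ⟨α, hα, rfl⟩ := Model.eq_P hQ
        have h8 := (hmem t (Y.P α)).resolve_left hne
        rw [Finsupp.add_apply, Model.dv_apply]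
        by_contra h9
        exact hgood α (hroot α hα) (Model.T3_sub_single (hmem t) (Or.inr (by omega)))⟩⟩
  obtain ⟨t', -, e3⟩ := List.mem_map.1 (e2 ▸ List.mem_append_right l₁ List.mem_cons_self)
  obtain ⟨rfl, rfl⟩ := Prod.mk.inj e3
  obtain ⟨h8, h9⟩ := (htag t').1 h6
  have h10 := (h5 Y m c b h (wd c) l₁ _ (C ((c, d, W), t')) l₂ (fun t ht => not_not.1 (h7 t ht)) h6
    (by rw [hC]; exact (s3 _ _ _ _ _).1)).2
  dsimp only
  rw [e2, ← hkk, h.l_eq]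
  refine ⟨⟨_, ⟨(hrep t' h8).1, h10.trans (hrep t' h8).2⟩, h9,
    by rw [map_add, Model.degree_dv, hdeg, zero_add], by dsimp only; rw [mul_add]; omega, ?_⟩,
    fun hl => ?_⟩
  · rw [sub_neg_eq_add, add_assoc, sub_add_cancel]
    exact Submodule.add_mem _ (Model.dv_mem_Prin _) (Submodule.smul_mem _ _ Model.H_mem_Prin)
  · have := Nat.mul_div_cancel' hl
    rw [mul_add]
    omega

end Vale.Agent.P319
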