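import Vale.Agent.P319.T4

/-! T6: `G = Div / Prin` as a `ℤ[ζ]`-module.  `l = lam ^ (l - 1) * ∏ uE a` modulo the norm `uE l`:
in `ℤ[X]`, `∏_{a=1}^{l-1} (1 - X ^ a) - l` is divisible by the cyclotomic polynomial
`∑_{i<l} X ^ i` (`IsPrimitiveRoot.prod_one_sub_pow_eq_order`, minimal polynomial over `ℤ`).
`level`: let `G_j = {D | lam ^ j D ∈ Prin}`.  For every power `F` of `φE`, `F - 1` maps `G_(j+1)` to
`G_j` (`φE_sub_of_lam`), `l` maps `G_(j+l-1)` to `G_j`, and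
`F ^ l - 1 = (F - 1) * ((F - 1) ^ (l - 1) + l * q(F))`.  So `φE ^ (l ^ t) - 1` sends `D` into
`G_(j - t (l - 1))`. -/

namespace Vale.Agent.P319
open Polynomial Finsupp
namespace Model
variable {K L Pt : Type} [Field K] [Field L] [Algebra K L] (Y : Model K L Pt)

/-- the unit `∏_{a=1}^{l-1} uE a` -/
noncomputable def unitE : Module.End ℤ (Pt →₀ ℤ) :=
  ((List.range (Y.l - 1)).map fun a => Y.uE (a + 1)).prod

variable {Y} {D : Pt →₀ ℤ}

theorem T6_unit (k : ℕ) : ((List.range k).map fun a => Y.uE (a + 1)).prod =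
    aeval Y.sE (∏ a ∈ Finset.range k, ∑ i ∈ Finset.range (a + 1), X ^ i : ℤ[X]) := by
  induction k with
  | zero => simp
  | succ k ih =>
    rw [List.range_succ, List.map_append, List.prod_append, ih, Finset.prod_range_succ, map_mul]
    simp [uE]

theorem T6_lam : Y.lam = aeval Y.sE (1 - X : ℤ[X]) := by simp [lam]

theorem T6_dvd {l : ℕ} (hl : l.Prime) : (∑ i ∈ Finset.range l, X ^ i : ℤ[X]) ∣ (l : ℤ[X]) -
    (1 - X) ^ (l - 1) * ∏ a ∈ Finset.range (l - 1), ∑ i ∈ Finset.range (a + 1), X ^ i := by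
  have := Fact.mk hl
  have hμ := Complex.isPrimitiveRoot_exp l hl.ne_zero
  generalize Complex.exp (2 * Real.pi * Complex.I / l) = μ at hμ
  rw [← cyclotomic_prime, cyclotomic_eq_minpoly hμ hl.pos]
  refine minpoly.isIntegrallyClosed_dvd (hμ.isIntegral hl.pos) ?_
  obtain ⟨k, rfl⟩ : ∃ k, l = k + 1 := ⟨l - 1, by have := hl.pos; omega⟩
  have h1 : (1 - X : ℤ[X]) ^ k * ∏ a ∈ Finset.range k, ∑ i ∈ Finset.range (a + 1), X ^ i =
      ∏ a ∈ Finset.range k, (1 - X ^ (a + 1)) := by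
    rw [← Finset.prod_congr rfl fun a _ => mul_neg_geom_sum (X : ℤ[X]) (a + 1),
      Finset.prod_mul_distrib, Finset.prod_const, Finset.card_range]
  rw [Nat.add_sub_cancel, h1]
  simp [map_prod, hμ.prod_one_sub_pow_eq_order]

theorem l_pow_smul_sub (s : ℕ) (D : Pt →₀ ℤ) :
    ((Y.l ^ s : ℕ) : ℤ) • D - (Y.lam ^ (s * (Y.l - 1))) ((Y.unitE ^ s) D) ∈ Y.Prin := by
  obtain ⟨q, hq⟩ := (T6_dvd Y.prime).trans (sub_dvd_pow_sub_pow _ _ s)
  have h1 : (aeval Y.sE _ : Module.End ℤ (Pt →₀ ℤ)) = aeval Y.sE _ := congrArg _ hq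
  rw [map_sub, mul_pow, map_mul, map_mul, map_pow, map_pow, map_pow, map_pow, ← T6_lam, ← T6_unit,
    map_natCast, ← pow_mul, mul_comm _ s, ← Nat.cast_pow, map_sum] at h1
  simp only [map_pow, aeval_X] at h1
  have h2 := norm_mem_Prin (Y := Y) (aeval Y.sE q D)
  rw [uE, ← Module.End.mul_apply, ← h1, LinearMap.sub_apply, Module.End.natCast_apply] at h2
  rwa [natCast_zsmul]

theorem l_smul_sub (D : Pt →₀ ℤ) :
    (Y.l : ℤ) • D - (Y.lam ^ (Y.l - 1)) (Y.unitE D) ∈ Y.Prin := by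
  simpa using l_pow_smul_sub (Y := Y) 1 D

theorem degree_unitE_pow (s : ℕ) (D : Pt →₀ ℤ) :
    degree ((Y.unitE ^ s) D) = ((Y.l - 1).factorial : ℤ) ^ s * degree D := by
  have key : ∀ (k : ℕ) (D : Pt →₀ ℤ), degree (((List.range k).map fun a => Y.uE (a + 1)).prod D) =
      (k.factorial : ℤ) * degree D := by
    intro k
    induction k with
    | zero => simp
    | succ k ih =>
      intro D
      rw [List.range_succ, List.map_append, List.prod_append, Module.End.mul_apply, ih,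
        Nat.factorial_succ]
      simp only [List.map_singleton, List.prod_singleton, degree_uE]
      push_cast
      ring
  induction s with
  | zero => simp
  | succ s ih =>
    rw [pow_succ', Module.End.mul_apply, unitE, key, ← unitE, ih]
    ring

theorem T6_comm (i k : ℕ) (D : Pt →₀ ℤ) :
    (Y.lam ^ i) ((Y.φE ^ k) D) = (Y.φE ^ k) ((Y.lam ^ i) D) := by
  have : Commute Y.lam Y.φE := (Commute.one_left _).sub_left sE_φE
  rw [← Module.End.mul_apply, (this.pow_pow i k).eq, Module.End.mul_apply]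

theorem T6_iter {F : Module.End ℤ (Pt →₀ ℤ)} (hF : ∀ D ∈ Y.Prin, F D ∈ Y.Prin)
    (h : F D - D ∈ Y.Prin) (k : ℕ) : (F ^ k) D - D ∈ Y.Prin := by
  induction k with
  | zero => simp
  | succ k ih =>
    have := Y.Prin.add_mem (hF _ ih) h
    rwa [map_sub, sub_add_sub_cancel, ← Module.End.mul_apply, ← pow_succ'] at this

theorem T6_down {i : ℕ} (k : ℕ) (h : (Y.lam ^ i) D ∈ Y.Prin) :
    (Y.lam ^ (i - 1)) ((Y.φE ^ k - 1) D) ∈ Y.Prin := by
  rw [LinearMap.sub_apply, Module.End.one_apply, map_sub, T6_comm]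
  cases i with
  | zero => exact Y.Prin.sub_mem (φE_pow_mem_Prin k h) h
  | succ i =>
    rw [pow_succ', Module.End.mul_apply] at h
    exact T6_iter (fun D hD => by simpa using φE_pow_mem_Prin 1 hD) (φE_sub_of_lam h) k

theorem T6_down_pow {i : ℕ} (k r : ℕ) (h : (Y.lam ^ i) D ∈ Y.Prin) :
    (Y.lam ^ (i - r)) (((Y.φE ^ k - 1) ^ r) D) ∈ Y.Prin := by
  induction r with
  | zero => simpa using h
  | succ r ih =>
    rw [pow_succ', Module.End.mul_apply, ← Nat.sub_sub]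
    exact T6_down k ih

theorem T6_l {i : ℕ} (h : (Y.lam ^ i) D ∈ Y.Prin) :
    (Y.lam ^ (i - (Y.l - 1))) ((Y.l : ℤ) • D) ∈ Y.Prin := by
  have h1 := lam_pow_mem_Prin (i - (Y.l - 1)) (l_smul_sub (Y := Y) D)
  rw [map_sub] at h1
  refine (Y.Prin.sub_mem_iff_left ?_).1 h1
  obtain ⟨k, hk⟩ : ∃ k, i - (Y.l - 1) + (Y.l - 1) = k + i :=
    ⟨i - (Y.l - 1) + (Y.l - 1) - i, by omega⟩
  rw [← Module.End.mul_apply, ← pow_add, hk, pow_add, Module.End.mul_apply]
  refine lam_pow_mem_Prin k ?_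
  rw [← Module.End.mul_apply, unitE, T6_unit, T6_lam, ← map_pow, ← map_mul, mul_comm, map_mul,
    map_pow, ← T6_lam, Module.End.mul_apply]
  exact aeval_apply_smul_mem_of_le_comap h _ _ fun D hD => by
    simpa using sE_pow_mem_Prin 1 hD

theorem T6_step {i k : ℕ} (h : (Y.lam ^ i) ((Y.φE ^ k - 1) D) ∈ Y.Prin) :
    (Y.lam ^ (i - (Y.l - 1))) ((Y.φE ^ (k * Y.l) - 1) D) ∈ Y.Prin := by
  obtain ⟨r, hr⟩ := exists_add_pow_prime_eq Y.prime (X - 1 : ℤ[X]) 1
  have h1 : (X ^ Y.l - 1 : ℤ[X]) =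
      (X - 1) ^ (Y.l - 1) * (X - 1) + (Y.l : ℤ[X]) * (r * (X - 1)) := by
    rw [← pow_succ, Nat.sub_add_cancel Y.prime.pos]
    rw [sub_add_cancel, one_pow] at hr
    rw [hr]
    ring
  have h2 : (aeval (Y.φE ^ k) _ : Module.End ℤ (Pt →₀ ℤ)) = aeval (Y.φE ^ k) _ := congrArg _ h1
  simp only [map_sub, map_add, map_mul, map_pow, map_natCast, aeval_X, map_one] at h2
  rw [pow_mul, h2, LinearMap.add_apply, map_add, Module.End.mul_apply, Module.End.mul_apply,
    Module.End.mul_apply, Module.End.natCast_apply, ← natCast_zsmul]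
  refine Y.Prin.add_mem (T6_down_pow k _ h) (T6_l ?_)
  exact aeval_apply_smul_mem_of_le_comap (q := Y.Prin.comap (Y.lam ^ i)) h _ _ fun D hD => by
    rw [Submodule.mem_comap, Submodule.mem_comap, T6_comm]
    exact φE_pow_mem_Prin k hD

theorem level {j s m : ℕ} (hj : j ≤ s * (Y.l - 1)) (hm : Y.l ^ s ∣ m)
    (h : Y.φE ((Y.lam ^ j) D) - (Y.lam ^ j) D ∈ Y.Prin) : (Y.φE ^ m) D - D ∈ Y.Prin := by
  have key : ∀ t : ℕ, (Y.lam ^ (j - t * (Y.l - 1))) ((Y.φE ^ Y.l ^ t - 1) D) ∈ Y.Prin := by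
    intro t
    induction t with
    | zero =>
      rw [zero_mul, Nat.sub_zero, LinearMap.sub_apply, map_sub, T6_comm]
      simpa using h
    | succ t ih =>
      rw [add_mul, one_mul, ← Nat.sub_sub, pow_succ]
      exact T6_step ih
  obtain ⟨k, rfl⟩ := hm
  have := key s
  rw [Nat.sub_eq_zero_of_le hj, pow_zero] at this
  rw [pow_mul]
  exact T6_iter (fun D hD => φE_pow_mem_Prin _ hD) this k

end Model
end Vale.Agent.P319
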