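import Vale.Agent.P319.G2b
import Vale.Agent.P319.T6
import Vale.Agent.P319.CodeTC

/-! G2c: arithmetic of divisor classes.  `cred = ng ∘ ng`, `cadd = cred ∘ gadd`,
`clam w = cadd w (ng (gsig 1 w))`; `cxv`: start from `cred (1, repInf)`, apply `iS.length` times
the fold over `a < l - 1` of `w ↦ cred ((a + 1) d, gU (take (a + 1) iL) w)` (the `uE` commute),
finally `cred (i2.length * d, gmul i2 (basis M) w)`. -/

namespace Vale.Agent.P319
open Vale.Agent.Common.TreeTM Vale.Agent.P337 Finsupp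

section
variable {K L Pt : Type} [Field K] [Field L] [Algebra K L] {Y : Model K L Pt} {c : Cx} {b : ℕ → K}

theorem G2c_congr {w : ℕ × Mx} {D D' : Pt →₀ ℤ} (h : Std Y c b w D) (h' : D - D' ∈ Y.Prin) :
    Std Y c b w D' := by
  obtain ⟨Z, h1, h2, h3, h4, h5⟩ := h
  exact ⟨Z, h1, h2, h3, h4, by simpa using Y.Prin.add_mem h5 h'⟩

theorem G2c_small {Z : Pt →₀ ℤ} {j d : ℕ} (hj : j ≤ Y.n) (hd : d ≤ Y.l * (Y.n ^ 2 + 1))
    (h : degree Z ≤ ((j * d : ℕ) : ℤ)) : Small Y Z := by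
  refine h.trans (Nat.cast_le.2 ?_)
  have h1 := (G2b_num Y.two_le Y.l_le_n).1
  calc j * d ≤ (Y.n + 1) ^ 2 * (Y.n + 1) ^ 3 := Nat.mul_le_mul (by nlinarith) (hd.trans h1)
    _ = _ := by ring

theorem G2c_two (Y : Model K L Pt) : 2 ≤ Y.n := Y.two_le.trans Y.l_le_n

end

theorem exists_cred : ∃ F : Cx × ℕ × Mx → ℕ × Mx, TC 0 F ∧ (∀ c w, ShS c (F (c, w))) ∧
    ∀ {K L Pt : Type} [Field K] [Field L] [Algebra K L] (Y : Model K L Pt) (m : ℕ) (c : Cx)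
      (b : ℕ → K), Sem Y m c b → ∀ (d : ℕ) (W : Mx) (Z : Pt →₀ ℤ), Rep Y c b W Z → Small Y Z →
      degree Z = d → Std Y c b (F (c, d, W)) Z ∧
        (Y.l ∣ d → (F (c, d, W)).1 = Y.l * (Y.n ^ 2 + 1)) := by
  obtain ⟨ng, t1, s1, h1⟩ := exists_ng
  refine ⟨fun a => ng (a.1, ng a), by fun_prop, fun c w => s1 _ _, ?_⟩
  intro K L Pt _ _ _ Y m c b h d W Z hW hs hd
  obtain ⟨⟨Z', a1, -, a3, a4, a5⟩, a6⟩ := h1 Y m c b h d W Z hW hs hd
  obtain ⟨b1, b2⟩ := h1 Y m c b h _ _ Z' a1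
    (G2c_small (j := 1) (by have := G2c_two Y; omega) a4 (by rw [a3, one_mul])) a3
  refine ⟨G2c_congr b1 ?_, fun hl => b2 (by rw [a6 hl]; exact dvd_mul_right _ _)⟩
  have := Y.Prin.neg_mem a5
  rwa [sub_neg_eq_add, neg_add, ← sub_eq_add_neg] at this

theorem exists_csub : ∃ F : Cx × (ℕ × Mx) × ℕ × Mx → ℕ × Mx, TC 0 F ∧
    (∀ c w w', ShS c (F (c, w, w'))) ∧
    ∀ {K L Pt : Type} [Field K] [Field L] [Algebra K L] (Y : Model K L Pt) (m : ℕ) (c : Cx)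
      (b : ℕ → K), Sem Y m c b → ∀ (w w' : ℕ × Mx) (D D' : Pt →₀ ℤ), Std Y c b w D →
      Std Y c b w' D' → Std Y c b (F (c, w, w')) (D - D') := by
  obtain ⟨ng, t1, -, h1⟩ := exists_ng
  obtain ⟨cred, t2, s2, h2⟩ := exists_cred
  obtain ⟨gadd, t3, -, h3⟩ := exists_gadd
  refine ⟨fun a => cred (a.1, a.2.1.1 + (ng (a.1, a.2.2)).1,
    gadd (a.1, a.2.1.2, (ng (a.1, a.2.2)).2)), by fun_prop, fun c w w' => s2 _ _, ?_⟩
  rintro K L Pt _ _ _ Y m c b h w w' D D' ⟨Z, a1, -, a3, a4, a5⟩ ⟨Z', b1, -, b3, b4, b5⟩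
  have h0 := G2c_two Y
  obtain ⟨Z'', c1, -, c3, c4, c5⟩ := (h1 Y m c b h _ _ Z' b1
    (G2c_small (j := 1) (by omega) b4 (by rw [b3, one_mul])) b3).1
  have hs : Small Y (Z + Z'') := G2c_small (j := 2) h0 le_rfl (by
    rw [map_add, a3, c3]
    exact_mod_cast (by omega))
  refine G2c_congr (h2 Y m c b h _ _ _ (h3 Y m c b h _ _ _ _ a1 c1 hs) hs
    (by rw [map_add, a3, c3, Nat.cast_add])).1 ?_
  convert Y.Prin.sub_mem (Y.Prin.add_mem a5 c5) b5 using 1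
  abel

theorem exists_clam : ∃ F : Cx × ℕ × Mx → ℕ × Mx, TC 0 F ∧ (∀ c w, ShS c (F (c, w))) ∧
    ∀ {K L Pt : Type} [Field K] [Field L] [Algebra K L] (Y : Model K L Pt) (m : ℕ) (c : Cx)
      (b : ℕ → K), Sem Y m c b → ∀ (w : ℕ × Mx) (D : Pt →₀ ℤ), Std Y c b w D →
      Std Y c b (F (c, w)) (Y.lam D) := by
  obtain ⟨csub, t1, s1, h1⟩ := exists_csub
  obtain ⟨gsig, t2, -, h2⟩ := exists_gsig
  refine ⟨fun a => csub (a.1, a.2, a.2.1, gsig (a.1, 1, a.2.2)), by fun_prop,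
    fun c w => s1 _ _ _, ?_⟩
  intro K L Pt _ _ _ Y m c b h w D hw
  refine h1 Y m c b h w _ D (Y.sE D) hw ?_
  obtain ⟨Z, a1, a2, a3, a4, a5⟩ := hw
  refine ⟨_, h2 Y m c b h 1 _ Z a1, a2.sE_pow 1, by rw [Model.degree_sE_pow, a3], a4, ?_⟩
  simpa using Model.sE_pow_mem_Prin 1 a5

/-- iteration of an operation on classes -/
theorem G2c_iter {G : Cx × ℕ × ℕ × Mx → ℕ × Mx} (tG : TC 0 G) (sG : ∀ c a w, ShS c (G (c, a, w))) :
    ∃ F : Cx × List ℕ × ℕ × Mx → ℕ × Mx, TC 0 F ∧ (∀ c i w, ShS c (F (c, i, w))) ∧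
    ∀ {K L Pt : Type} [Field K] [Field L] [Algebra K L] (Y : Model K L Pt) (m : ℕ) (c : Cx)
      (b : ℕ → K), Sem Y m c b → ∀ (i : List ℕ) (w : ℕ × Mx) (D : ℕ → Pt →₀ ℤ),
      Std Y c b w (D 0) →
      (∀ a < i.length, ∀ w, Std Y c b w (D a) → Std Y c b (G (c, a, w)) (D (a + 1))) →
      Std Y c b (F (c, i, w)) (D i.length) := by
  obtain ⟨cred, t2, s2, h2⟩ := exists_cred
  refine ⟨fun a => (idx a.2.1).foldl (fun w j => G (a.1, j, w)) (cred (a.1, a.2.2)),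
    tc_fold_ShS (c := fun a : Cx × List ℕ × ℕ × Mx => a.1) (f := fun a w j => G (a.1, j, w))
      (by fun_prop) (by fun_prop) (by fun_prop) (by fun_prop) (fun _ => s2 _ _)
      fun _ _ _ => sG _ _ _,
    fun c i w => R1_fold (ShS c) _ (fun _ _ => sG _ _ _) _ _ (s2 _ _), ?_⟩
  rintro K L Pt _ _ _ Y m c b h i w D ⟨Z, a1, -, a3, a4, a5⟩ hG
  have key : ∀ k ≤ i.length, Std Y c b
      ((List.range k).foldl (fun w j => G (c, j, w)) (cred (c, w))) (D k) := by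
    intro k
    induction k with
    | zero =>
      exact fun _ => G2c_congr (h2 Y m c b h _ _ Z a1
        (G2c_small (j := 1) (by have := G2c_two Y; omega) a4 (by rw [a3, one_mul])) a3).1 a5
    | succ k ih =>
      intro hk
      rw [List.range_succ, List.foldl_append]
      exact hG k hk _ (ih (by omega))
  exact key _ le_rfl

/-- the list of `lam ^ j D`, `j ≤ iV.length` -/
theorem exists_clams : ∃ F : Cx × List ℕ × ℕ × Mx → List (ℕ × Mx), TC 0 F ∧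
    ∀ {K L Pt : Type} [Field K] [Field L] [Algebra K L] (Y : Model K L Pt) (m : ℕ) (c : Cx)
      (b : ℕ → K), Sem Y m c b → ∀ (iV : List ℕ) (w : ℕ × Mx) (D : Pt →₀ ℤ), Std Y c b w D →
      ∀ j ≤ iV.length, ∃ w' ∈ F (c, iV, w), Std Y c b w' ((Y.lam ^ j) D) := by
  obtain ⟨clam, t1, s1, h1⟩ := exists_clam
  obtain ⟨F, t2, -, h2⟩ := G2c_iter (G := fun a => clam (a.1, a.2.2)) (by fun_prop)
    fun _ _ _ => s1 _ _
  refine ⟨fun a => (idx (0 :: a.2.1)).map fun j => F (a.1, a.2.1.take j, a.2.2), by fun_prop, ?_⟩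
  intro K L Pt _ _ _ Y m c b h iV w D hw j hj
  refine ⟨_, List.mem_map.2 ⟨j, by simpa [idx] using Nat.lt_succ_iff.2 hj, rfl⟩, ?_⟩
  have := h2 Y m c b h (iV.take j) w (fun j => (Y.lam ^ j) D) hw fun a _ w hw => by
    rw [pow_succ', Module.End.mul_apply]
    exact h1 Y m c b h w _ hw
  rwa [List.length_take_of_le hj] at this

theorem exists_cxv : ∃ F : Cx × List ℕ × List ℕ → ℕ × Mx, TC 0 F ∧
    ∀ {K L Pt : Type} [Field K] [Field L] [Algebra K L] (Y : Model K L Pt) (m : ℕ) (c : Cx)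
      (b : ℕ → K), Sem Y m c b → ∀ iS i2 : List ℕ, i2.length ≤ Y.n →
      Std Y c b (F (c, iS, i2))
        ((i2.length : ℤ) • (Y.unitE ^ iS.length) (single Y.inf 1)) := by
  obtain ⟨cred, t1, s1, h1⟩ := exists_cred
  obtain ⟨gU, t2, -, h2⟩ := exists_gU
  obtain ⟨gmul, t3, -, h3⟩ := exists_gmul
  obtain ⟨repInf, t4, -, h4⟩ := exists_repInf
  obtain ⟨basis, t5, -, h5⟩ := exists_basis
  obtain ⟨U, t6, s6, h6⟩ := G2c_iter (G := fun a => cred (a.1, (a.2.1 + 1) * a.2.2.1,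
    gU (a.1, (cL a.1).take (a.2.1 + 1), a.2.2.2))) (by fun_prop) fun _ _ _ => s1 _ _
  obtain ⟨V, t7, -, h7⟩ := G2c_iter (G := fun a => U (a.1, (cL a.1).tail, a.2.2)) (by fun_prop)
    fun _ _ _ => s6 _ _ _
  obtain ⟨A, t8, h8⟩ : ∃ A : Cx × List ℕ → ℕ × Mx, TC 0 A ∧
      ∀ c i, A (c, i) = V (c, i, cred (c, 1, repInf c)) :=
    ⟨fun a => V (a.1, a.2, cred (a.1, 1, repInf a.1)), by fun_prop, fun _ _ => rfl⟩
  refine ⟨fun a => cred (a.1, a.2.2.length * (A (a.1, a.2.1)).1,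
    gmul (a.1, a.2.2, basis (a.1, lvM a.1), (A (a.1, a.2.1)).2)), by fun_prop, ?_⟩
  intro K L Pt _ _ _ Y m c b h iS i2 hi
  have h0 := G2c_two Y
  have hl := Y.two_le
  have hn := Y.l_le_n
  obtain ⟨Z, a1, -, a3, a4, a5⟩ : Std Y c b (A (c, iS)) ((Y.unitE ^ iS.length) (single Y.inf 1)) := by
    rw [h8]
    refine h7 Y m c b h iS _ (fun j => (Y.unitE ^ j) (single Y.inf 1))
      (h1 Y m c b h 1 _ _ (h4 Y m c b h) (G2c_small (j := 1) (d := 1) (by omega) (by nlinarith)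
        (by simp)) (by simp)).1 fun a _ w hw => ?_
    rw [pow_succ', Module.End.mul_apply]
    generalize (Y.unitE ^ a) (single Y.inf 1) = D at hw
    have := h6 Y m c b h (cL c).tail w
      (fun k => ((List.range k).map fun a => Y.uE (a + 1)).prod D) (by simpa using hw) ?_
    · rwa [List.length_tail, h.l_eq] at this
    rintro a ha w ⟨Z, a1, -, a3, a4, a5⟩
    rw [List.length_tail, h.l_eq] at ha
    have e : ((cL c).take (a + 1)).length = a + 1 := List.length_take_of_le (by rw [h.l_eq]; omega)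
    have hd : degree (Y.uE (a + 1) Z) = (((a + 1) * w.1 : ℕ) : ℤ) := by
      rw [Model.degree_uE, a3, Nat.cast_mul]
    have hs : Small Y (Y.uE (a + 1) Z) := G2c_small (by omega) a4 hd.le
    have hr := h2 Y m c b h ((cL c).take (a + 1)) _ Z a1 (by rwa [e])
    rw [e] at hr
    refine G2c_congr (h1 Y m c b h _ _ _ hr hs hd).1 ?_
    have e2 : ((List.range (a + 1)).map fun a => Y.uE (a + 1)).prod =
        Y.uE (a + 1) * ((List.range a).map fun a => Y.uE (a + 1)).prod := by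
      rw [Model.T6_unit, Model.T6_unit, Finset.prod_range_succ_comm, map_mul]
      simp [Model.uE]
    rw [e2, Module.End.mul_apply, ← map_sub]
    exact Model.uE_mem_Prin _ a5
  have hd : degree (0 + (i2.length : ℤ) • Z) = ((i2.length * (A (c, iS)).1 : ℕ) : ℤ) := by
    rw [zero_add, map_zsmul, a3, Nat.cast_mul, smul_eq_mul]
  have hs : Small Y (0 + (i2.length : ℤ) • Z) := G2c_small hi a4 hd.le
  refine G2c_congr (h1 Y m c b h _ _ _ (h3 Y m c b h i2 _ _ 0 Z ⟨le_rfl, ?_⟩ a1 hs) hs hd).1 ?_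
  · have := (G2b_num hl hn).2.2
    have := h.N_ge
    rw [h5 Y m c b h _ (by rw [h.lvM_eq]; omega), h.lvM_eq, sub_zero]
  · rw [zero_add, ← smul_sub]
    exact Y.Prin.smul_mem _ a5

end Vale.Agent.P319
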