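import Vale.Agent.P319.G2c
import Vale.Agent.P319.T4

/-! G3: making the degree divisible by `l`.  `NW = gU iL W`; for `d ≤ n (2 n + 1)` the tag is
`nzS (lvl d NW)`, nonzero iff `deg Z ≤ d` (`norm_LL`), the candidate is
`(cred (d + k, gmul (take k iL) W (repP τ))).2` with `k = (l - d % l) % l`; select the first. -/

namespace Vale.Agent.P319
open Vale.Agent.Common.TreeTM Vale.Agent.P337 Finsupp

theorem exists_fix : ∃ F : Cx × El × Mx → Mx, TC 0 F ∧ (∀ c τ W, Sh c (F (c, τ, W))) ∧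
    ∀ {K L Pt : Type} [Field K] [Field L] [Algebra K L] (Y : Model K L Pt) (m : ℕ) (c : Cx)
      (b : ℕ → K), Sem Y m c b → ∀ (τ : El) (W : Mx) (Z : Pt →₀ ℤ), Y.f.IsRoot (ev (cR c) b τ) →
      Rep Y c b W Z → degree Z ≤ ((Y.n * (2 * Y.n + 1) : ℕ) : ℤ) →
      ∃ k : ℕ, (Y.l : ℤ) ∣ degree Z + k ∧ Std Y c b (Y.l * (Y.n ^ 2 + 1), F (c, τ, W))
        (Z + single (Y.P (ev (cR c) b τ)) (k : ℤ)) := by
  classical
  obtain ⟨cred, t1, s1, h1⟩ := exists_cred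
  obtain ⟨gU, t2, -, h2⟩ := exists_gU
  obtain ⟨gmul, t3, -, h3⟩ := exists_gmul
  obtain ⟨repP, t4, -, h4⟩ := exists_repP
  obtain ⟨lvl, t5, -, h5⟩ := exists_lvl
  obtain ⟨nzS, t6, -, h6⟩ := exists_nzS
  obtain ⟨selS, t7, s7, h7⟩ := exists_selS
  obtain ⟨kk, tk, hk⟩ : ∃ kk : Cx × ℕ → ℕ, TC 0 kk ∧ ∀ c d, kk (c, d) =
      ((cL c).length - d % (cL c).length) % (cL c).length :=
    ⟨fun a => ((cL a.1).length - a.2 % (cL a.1).length) % (cL a.1).length, by fun_prop,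
      fun _ _ => rfl⟩
  refine ⟨fun a => selS (a.1, wd a.1,
    (idx (0 :: (cmd a.1).flatMap fun _ => 0 :: (idx (cmd a.1) ++ idx (cmd a.1)))).map fun d =>
      (nzS (a.1, lvl (a.1, d, gU (a.1, cL a.1, a.2.2))), (cred (a.1, d + kk (a.1, d),
        gmul (a.1, (cL a.1).take (kk (a.1, d)), a.2.2, repP (a.1, a.2.1)))).2)), by fun_prop,
    fun c τ W => s7 _ _ _, ?_⟩
  intro K L Pt _ _ _ Y m c b h τ W Z hτ hW hd
  obtain ⟨d, hd'⟩ : ∃ d : ℕ, degree Z = d := ⟨(degree Z).toNat, by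
    have := Model.degree_nonneg hW.1
    omega⟩
  rw [hd', Nat.cast_le] at hd
  have hl := Y.two_le
  have hn := Y.l_le_n
  have n0 : (Y.n + 1) ^ 3 ≤ (Y.n + 1) ^ 5 := Nat.pow_le_pow_right (by omega) (by omega)
  have n1 : Y.n * (2 * Y.n + 1) + Y.n ≤ (Y.n + 1) ^ 3 := by nlinarith [Nat.zero_le (Y.n ^ 3)]
  have n2 : Y.l * d ≤ (Y.n + 1) ^ 5 :=
    calc Y.l * d ≤ (Y.n + 1) ^ 2 * (Y.n + 1) ^ 3 := Nat.mul_le_mul (by nlinarith) (by omega)
      _ = _ := by ring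
  have n3 := (G2b_num hl hn).2.1
  have hN := h2 Y m c b h (cL c) W Z hW (by
    rw [Small, Model.degree_uE, hd', h.l_eq]
    exact_mod_cast n2)
  rw [h.l_eq] at hN
  have htag : ∀ d' ≤ d, ev (cR c) b (nzS (c, lvl (c, d', gU (c, cL c, W)))) = 0 ↔ d' < d := by
    intro d' hd''
    rw [h6 Y m c b h, h5 Y m c b h d' _ _ (by omega) hN, ← not_le, ← Nat.cast_le (α := ℤ), ← hd',
      ← Model.norm_LL (Y := Y)]
    simp only [ite_eq_left_iff, one_ne_zero, imp_false, not_not, not_exists, not_and,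
      Submodule.eq_bot_iff]
    exact ⟨fun h u hu hu' => hu (h u hu'), fun h u hu => by_contra fun hc => h u hc hu⟩
  obtain ⟨l₂, e⟩ : ∃ l₂, idx (0 :: (cmd c).flatMap fun _ => 0 :: (idx (cmd c) ++ idx (cmd c))) =
      List.range d ++ d :: l₂ := by
    have : (0 :: (cmd c).flatMap fun _ => 0 :: (idx (cmd c) ++ idx (cmd c))).length =
        d + ((Y.n * (2 * Y.n + 1) - d) + 1) := by
      simp only [List.length_cons, List.length_flatMap, List.length_append, idx, List.length_range,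
        List.map_const', List.sum_replicate, smul_eq_mul, h.n_eq, ← two_mul]
      omega
    rw [idx, this, List.range_add, List.range_succ_eq_map]
    exact ⟨_, rfl⟩
  have hk1 : kk (c, d) < Y.l := by rw [hk, h.l_eq]; exact Nat.mod_lt _ (by omega)
  have hk2 : Y.l ∣ d + kk (c, d) := by
    rw [hk, h.l_eq, Nat.dvd_iff_mod_eq_zero, Nat.add_mod_mod, ← Nat.mod_add_mod,
      Nat.add_sub_cancel' (Nat.mod_lt _ (by omega)).le, Nat.mod_self]
  have e2 : ((cL c).take (kk (c, d))).length = kk (c, d) :=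
    List.length_take_of_le (by rw [h.l_eq]; omega)
  have hdeg : degree (Z + (kk (c, d) : ℤ) • single (Y.P (ev (cR c) b τ)) (1 : ℤ)) =
      ((d + kk (c, d) : ℕ) : ℤ) := by simp [hd']
  have hs : Small Y (Z + (kk (c, d) : ℤ) • single (Y.P (ev (cR c) b τ)) (1 : ℤ)) := by
    rw [Small, hdeg]
    exact_mod_cast (by omega)
  have hr := h3 Y m c b h ((cL c).take (kk (c, d))) W _ Z _ hW (h4 Y m c b h τ hτ) (by rwa [e2])
  rw [e2] at hr
  obtain ⟨⟨Z', a1, a2, a3, a4, a5⟩, a6⟩ := h1 Y m c b h _ _ _ hr hs hdeg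
  refine ⟨kk (c, d), by rw [hd']; exact_mod_cast hk2, Z', ⟨a1.1, ?_⟩, a2, by rw [a3, a6 hk2],
    le_rfl, by simpa using a5⟩
  dsimp only
  rw [e, List.map_append, List.map_cons, (h7 Y m c b h _ _ _ _ _ _ _ (s1 _ _).2.1).2, a1.2]
  · intro t ht
    obtain ⟨d', h8, rfl⟩ := List.mem_map.1 ht
    have := List.mem_range.1 h8
    exact (htag d' this.le).2 this
  · exact fun hc => lt_irrefl _ ((htag d le_rfl).1 hc)

end Vale.Agent.P319
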