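import Vale.Agent.P319.T5b

/-! T7: rationality of the roots.  Choose `β` with `β α = d`, `β τ = 1` unless `α = τ`
(then `d ^ l = 1`, `d` is a power of `ζ`); take `ψ, E` from `exists_sol`.  `lam E - Z ∈ Prin`, so
`φE ^ m E - E = dv h`.  Then `Φ^[m] ψ / ψ` and `σ h / h` have the same divisor, so
`Φ^[m] ψ = κ ψ σ h / h`; `ord h = 0` at the ramification points, so comparing values
`β α ^ q = κ β α` for all roots; at `τ` this gives `κ = 1`. -/

namespace Vale.Agent.P319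
open Polynomial Finsupp
namespace Model
variable {K L Pt : Type} [Field K] [Field L] [Algebra K L] {Y : Model K L Pt}

theorem T7_val {Q : Pt} (hQ : Y.py Q = 0) {u : L} {c : K} (h : Y.Val Q u c) (m : ℕ) :
    Y.Val Q (Y.Φ^[m] u) (c ^ Y.q0 ^ m) := by
  induction m with
  | zero => simpa using h
  | succ m ih =>
    have := ih.Φ
    rwa [φ_ram hQ, ← pow_mul, ← pow_succ, ← Function.iterate_succ_apply' Y.Φ] at this

theorem rational {Z : Pt →₀ ℤ} {e m : ℕ} {a : L} (hZ : 0 ≤ Z) (hA : Y.Avoid Z)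
    (hφ : (Y.φE ^ m) Z = Z) (h0 : a ≠ 0)
    (ha : Y.dv a = Y.uE Y.l Z - ((Y.l * e : ℕ) : ℤ) • Y.H)
    (hinv : ∀ D, Y.lam D - Z ∈ Y.Prin → (Y.φE ^ m) D - D ∈ Y.Prin)
    {τ α d : K} (hτ : Y.f.IsRoot τ) (h1 : Y.Val (Y.P τ) a 1) (hα : Y.f.IsRoot α)
    (hd : Y.Val (Y.P α) a (d ^ Y.l)) : d ^ Y.q0 ^ m = d := by
  classical
  have := Y.closed
  by_cases hατ : α = τ
  · subst hατ
    have : NeZero Y.l := ⟨Y.prime.ne_zero⟩
    obtain ⟨k, -, rfl⟩ := Y.prim.eq_pow_of_pow_eq_one (hd.unique h1)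
    have hz : Y.ζ ^ Y.q0 ^ m = Y.ζ := by
      clear hφ hinv
      induction m with
      | zero => simp
      | succ m ih => rw [pow_succ, pow_mul, ih, Y.ζ_fix]
    rw [← pow_mul, mul_comm, pow_mul, hz]
  have hv : ∀ γ, Y.f.IsRoot γ → ∃ b : K, Y.Val (Y.P γ) a (b ^ Y.l) := by
    intro γ hγ
    obtain ⟨c, hc⟩ := Ge.exists_val (Y := Y) (Q := Y.P γ) (u := a) (Or.inr (by
      rw [← dv_apply, ha, Finsupp.sub_apply, hA.uE _ _ (py_P hγ), Finsupp.smul_apply,
        H_ram (py_P hγ)]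
      simp))
    obtain ⟨b, rfl⟩ := IsAlgClosed.exists_pow_nat_eq c Y.prime.pos
    exact ⟨b, hc⟩
  choose! b hb using hv
  obtain ⟨ψ, E, hs, -⟩ := exists_sol (β := fun γ => if γ = τ then 1 else if γ = α then d else b γ)
    hZ hA h0 ha fun γ hγ => by
      split_ifs with h2 h3
      · simpa [h2] using h1
      · rwa [h3]
      · exact hb γ hγ
  obtain ⟨h, hh, he⟩ := exists_dv_of_Prin (hinv E (by
    have : Y.lam E - Z = -(Y.dv ψ + (e : ℤ) • Y.H) := by
      rw [hs.eq]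
      abel
    rw [this]
    exact Submodule.neg_mem _ (Submodule.add_mem _ (dv_mem_Prin _)
      (Submodule.smul_mem _ _ H_mem_Prin)))) (by rw [map_sub, degree_φE_pow, sub_self])
  have hσh : Y.σ h ≠ 0 := (_root_.map_ne_zero _).2 hh
  have hΦ : Y.Φ^[m] ψ ≠ 0 := by
    clear hφ hinv he
    induction m with
    | zero => exact hs.ne
    | succ m ih =>
      rw [Function.iterate_succ_apply']
      exact (_root_.map_ne_zero _).2 ih
  have hne : ψ * (Y.σ h / h) ≠ 0 := mul_ne_zero hs.ne (div_ne_zero hσh hh)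
  obtain ⟨κ, hκ⟩ := const_of_dv (Y := Y) (u := Y.Φ^[m] ψ / (ψ * (Y.σ h / h))) (by
    have h2 := congrArg (Y.φE ^ m) hs.eq
    have h3 : (Y.φE ^ m) (Y.sE E) = Y.sE ((Y.φE ^ m) E) := by
      rw [← Module.End.mul_apply, ← (sE_φE.pow_right m).eq, Module.End.mul_apply]
    have h4 := sE_pow_dv (Y := Y) 1 h
    have h5 := hs.eq
    rw [pow_one, pow_one, ← he, map_sub] at h4
    simp only [lam, LinearMap.sub_apply, Module.End.one_apply] at h2 h5
    rw [hφ, map_add, map_add, map_sub, map_zsmul, φE_pow_H, φE_pow_dv, h3] at h2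
    rw [dv_div hΦ hne, dv_mul hs.ne (div_ne_zero hσh hh), dv_div hσh hh, ← h4, ← he]
    refine le_of_eq ?_
    linear_combination (norm := abel) h2 - h5)
  rw [div_eq_iff hne] at hκ
  have key : ∀ γ, Y.f.IsRoot γ → ∀ c, Y.Val (Y.P γ) ψ c → c ^ Y.q0 ^ m = κ * c := by
    intro γ hγ c hc
    have h2 := val_σ_div (py_P hγ) hh
    rw [← dv_apply, ← he, Finsupp.sub_apply, hs.avE.φE_pow m _ (py_P hγ), hs.avE _ (py_P hγ),
      sub_zero, zpow_zero] at h2
    have h3 := (val_c (c := κ)).mul (hc.mul h2)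
    rw [← hκ, mul_one] at h3
    exact (T7_val (py_P hγ) hc m).unique h3
  have h2 := key τ hτ _ (hs.val τ hτ)
  have h3 := key α hα _ (hs.val α hα)
  simp only [if_true, one_pow, mul_one] at h2
  simpa [hατ, ← h2] using h3

end Model
end Vale.Agent.P319
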