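import Vale.Agent.P319.G2a
import Vale.Agent.P319.A2
import Vale.Agent.P319.T7

/-! G4a: the roots.  `e = n * n + 1`, `a = first (lvl (l e) (gU iL W))` has the divisor
`uE l Z - l e H` (`norm_LL`, `norm_sec`); `aτ = ∑ a_i τ ^ i` (`i < N`) is its value at `P τ`
(`val_fn`); output `root (cA c, q, iL, emb η, atP a * emb (rinv aτ))`.  The root exists in the
field with `q` elements by `rational` (`Rep.φE_pow`); then `exists_sol` for `aτ⁻¹ • a`. -/

namespace Vale.Agent.P319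
open Vale.Agent.Common.TreeTM Vale.Agent.P337 Finsupp

theorem exists_beta : ∃ F : Cx × El × Mx → El, TC 0 F ∧ (∀ c τ W, Nm (cA c) (F (c, τ, W))) ∧
    ∀ {K L Pt : Type} [Field K] [Field L] [Algebra K L] (Y : Model K L Pt) (m : ℕ) (c : Cx)
      (b : ℕ → K), Sem Y m c b → ∀ (τ : El) (W : Mx) (Z : Pt →₀ ℤ), Y.f.IsRoot (ev (cR c) b τ) →
      Rep Y c b W Z → Y.Avoid Z → degree Z = ((Y.l * (Y.n ^ 2 + 1) : ℕ) : ℤ) →
      (∀ D, Y.lam D - Z ∈ Y.Prin → (Y.φE ^ m) D - D ∈ Y.Prin) →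
      ∃ ψ E, Y.Sol Z (Y.n ^ 2 + 1) (fun α => evA c b α (F (c, τ, W))) ψ E := by
  obtain ⟨gU, t1, -, h1⟩ := exists_gU
  obtain ⟨lvl, t2, -, h2⟩ := exists_lvl
  obtain ⟨first, t3, -, h3⟩ := exists_first
  obtain ⟨root, t4, s4, h4⟩ := exists_root
  obtain ⟨A, t5, h5⟩ : ∃ A : Cx × Mx → List El, TC 0 A ∧ ∀ c W, A (c, W) = first (c, lvl (c,
      (cL c).length * ((cmd c).length * (cmd c).length + 1), gU (c, cL c, W))) :=
    ⟨fun a => first (a.1, lvl (a.1, (cL a.1).length * ((cmd a.1).length * (cmd a.1).length + 1),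
      gU (a.1, cL a.1, a.2))), by fun_prop, fun _ _ => rfl⟩
  refine ⟨fun a => root (cA a.1, cq a.1, cL a.1, emb (cR a.1) (cmd a.1) (cη a.1),
    rmul (cA a.1) (emb (cR a.1) (cmd a.1) (rinv (cR a.1) (cq a.1) (rsum (cR a.1)
      ((idx (cN a.1)).map fun i => rmul (cR a.1) ((A (a.1, a.2.2)).getD i [])
        (rpow (cR a.1) a.2.1 i))))) (atP a.1 (A (a.1, a.2.2)))), by fun_prop,
    fun c τ W => s4 _ _ _ _ _, ?_⟩
  intro K L Pt _ _ _ Y m c b h τ W Z hτ hW hA hd hinv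
  have := Y.closed
  have hl := Y.two_le
  have hn := Y.l_le_n
  have n1 : Y.l * (Y.n ^ 2 + 1) ≤ (Y.n + 1) ^ 3 := by
    nlinarith [Nat.mul_le_mul_right (Y.n ^ 2 + 1) hn]
  have n2 : Y.l * (Y.l * (Y.n ^ 2 + 1)) ≤ (Y.n + 1) ^ 5 :=
    calc _ ≤ (Y.n + 1) ^ 2 * (Y.n + 1) ^ 3 := Nat.mul_le_mul (by nlinarith) n1
      _ = _ := by ring
  have hs : Small Y Z := by
    rw [Small, hd]
    exact_mod_cast n1.trans (Nat.pow_le_pow_right (by omega) (by omega))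
  have hN := h1 Y m c b h (cL c) W Z hW (by
    rw [Small, Model.degree_uE, hd, h.l_eq]
    exact_mod_cast n2)
  rw [h.l_eq] at hN
  have hS := h2 Y m c b h (Y.l * (Y.n ^ 2 + 1)) _ _
    (n1.trans (Nat.pow_le_pow_right (by omega) (by omega))) hN
  obtain ⟨a1, a2⟩ := h3 Y m c b h _ (by
    rw [hS]
    obtain ⟨u, hu, hu'⟩ := (Model.norm_LL (Y := Y) _).2 hd.le
    exact fun hc => hu (by rwa [hc, Submodule.mem_bot] at hu'))
  have e1 : A (c, W) = first (c, lvl (c, Y.l * (Y.n ^ 2 + 1), gU (c, cL c, W))) := by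
    rw [h5, h.l_eq, h.n_eq, sq]
  rw [hS, ← hd] at a1
  rw [← e1] at a1 a2
  have a3 := Model.norm_sec a2 a1
  rw [hd] at a3
  have a4 := Model.val_fn (Y := Y) (N := (cN c).length) (vec (cR c) b (A (c, W))) hτ
  have a5 := a4.ne_zero a2 (by
    rw [← fv, ← Model.dv_apply, a3, Finsupp.sub_apply, hA.uE _ _ (Model.py_P hτ),
      Finsupp.smul_apply, Model.H_ram (Model.py_P hτ)]
    simp)
  have e2 : ev (cR c) b (rsum (cR c) ((idx (cN c)).map fun i => rmul (cR c) ((A (c, W)).getD i [])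
      (rpow (cR c) τ i))) = ∑ i ∈ Finset.range (cN c).length,
        vec (cR c) b (A (c, W)) i * ev (cR c) b τ ^ i := by
    rw [F1a_rsum h.hom]
    simp only [h.hom.rmul, h.hom.rpow, vec]
  dsimp only
  generalize rsum (cR c) ((idx (cN c)).map fun i => rmul (cR c) ((A (c, W)).getD i [])
      (rpow (cR c) τ i)) = aτ at e2
  rw [← e2] at a4 a5
  have b1 : (ev (cR c) b aτ)⁻¹ • fv Y c b (A (c, W)) ≠ 0 := smul_ne_zero (inv_ne_zero a5) a2
  rw [← Model.dv_smul (inv_ne_zero a5)] at a3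
  have b2 := a4.smul (ev (cR c) b aτ)⁻¹
  rw [inv_mul_cancel₀ a5] at b2
  obtain ⟨ψ, E, h6, -⟩ := Model.exists_sol (β := fun α => evA c b α (root (cA c, cq c, cL c,
      emb (cR c) (cmd c) (cη c), rmul (cA c) (emb (cR c) (cmd c) (rinv (cR c) (cq c) aτ))
      (atP c (A (c, W)))))) hW.1 hA b1 a3 fun α hα => by
    have b3 := (h.val_atP hα (A (c, W))).smul (ev (cR c) b aτ)⁻¹
    have b4 : evA c b α (rmul (cA c) (emb (cR c) (cmd c) (rinv (cR c) (cq c) aτ))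
        (atP c (A (c, W)))) = (ev (cR c) b aτ)⁻¹ * evA c b α (atP c (A (c, W))) := by
      rw [evA, (h.homA hα).rmul, ← evA, ← evA, h.evA_emb hα, h.hom.rinv]
    obtain ⟨d, hd⟩ := IsAlgClosed.exists_pow_nat_eq
      ((ev (cR c) b aτ)⁻¹ * evA c b α (atP c (A (c, W)))) Y.prime.pos
    have b5 := Model.rational hW.1 hA (hW.φE_pow h hs) b1 a3 hinv hτ b2 hα (d := d) (by rwa [hd])
    have b6 := h.evA_emb hα (cη c)
    rw [evA] at b6
    have b7 := h4 (cA c) (cq c) _ (h.homA hα) (cL c) (emb (cR c) (cmd c) (cη c)) _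
      (h.l_eq ▸ Y.prime) (h.l_eq ▸ h.dvd) (b6 ▸ h.η_ne) (by rw [b6, h.l_eq]; exact h.η_non) d
      (by rwa [h.qm]) (by rw [h.l_eq, hd]; exact b4.symm)
    rw [h.l_eq, ← evA, ← evA, b4] at b7
    rwa [b7]
  exact ⟨ψ, E, h6⟩

end Vale.Agent.P319
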