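import Vale.Agent.P319.G2a

/-! G4bA: the rows of the linear system `SS t`. -/

namespace Vale.Agent.P319
open Vale.Agent.Common.TreeTM Vale.Agent.P337 Finsupp

theorem G4b_frow : ∃ F : RC × ℕ × List ℕ × Mx → List El, TC 0 F ∧
    ∀ {K : Type} [Field K] (R : RC) (q : ℕ) (b : ℕ → K), IsHom R q b → ∀ (w : List ℕ) (M : Mx),
      (∀ v ∈ M, v.length ≤ w.length) → ∃ u ∈ rsp R b M, (rsp R b M ≠ ⊥ → u ≠ 0) ∧
        ∀ k < w.length, vec R b (F (R, q, w, M)) k = u k := by
  obtain ⟨sel, tsel, -, hsel⟩ := exists_sel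
  refine ⟨fun a => (sel (a.1, a.2.1, [0], a.2.2.1,
    a.2.2.2.map (fun v => (nzV a.1 a.2.1 v, [v])) ++ [(rone a.1, [[]])])).getD 0 [],
    by fun_prop, ?_⟩
  intro K _ R q b h w M hM
  by_cases h0 : ∃ v ∈ M, vec R b v ≠ 0
  · obtain ⟨l₁, v, l₂, rfl, hv, h1⟩ := exists_first_split (fun v => vec R b v ≠ 0) M h0
    refine ⟨vec R b v, Submodule.subset_span ⟨v, by simp, rfl⟩, fun _ => hv, fun k hk => ?_⟩
    have := hsel R q b h [0] w (l₁.map fun v => (nzV R q v, [v])) (nzV R q v) [v]
      (l₂.map (fun v => (nzV R q v, [v])) ++ [(rone R, [[]])]) (by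
        intro t ht
        obtain ⟨v', hv', rfl⟩ := List.mem_map.1 ht
        rw [h.nzV, if_pos (not_not.1 (h1 v' hv'))]) (by rw [h.nzV, if_neg hv]; exact one_ne_zero)
      0 (by simp) k hk
    simpa using this
  · push Not at h0
    refine ⟨0, zero_mem _, fun h1 => absurd ?_ h1, fun k hk => ?_⟩
    · rw [rsp, Submodule.span_eq_bot]
      rintro _ ⟨v, hv, rfl⟩
      exact h0 v hv
    · have := hsel R q b h [0] w (M.map fun v => (nzV R q v, [v])) (rone R) [[]] [] (by
        intro t ht
        obtain ⟨v', hv', rfl⟩ := List.mem_map.1 ht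
        rw [h.nzV, if_pos (h0 v' hv')]) (by rw [h.rone]; exact one_ne_zero) 0 (by simp) k hk
      rw [this]
      exact vec_eq_zero R b (by simp)

def G4bw1 (c : Cx) : List ℕ := (cL c).flatMap fun _ => wd c
def G4bw2 (c : Cx) : List ℕ := (cL c).flatMap fun _ => (cL c).flatMap fun _ => idx (cmd c)

theorem G4b_w1 (c : Cx) : (G4bw1 c).length = (cL c).length * (wd c).length := by
  simp [G4bw1, List.length_flatMap]

theorem G4b_w2 (c : Cx) :
    (G4bw2 c).length = (cL c).length * (cL c).length * (cmd c).length := by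
  simp [G4bw2, List.length_flatMap, idx, mul_assoc]

def G4bA (c : Cx) (β : El) (j : ℕ) (r : List El) (d i : ℕ) : El :=
  rmul (cA c) (rmul (cA c) (rpow (cA c) (emb (cR c) (cmd c) (cz c)) (((cL c).length - j) * d))
    (rpow (cA c) β ((cL c).length - 1 - j)))
    (atT (cR c) (cmd c) ((idx (cN c)).map fun a => r.getD (i * (cN c).length + a) []))

def G4bC (c : Cx) (β : El) (j : ℕ) (r : List El) (k : ℕ) : El :=
  cond (nlt (k / (cmd c).length % (cL c).length) (k / (cmd c).length / (cL c).length))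
    ((slc (cR c) (cmd c) (G4bA c β j r (k / (cmd c).length / (cL c).length)
      (k / (cmd c).length % (cL c).length))).getD (k % (cmd c).length) []) []

def G4brow (c : Cx) (β : El) (j : ℕ) (r : List El) : List El :=
  (idx (G4bw1 c ++ G4bw2 c)).map fun k => cond (nlt k (G4bw1 c).length)
    (cond (neq (k / (wd c).length) j) (r.getD (k % (wd c).length) []) [])
    (G4bC c β j r (k - (G4bw1 c).length))

section tc
variable {α : Type} [Enc α] {c : α → Cx} {β : α → El} {j d i : α → ℕ} {r : α → List El}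
@[fun_prop] theorem G4b_tc1 (h : TC 0 c) : TC 0 fun a => G4bw1 (c a) := by
  unfold G4bw1; fun_prop
@[fun_prop] theorem G4b_tc2 (h : TC 0 c) : TC 0 fun a => G4bw2 (c a) := by
  unfold G4bw2; fun_prop
@[fun_prop] theorem G4b_tcA (h : TC 0 c) (h1 : TC 0 β) (h2 : TC 0 j) (h3 : TC 0 r) (h4 : TC 0 d)
    (h5 : TC 0 i) : TC 0 fun a => G4bA (c a) (β a) (j a) (r a) (d a) (i a) := by
  unfold G4bA; fun_prop
@[fun_prop] theorem G4b_tcC (h : TC 0 c) (h1 : TC 0 β) (h2 : TC 0 j) (h3 : TC 0 r)
    (h4 : TC 0 d) : TC 0 fun a => G4bC (c a) (β a) (j a) (r a) (d a) := by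
  unfold G4bC; fun_prop
@[fun_prop] theorem G4b_tcrow (h : TC 0 c) (h1 : TC 0 β) (h2 : TC 0 j) (h3 : TC 0 r) :
    TC 0 fun a => G4brow (c a) (β a) (j a) (r a) := by
  unfold G4brow; fun_prop
end tc

variable {K L Pt : Type} [Field K] [Field L] [Algebra K L] {Y : Model K L Pt} {m : ℕ} {c : Cx}
  {b : ℕ → K}

theorem G4b_row1 (β : El) (j : ℕ) (r : List El) {j' k : ℕ} (hj : j' < (cL c).length)
    (hk : k < (wd c).length) : vec (cR c) b (G4brow c β j r) (j' * (wd c).length + k) =
      if j' = j then vec (cR c) b r k else 0 := by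
  have h1 : j' * (wd c).length + k < (G4bw1 c).length := by
    rw [G4b_w1]
    nlinarith
  have h2 : (j' * (wd c).length + k) / (wd c).length = j' := by
    rw [Nat.add_comm, Nat.add_mul_div_right _ _ (by omega), Nat.div_eq_of_lt hk, Nat.zero_add]
  have h3 : (j' * (wd c).length + k) % (wd c).length = k := by
    rw [Nat.add_comm, Nat.add_mul_mod_self_right, Nat.mod_eq_of_lt hk]
  rw [vec, G4brow, R1_getD_idx, if_pos (by rw [List.length_append]; omega), h2, h3]
  simp only [nlt, neq, h1, decide_true, cond_true]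
  split_ifs with h
  · simp [h, vec]
  · simp [h, ev_nil]

theorem G4b_evA (h : Sem Y m c b) {α : K} (hα : Y.f.IsRoot α) (β : El) (j : ℕ) (r : List El)
    (d i : ℕ) : evA c b α (G4bA c β j r d i) =
      Y.ζ ^ ((Y.l - j) * d) * evA c b α β ^ (Y.l - 1 - j) *
        ∑ a ∈ Finset.range (cN c).length, vec (cR c) b r (i * (cN c).length + a) * α ^ a := by
  have hA := h.homA hα
  have e1 := h.evA_emb hα (cz c)
  unfold evA at e1 ⊢
  rw [G4bA, hA.rmul, hA.rmul, hA.rpow, hA.rpow, e1, h.ζ_eq, h.l_eq]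
  congr 1
  rw [cA, h.hom.atT (by rw [h.f_eq]; exact hα), A3_eval_pol, List.length_map, A1_len_idx]
  refine Finset.sum_congr rfl fun a ha => ?_
  rw [R1_getD_idx, if_pos (Finset.mem_range.1 ha)]
  rfl

theorem G4b_row2 (β : El) (j : ℕ) (r : List El) {d i : ℕ} (hd : d < (cL c).length)
    (hi : i < (cL c).length) (α : K) :
    ∑ k ∈ Finset.range (cmd c).length, vec (cR c) b (G4brow c β j r)
      ((d * (cL c).length + i) * (cmd c).length + k + (G4bw1 c).length) * α ^ k =
      if i < d then evA c b α (G4bA c β j r d i) else 0 := by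
  have key : ∀ k < (cmd c).length, vec (cR c) b (G4brow c β j r)
      ((d * (cL c).length + i) * (cmd c).length + k + (G4bw1 c).length) =
      if i < d then vec (cR c) b (slc (cR c) (cmd c) (G4bA c β j r d i)) k else 0 := by
    intro k hk
    have h1 : (d * (cL c).length + i) * (cmd c).length + k < (G4bw2 c).length := by
      rw [G4b_w2]
      have : d * (cL c).length + i + 1 ≤ (cL c).length * (cL c).length := by nlinarith
      nlinarith
    have h2 : ((d * (cL c).length + i) * (cmd c).length + k) / (cmd c).length =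
        d * (cL c).length + i := by
      rw [Nat.add_comm, Nat.add_mul_div_right _ _ (by omega), Nat.div_eq_of_lt hk, Nat.zero_add]
    have h3 : ((d * (cL c).length + i) * (cmd c).length + k) % (cmd c).length = k := by
      rw [Nat.add_comm, Nat.add_mul_mod_self_right, Nat.mod_eq_of_lt hk]
    have h4 : (d * (cL c).length + i) / (cL c).length = d := by
      rw [Nat.add_comm, Nat.add_mul_div_right _ _ (by omega), Nat.div_eq_of_lt hi, Nat.zero_add]
    have h5 : (d * (cL c).length + i) % (cL c).length = i := by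
      rw [Nat.add_comm, Nat.add_mul_mod_self_right, Nat.mod_eq_of_lt hi]
    rw [vec, G4brow, R1_getD_idx, if_pos (by rw [List.length_append]; omega)]
    simp only [nlt, Nat.not_lt.2 (Nat.le_add_left _ _), decide_false, cond_false,
      Nat.add_sub_cancel, G4bC, h2, h3, h4, h5]
    split_ifs with h
    · simp [h, vec]
    · simp [h, ev_nil]
  rw [Finset.sum_congr rfl fun k hk => by rw [key k (Finset.mem_range.1 hk)]]
  split_ifs with h
  · rw [evA, cA, ev_quot, A3_eval_pol, length_slc]
    rfl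
  · simp

end Vale.Agent.P319
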