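import Vale.Agent.P319.PA2
import Vale.Agent.P319.A1

/-! LA: the minimal polynomial of an element of `𝔽_p[T]/m`: the greatest common divisor of the
linear relations among the powers. -/

namespace Vale.Agent.P319
open Polynomial Vale.Agent.Common.TreeTM Vale.Agent.P337

variable {α : Type} [Enc α] {P : α → Nat.Primes} {v m : α → List ℕ}

theorem ev_base {Ω : Type} [Field Ω] (p : ℕ) (a : El) :
    ev (base p) (fun _ => (1 : Ω)) a = (a.getD 0 0 : ℕ) := by simp [ev, base, dim]

noncomputable def LA_gcd (P : Nat.Primes) (l : List (List ℕ)) : List ℕ := l.foldl (pgcd P) []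

theorem LA_gcd_spec (P : Nat.Primes) (l : List (List ℕ)) (d : (ZMod P)[X]) :
    d ∣ tp P (LA_gcd P l) ↔ ∀ r ∈ l, d ∣ tp P r := by
  have : ∀ g, d ∣ tp P (l.foldl (pgcd P) g) ↔ d ∣ tp P g ∧ ∀ r ∈ l, d ∣ tp P r := by
    classical
    induction l with
    | nil => simp
    | cons r l ih =>
      intro g
      rw [List.foldl_cons, ih, pgcd, tp_cf, List.forall_mem_cons, ← and_assoc]
      exact and_congr_left' ⟨fun h => ⟨h.trans (EuclideanDomain.gcd_dvd_left _ _),
        h.trans (EuclideanDomain.gcd_dvd_right _ _)⟩, fun h => EuclideanDomain.dvd_gcd h.1 h.2⟩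
  simp [LA_gcd, this]

theorem LA_tc_gcd {l : α → List (List ℕ)} (hP : TC 0 P) (hl : TC 0 l) :
    TC 0 fun x => LA_gcd (P x) (l x) := by
  refine TC.foldl_inv (f := fun x g r => pgcd (P x) g r) (by fun_prop) (by fun_prop) hl
    (PA2_bd hP hl.bd) (fun x _ g => (tp (P x) g).natDegree ≤ sz (l x) ∧
      sz g ≤ (sz (l x) + 1) * (4 * sz (P x : ℕ) + 2) + 1)
    (fun x => ⟨by simp, by rw [sz_lnil]; omega⟩) (fun x _ g r hr h => ?_) fun _ _ _ _ h => h.2
  classical
  have : (EuclideanDomain.gcd (tp (P x) g) (tp (P x) r)).natDegree ≤ sz (l x) := by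
    by_cases h0 : tp (P x) g = 0
    · rw [h0, EuclideanDomain.gcd_zero_left]
      exact (PA2_deg _ _).trans ((length_le_sz _).trans (sz_mem hr))
    · exact (natDegree_le_of_dvd (EuclideanDomain.gcd_dvd_left _ _) h0).trans h.1
  exact ⟨by rw [pgcd, tp_cf]; convert this, PA2_sz (by convert this)⟩

noncomputable def LA_M (P : Nat.Primes) (v m : List ℕ) : List (List El) :=
  (idx m).map fun i => (idx (m ++ m)).map fun k =>
    [cond (nlt k m.length) ((ppow P v i m).getD k 0) (cond (neq k (m.length + i)) 1 0)]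

noncomputable def LA_lin (F : Type) [Field F] (s n : ℕ) : (ℕ → F) →ₗ[F] F[X] :=
  ∑ j ∈ Finset.range n, (monomial j).comp (LinearMap.proj (s + j))

theorem LA_coeff {F : Type} [Field F] (s n : ℕ) (u : ℕ → F) (j : ℕ) :
    (LA_lin F s n u).coeff j = if j < n then u (s + j) else 0 := by
  simp [LA_lin, LinearMap.sum_apply, finsetSum_coeff, coeff_monomial]

theorem LA_row {P : Nat.Primes} {v m : List ℕ} (hm : tp P m ≠ 0) {i : ℕ} (hi : i < m.length) :
    LA_lin _ 0 m.length (vec (base P) (fun _ => (1 : ZMod P)) ((LA_M P v m).getD i [])) =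
      tp P v ^ i % tp P m ∧
    LA_lin _ m.length m.length (vec (base P) (fun _ => (1 : ZMod P)) ((LA_M P v m).getD i [])) =
      X ^ i := by
  rw [LA_M, PA1_getD_idx, if_pos hi]
  constructor
  · ext j
    rw [LA_coeff, vec, ev_base, zero_add, PA1_getD_idx]
    split_ifs with h1 h2
    · simp only [nlt, h1, decide_true, cond_true, List.getD_cons_zero]
      rw [← coeff_tp, ppow, if_neg hm, tp_cf]
    · simp at h2; omega
    · have := natDegree_mod_le (tp P v ^ i) hm
      have := natDegree_tp_le P m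
      rw [coeff_eq_zero_of_natDegree_lt (by omega)]
  · ext j
    rw [LA_coeff, vec, ev_base, PA1_getD_idx, coeff_X_pow]
    by_cases h1 : j < m.length
    · rw [if_pos h1, if_pos (by simpa using h1)]
      by_cases h2 : j = i <;> simp [nlt, neq, h2]
    · rw [if_neg h1, if_neg (by omega)]

@[fun_prop] theorem tc_pminp (hP : TC 0 P) (hv : TC 0 v) (hm : TC 0 m) :
    TC 0 fun x => pminp (P x) (v x) (m x) := by
  obtain ⟨elim, e1, -, e2⟩ := exists_elim
  have hR : TC 0 fun x => (elim (base (P x), (P x : ℕ) * P x, m x ++ m x, LA_M (P x) (v x) (m x),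
      idx (m x))).map fun r => (idx (m x)).map fun j => (r.getD ((m x).length + j) []).getD 0 0 := by
    unfold LA_M base
    fun_prop
  refine (TC.cond (tc_pz hP hm) (TC.const []) (tc_pmon hP (LA_tc_gcd hP hR))).of_eq fun x => ?_
  generalize P x = P, v x = v, m x = m
  by_cases h0 : tp P m = 0
  · simp [pminp, pz, h0]
  simp only [pminp, pz, h0, decide_false, cond_false, if_false, pmon]
  congr 1
  have hH : IsHom (base P) ((P : ℕ) * P) (fun _ => (1 : ZMod P)) := by
    have := P.2.two_le
    rw [← sq]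
    exact isHom_base P.2 (ZMod.natCast_self _) (by nlinarith)
  have e3 := e2 _ _ _ hH (m ++ m) (LA_M P v m) (idx m) (fun r hr => by
    obtain ⟨i, -, rfl⟩ := List.mem_map.1 hr
    simp [idx])
  set y := AdjoinRoot.mk (tp P m) (tp P v)
  haveI := (AdjoinRoot.powerBasis h0).finite
  have hi : IsIntegral (ZMod P) y := Algebra.IsIntegral.isIntegral y
  have hA : ∀ r : List El, tp P ((idx m).map fun j => (r.getD (m.length + j) []).getD 0 0) =
      LA_lin _ m.length m.length (vec (base P) (fun _ => (1 : ZMod P)) r) := fun r => by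
    ext j
    rw [coeff_tp, PA1_getD_idx, LA_coeff, vec, ev_base]
    split_ifs <;> simp
  have hB : ∀ u ∈ rsp (base P) (fun _ => (1 : ZMod P)) (LA_M P v m),
      aeval y (LA_lin _ m.length m.length u) = AdjoinRoot.mk _ (LA_lin _ 0 m.length u) := by
    intro u hu
    induction hu using Submodule.span_induction with
    | mem u hu =>
      obtain ⟨r, hr, rfl⟩ := hu
      obtain ⟨i, hi, rfl⟩ := List.getElem_of_mem hr
      have hi' : i < m.length := by simpa [LA_M, idx] using hi
      rw [← List.getD_eq_getElem _ [] hi, (LA_row h0 hi').1, (LA_row h0 hi').2, map_pow, aeval_X,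
        ← map_pow, AdjoinRoot.mk_eq_mk, ← dvd_neg, neg_sub]
      exact dvd_mod_sub _ _
    | zero => simp
    | add _ _ _ _ h1 h2 => simp [h1, h2]
    | smul c _ _ h1 => rw [map_smul, map_smul, map_smul, h1, AdjoinRoot.smul_mk]
  have hz : ∀ u : ℕ → ZMod P, (∀ k ∈ idx m, u k = 0) ↔ LA_lin _ 0 m.length u = 0 := fun u =>
    ⟨fun h => Polynomial.ext fun j => by
      rw [LA_coeff]; split_ifs with hj
      · simpa using h j (List.mem_range.2 hj)
      · rfl, fun h k hk => by
      have := LA_coeff 0 m.length u k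
      rwa [h, if_pos (List.mem_range.1 hk), zero_add, coeff_zero, eq_comm] at this⟩
  set G := LA_gcd P ((elim (base P, (P : ℕ) * P, m ++ m, LA_M P v m, idx m)).map fun r =>
    (idx m).map fun j => (r.getD (m.length + j) []).getD 0 0)
  have h1 : minpoly (ZMod P) y ∣ tp P G := (LA_gcd_spec _ _ _).2 fun r hr => by
    obtain ⟨r, hr', rfl⟩ := List.mem_map.1 hr
    obtain ⟨h1, h2⟩ := (e3 _).1 (Submodule.subset_span ⟨r, hr', rfl⟩)
    rw [hA]
    exact minpoly.dvd _ _ (by rw [hB _ h1, (hz _).1 h2, map_zero])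
  have hd : (minpoly (ZMod P) y).natDegree < m.length := by
    have h2 := natDegree_tp_le P m
    have h3 : (minpoly (ZMod P) y).natDegree ≤ (tp P m).natDegree := by
      have := natDegree_le_of_dvd (minpoly.dvd (ZMod P) y (Algebra.aeval_self_charpoly_lmul y))
        (LinearMap.charpoly_monic _).ne_zero
      rwa [LinearMap.charpoly_natDegree, (AdjoinRoot.powerBasis h0).finrank,
        AdjoinRoot.powerBasis_dim] at this
    have : m ≠ [] := by rintro rfl; exact h0 rfl
    have := List.length_pos_iff.2 this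
    omega
  have h2 : tp P G ∣ minpoly (ZMod P) y := by
    set u := ∑ i ∈ Finset.range m.length, (minpoly (ZMod P) y).coeff i •
      vec (base P) (fun _ => (1 : ZMod P)) ((LA_M P v m).getD i []) with hu
    have u1 : u ∈ rsp (base P) (fun _ => (1 : ZMod P)) (LA_M P v m) :=
      Submodule.sum_mem _ fun i hi => Submodule.smul_mem _ _ (Submodule.subset_span ⟨_, by
        rw [List.getD_eq_getElem _ _ (by simpa [LA_M, idx] using hi)]
        exact List.getElem_mem _, rfl⟩)
    have u2 : LA_lin _ m.length m.length u = minpoly (ZMod P) y := by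
      rw [hu, map_sum, as_sum_range' _ _ hd]
      refine Finset.sum_congr rfl fun i hi => ?_
      rw [map_smul, (LA_row h0 (Finset.mem_range.1 hi)).2, ← as_sum_range' _ _ hd,
        smul_X_eq_monomial]
    have u3 : LA_lin _ 0 m.length u = 0 := by
      refine eq_zero_of_dvd_of_degree_lt (p := tp P m) (AdjoinRoot.mk_eq_zero.1 (by
        rw [← hB _ u1, u2, minpoly.aeval])) ?_
      rw [hu, map_sum]
      refine (degree_sum_le _ _).trans_lt ((Finset.sup_lt_iff (by
        simpa [bot_lt_iff_ne_bot] using h0)).2 fun i hi => ?_)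
      rw [map_smul, (LA_row h0 (Finset.mem_range.1 hi)).1]
      exact (degree_smul_le _ _).trans_lt (degree_mod_lt _ h0)
    have u4 := (e3 u).2 ⟨u1, (hz u).2 u3⟩
    rw [← u2]
    clear_value u
    clear u1 u2 u3 hu
    induction u4 using Submodule.span_induction with
    | mem u hu =>
      obtain ⟨r, hr, rfl⟩ := hu
      rw [← hA]
      exact (LA_gcd_spec _ _ _).1 dvd_rfl _ (List.mem_map_of_mem hr)
    | zero => simp
    | add _ _ _ _ h1 h2 => rw [map_add]; exact dvd_add h1 h2
    | smul c _ _ h1 => rw [map_smul, smul_eq_C_mul]; exact h1.mul_left _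
  have hG : tp P G ≠ 0 := fun h => minpoly.ne_zero hi (zero_dvd_iff.1 (h ▸ h2))
  refine eq_of_monic_of_associated (minpoly.monic hi) (monic_mul_leadingCoeff_inv hG)
    ((associated_of_dvd_dvd h1 h2).trans (associated_mul_unit_right _ _ ?_))
  exact isUnit_C.2 (IsUnit.mk0 _ (inv_ne_zero (leadingCoeff_ne_zero.2 hG)))

end Vale.Agent.P319
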