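import Vale.Agent.P319.Eta

/-! Tbl: building the table bottom-up (entry `r` factors the `r`-th cyclotomic polynomial
`1 + X + ⋯ + X ^ (r - 1)` with the table for the smaller primes). -/

namespace Vale.Agent.P319
open Polynomial Vale.Agent.Common.TreeTM Vale.Agent.P337

theorem Tbl_ones (p : ℕ) (l : List ℕ) :
    tp p (l.map fun _ => 1) = ∑ i ∈ Finset.range l.length, X ^ i := by
  induction l with
  | nil => simp
  | cons a l ih =>
    rw [List.map_cons, tp_cons, ih, List.length_cons, Finset.sum_range_succ', Finset.mul_sum]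
    simp [pow_succ', add_comm]

noncomputable def Tbl_clip (P : Nat.Primes) (u a : List ℕ) : List ℕ :=
  (cf (tp P a)).take (u.length + 1)

theorem Tbl_clip_sz (P : Nat.Primes) (u a : List ℕ) :
    sz (Tbl_clip P u a) ≤ (u.length + 1) * (4 * sz (P : ℕ) + 2) + 1 :=
  sz_of_lt (fun _ h => mem_cf_lt (List.mem_of_mem_take h)) (List.length_take_le _ _)

theorem Tbl_clip_tp {P : Nat.Primes} {u a : List ℕ} (h : (tp P a).natDegree ≤ u.length) :
    tp P (Tbl_clip P u a) = tp P a := by
  rw [Tbl_clip, List.take_of_length_le (by simpa using h), tp_cf]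

theorem Tbl_sz {β : Type} [Enc β] (l : List β) (a : β) : sz (l ++ [a]) = sz l + (sz a + 1) := by
  induction l with
  | nil => simp [sz_lcons, sz_lnil]; omega
  | cons b l ih => rw [List.cons_append, sz_lcons, sz_lcons, ih]; omega

theorem exists_tab (k : ℕ) {F : Nat.Primes × List ℕ × Tab → List (List ℕ)} (hF : TC 0 F)
    (h : FacSpec F) : ∃ T : Nat.Primes × List ℕ → Tab, TC 0 T ∧
      ∀ (P : Nat.Primes) (u : List ℕ),
        (∀ r, r.Prime → r ≤ u.length → r ≠ P → Cond k P r) → TabOK P u.length (T (P, u)) := by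
  obtain ⟨E, hE, e⟩ := exists_eta k
  obtain ⟨ψ, hψ, eψ⟩ : ∃ ψ : (Nat.Primes × List ℕ) × Tab × ℕ → List ℕ, TC 0 ψ ∧ ∀ x,
      ψ x = (F (x.1.1, (x.1.2.take x.2.2).map fun _ => 1, x.2.1)).headD [] :=
    ⟨_, by fun_prop, fun _ => rfl⟩
  obtain ⟨G, hG, eG⟩ : ∃ G : (Nat.Primes × List ℕ) × Tab × ℕ → List ℕ × List ℕ, TC 0 G ∧ ∀ x,
      G x = (Tbl_clip x.1.1 x.1.2 (ψ x), Tbl_clip x.1.1 x.1.2
        (pmod x.1.1 (E (x.1.1, x.1.2.take x.2.2, ψ x)) (ψ x))) :=
    ⟨_, by unfold Tbl_clip; fun_prop, fun _ => rfl⟩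
  refine ⟨fun x => (idx (0 :: x.2)).foldl (fun t r => t ++ [G (x, t, r)]) [], ?_,
    fun P u hc => ?_⟩
  · have h1 : TC 0 fun p : (Nat.Primes × List ℕ) × Tab × ℕ => p.2.1 ++ [G (p.1, p.2.1, p.2.2)] := by
      fun_prop
    have h2 := PA2_bd (P := fun x : (Nat.Primes × List ℕ) × ℕ => x.1.1) (by fun_prop)
      (PA2_len (l := fun x => x.1.2) (by fun_prop))
    refine TC.foldl_grow (f := fun (x : Nat.Primes × List ℕ) (t : Tab) (r : ℕ) => t ++ [G (x, t, r)])
      h1 (by fun_prop) (by fun_prop) (((h2.add h2).add (Bd.const 0 1)).add (Bd.const 0 1))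
      fun x t r => ?_
    rw [Tbl_sz, eG, sz_pair]
    have := Tbl_clip_sz x.1 x.2 (ψ (x, t, r))
    have := Tbl_clip_sz x.1 x.2 (pmod x.1 (E (x.1, x.2.take r, ψ (x, t, r))) (ψ (x, t, r)))
    dsimp only
    omega
  · have key : ∀ n ≤ u.length + 1, ((List.range n).foldl
        (fun t r => t ++ [G ((P, u), t, r)]) []).length = n ∧ ∀ r < n, r.Prime → r ≠ P → Good P r
          (((List.range n).foldl (fun t r => t ++ [G ((P, u), t, r)]) []).getD r ([], [])) := by
      intro n
      induction n with
      | zero => simp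
      | succ n ih =>
        intro hn
        obtain ⟨h1, h2⟩ := ih (by omega)
        rw [List.range_succ, List.foldl_append, List.foldl_cons, List.foldl_nil]
        generalize (List.range n).foldl (fun t r => t ++ [G ((P, u), t, r)]) [] = t at h1 h2
        refine ⟨by simp [h1], fun r hr hp hP => ?_⟩
        rcases Nat.lt_succ_iff_lt_or_eq.1 hr with hr | rfl
        · rw [List.getD_append _ _ _ _ (by omega)]
          exact h2 r hr hp hP
        rw [List.getD_append_right _ _ _ _ h1.le, h1, Nat.sub_self, List.getD_cons_zero, eG]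
        haveI := Fact.mk hp
        have hl : (u.take r).length = r := by rw [List.length_take]; omega
        have hcy : tp P ((u.take r).map fun _ => 1) = cyclotomic r (ZMod P) := by
          rw [Tbl_ones, hl, cyclotomic_prime]
        have hdeg : (cyclotomic r (ZMod P)).natDegree = r - 1 := by
          rw [natDegree_cyclotomic, Nat.totient_prime hp]
        have h3 := hp.two_le
        obtain ⟨f1, f2⟩ := h P ((u.take r).map fun _ => 1) t (hcy ▸ cyclotomic.monic _ _)
          fun s hs s1 s2 => h2 s (by rw [hcy, hdeg] at s1; omega) hs s2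
        have hm : ψ ((P, u), t, r) ∈ F (P, (u.take r).map fun _ => 1, t) := by
          rw [eψ]
          dsimp only
          cases hF : F (P, (u.take r).map fun _ => 1, t) with
          | nil =>
            rw [hF, hcy] at f1
            rw [← f1] at hdeg
            simp at hdeg
            omega
          | cons a l => exact List.mem_cons_self
        generalize ψ ((P, u), t, r) = ψ0 at hm
        obtain ⟨m1, m2⟩ := f2 _ hm
        have hd : tp P ψ0 ∣ cyclotomic r (ZMod P) := by
          rw [← hcy, ← f1]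
          exact List.dvd_prod (List.mem_map_of_mem hm)
        have hd' := natDegree_le_of_dvd hd (cyclotomic_ne_zero _ _)
        obtain ⟨g1, g2, g3, g4⟩ := e P (u.take r) ψ0 (by rwa [hl]) (by rwa [hl]) m1 m2 (by rwa [hl])
          (by rw [hl]; exact hc r hp (by omega) hP)
        rw [hl] at g3 g4
        dsimp only at g1 g2 g3 g4 ⊢
        unfold Good
        dsimp only
        rw [Tbl_clip_tp (by omega), Tbl_clip_tp (by
          rw [pmod, tp_cf]; exact (natDegree_mod_le _ m1.ne_zero).trans (by omega)), pmod, tp_cf,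
          AdjoinRoot.mk_eq_mk.2 (dvd_mod_sub _ _)]
        exact ⟨g1, g2, g3, g4⟩
    exact fun r hr h1 h2 => (key _ le_rfl).2 r (by omega) hr h2

end Vale.Agent.P319
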