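import Vale.Agent.P319.Tw
import Vale.Agent.P319.Dv
import Vale.Agent.P319.Fac
import Vale.Agent.P319.Tbl
import Vale.Agent.P324.Main

/-! Main: the machine. -/

namespace Vale.Agent.P319
open Polynomial Vale.Agent.Common.TreeTM Vale.Agent.P337

theorem Main_nat (n : ℕ) : encNat n = (Enc.enc n).enc := P324.e_nat n

theorem main (k : ℕ) : ∃ (A : Input → ℕ × List (List ℕ))
    (tm : Turing.TM2ComputableInPolyTime encInput encOutput A), (∀ j, Finite (tm.tm.Γ j)) ∧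
    ∀ x : Input, (∀ r, r.Prime → r ≤ x.f.natDegree → r ≠ x.p → Cond k x.p r) →
      IsFactorization x (A x) := by
  obtain ⟨S, s1, s2⟩ := exists_split
  obtain ⟨D, d1, d2⟩ := exists_div s1 s2
  obtain ⟨F, f1, f2⟩ := exists_fac d1 d2
  obtain ⟨T, t1, t2⟩ := exists_tab k f1 f2
  obtain ⟨B, b1, b2⟩ : ∃ B : Nat.Primes × List ℕ → ℕ × List (List ℕ), TC 0 B ∧ ∀ x, B x =
      (plc x.1 x.2, (F (x.1, pmon x.1 x.2, T (x.1, x.2.tail))).map fun h => cf (tp x.1 h)) :=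
    ⟨_, by fun_prop, fun _ => rfl⟩
  obtain ⟨tm, h⟩ := P324.toPoly b1 encInput encOutput (fun x => B (⟨x.p, x.hp⟩, cf x.f))
    (fun x => (⟨x.p, x.hp⟩, cf x.f))
    (fun x => by
      have := enc_list encNat Main_nat (cf x.f)
      rw [encInput, encPair, encList, this, Main_nat]
      rfl)
    fun x => by
      have := enc_list (encList encNat) (enc_list _ Main_nat) (B (⟨x.p, x.hp⟩, cf x.f)).2
      simp only [encOutput, encPair, Main_nat]
      rw [encList, this]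
      rfl
  refine ⟨_, tm, h, fun x hx => ?_⟩
  obtain ⟨p, hp, f, hf⟩ := x
  haveI := Fact.mk hp
  have e : tp p (pmon ⟨p, hp⟩ (cf f)) = f * C f.leadingCoeff⁻¹ := by simp [pmon]
  obtain ⟨h1, h2⟩ := f2 ⟨p, hp⟩ (pmon ⟨p, hp⟩ (cf f)) (T (⟨p, hp⟩, (cf f).tail))
    (e ▸ monic_mul_leadingCoeff_inv hf) (by
      have := t2 ⟨p, hp⟩ (cf f).tail (by simpa using hx)
      dsimp only at this ⊢
      rw [e, natDegree_mul_leadingCoeff_inv _ hf]
      simpa using this)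
  refine ⟨f.leadingCoeff, (F (⟨p, hp⟩, pmon ⟨p, hp⟩ (cf f), T (⟨p, hp⟩, (cf f).tail))).map (tp p),
    by simp [b2, plc, Function.comp_def], ?_, fun g hg => ?_⟩
  · dsimp only at h1 ⊢
    rw [h1, e, mul_left_comm, ← C_mul, mul_inv_cancel₀ (leadingCoeff_ne_zero.2 hf), C_1, mul_one]
  · obtain ⟨a, ha, rfl⟩ := List.mem_map.1 hg
    exact h2 a ha

end Vale.Agent.P319
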