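import Mathlib
import Vale.Agent.P319.Defs
import Vale.Agent.P337.TCx

/-! Outer layer of the factoring algorithm: list-coded polynomials over `𝔽_p` and the
specifications of the stages. -/

namespace Vale.Agent.P319

open Polynomial Vale.Agent.Common.TreeTM

instance encPrimes : Enc Nat.Primes := ⟨fun P => Enc.enc (P : ℕ)⟩

instance factPrimes (P : Nat.Primes) : Fact (P : ℕ).Prime := ⟨P.2⟩

@[fun_prop] theorem tc_primeVal {α : Type} [Enc α] {e : ℕ} {P : α → Nat.Primes} (h : TC e P) :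
    TC e fun a => (P a : ℕ) := h.of_enc fun _ => rfl

theorem sz_primes (P : Nat.Primes) : sz P = sz (P : ℕ) := rfl

/-- The polynomial with the given coefficient list (constant term first). -/
noncomputable def tp (p : ℕ) (l : List ℕ) : (ZMod p)[X] :=
  l.foldr (fun a q => C (a : ZMod p) + X * q) 0

@[simp] theorem tp_nil (p : ℕ) : tp p [] = 0 := rfl

@[simp] theorem tp_cons (p a : ℕ) (l : List ℕ) :
    tp p (a :: l) = C (a : ZMod p) + X * tp p l := rfl

theorem coeff_tp (p : ℕ) (l : List ℕ) (i : ℕ) :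
    (tp p l).coeff i = ((l.getD i 0 : ℕ) : ZMod p) := by
  induction l generalizing i with
  | nil => simp
  | cons a l ih => cases i <;> simp [coeff_X_mul, ih, coeff_C]

@[simp] theorem tp_cf {p : ℕ} [NeZero p] (q : (ZMod p)[X]) : tp p (cf q) = q := by
  ext i
  rw [coeff_tp]
  by_cases h : i < q.natDegree + 1
  · simp [cf, List.getD_eq_getElem?_getD, h]
  · rw [coeff_eq_zero_of_natDegree_lt (by omega)]
    simp [cf, List.getD_eq_getElem?_getD, h]

@[simp] theorem length_cf {p : ℕ} (q : (ZMod p)[X]) : (cf q).length = q.natDegree + 1 := by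
  simp [cf]

theorem mem_cf_lt {p : ℕ} [NeZero p] {q : (ZMod p)[X]} {a : ℕ} (h : a ∈ cf q) : a < p := by
  obtain ⟨i, -, rfl⟩ := List.mem_map.1 h
  exact ZMod.val_lt _

theorem natDegree_tp_le (p : ℕ) (l : List ℕ) : (tp p l).natDegree ≤ l.length - 1 := by
  rw [natDegree_le_iff_coeff_eq_zero]
  intro i hi
  rw [coeff_tp, List.getD_eq_default _ _ (by omega)]
  simp

theorem sz_of_lt {p n : ℕ} {l : List ℕ} (h : ∀ a ∈ l, a < p) (hn : l.length ≤ n) :
    sz l ≤ n * (4 * sz p + 2) + 1 :=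
  (sz_list_le (b := 4 * sz p + 1) fun a ha => sz_nat_mono (h a ha).le).trans (by
    exact Nat.add_le_add_right (Nat.mul_le_mul_right _ hn) _)

theorem sz_cf {p : ℕ} [NeZero p] (q : (ZMod p)[X]) :
    sz (cf q) ≤ (q.natDegree + 1) * (4 * sz p + 2) + 1 :=
  sz_of_lt (fun _ => mem_cf_lt) (length_cf q).le

/-! The arithmetic operations on codes; each is the mathematical operation conjugated by
`tp` and `cf`. -/

open Classical

noncomputable def padd (P : Nat.Primes) (a b : List ℕ) : List ℕ := cf (tp P a + tp P b)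
noncomputable def psub (P : Nat.Primes) (a b : List ℕ) : List ℕ := cf (tp P a - tp P b)
noncomputable def pmul (P : Nat.Primes) (a b : List ℕ) : List ℕ := cf (tp P a * tp P b)
noncomputable def pdeg (P : Nat.Primes) (a : List ℕ) : ℕ := (tp P a).natDegree
noncomputable def plc (P : Nat.Primes) (a : List ℕ) : ℕ := (tp P a).leadingCoeff.val
noncomputable def pz (P : Nat.Primes) (a : List ℕ) : Bool := decide (tp P a = 0)
noncomputable def pmon (P : Nat.Primes) (a : List ℕ) : List ℕ :=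
  cf (tp P a * C (tp P a).leadingCoeff⁻¹)
noncomputable def pmod (P : Nat.Primes) (a b : List ℕ) : List ℕ := cf (tp P a % tp P b)
noncomputable def pdiv (P : Nat.Primes) (a b : List ℕ) : List ℕ := cf (tp P a / tp P b)
noncomputable def ppow (P : Nat.Primes) (a : List ℕ) (e : ℕ) (m : List ℕ) : List ℕ :=
  if tp P m = 0 then [] else cf (tp P a ^ e % tp P m)
noncomputable def pcomp (P : Nat.Primes) (a b m : List ℕ) : List ℕ :=
  if tp P m = 0 then [] else cf ((tp P a).comp (tp P b) % tp P m)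
noncomputable def pgcd (P : Nat.Primes) (a b : List ℕ) : List ℕ :=
  cf (EuclideanDomain.gcd (tp P a) (tp P b))
noncomputable def pminp (P : Nat.Primes) (v m : List ℕ) : List ℕ :=
  if tp P m = 0 then [] else cf (minpoly (ZMod P) (AdjoinRoot.mk (tp P m) (tp P v)))

/-- A table: entry `r` is a field `𝔽_p[z]/ψ` containing the `r`-th roots of unity and an element
`η` of it that is not an `r`-th power. -/
abbrev Tab := List (List ℕ × List ℕ)

def Good (p r : ℕ) (e : List ℕ × List ℕ) : Prop :=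
  (tp p e.1).Monic ∧ Irreducible (tp p e.1) ∧ r ∣ p ^ (tp p e.1).natDegree - 1 ∧
    ∀ y : AdjoinRoot (tp p e.1), y ^ r ≠ AdjoinRoot.mk _ (tp p e.2)

def TabOK (p n : ℕ) (t : Tab) : Prop :=
  ∀ r, r.Prime → r ≤ n → r ≠ p → Good p r (t.getD r ([], []))

/-- Separating the roots of a split squarefree polynomial. -/
def SplitSpec (S : Nat.Primes × List ℕ × Tab → List (List ℕ)) : Prop :=
  ∀ (P : Nat.Primes) (m : List ℕ) (t : Tab), (tp P m).Monic → 2 ≤ (tp P m).natDegree →
    tp P m ∣ X ^ (P : ℕ) - X → TabOK P (tp P m).natDegree t →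
    ∃ a ∈ S (P, m, t), ∃ c c' : ZMod P, (tp P m).IsRoot c ∧ (tp P m).IsRoot c' ∧
      (tp P a).IsRoot c ∧ ¬ (tp P a).IsRoot c'

/-- Finding a proper divisor of a reducible polynomial. -/
def DivSpec (D : Nat.Primes × List ℕ × Tab → List ℕ) : Prop :=
  ∀ (P : Nat.Primes) (g : List ℕ) (t : Tab), (tp P g).Monic → 0 < (tp P g).natDegree →
    ¬ Irreducible (tp P g) → TabOK P (tp P g).natDegree t →
    (tp P (D (P, g, t))).Monic ∧ tp P (D (P, g, t)) ∣ tp P g ∧
      0 < (tp P (D (P, g, t))).natDegree ∧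
      (tp P (D (P, g, t))).natDegree < (tp P g).natDegree

/-- Complete factorization of a monic polynomial. -/
def FacSpec (F : Nat.Primes × List ℕ × Tab → List (List ℕ)) : Prop :=
  ∀ (P : Nat.Primes) (g : List ℕ) (t : Tab), (tp P g).Monic → TabOK P (tp P g).natDegree t →
    ((F (P, g, t)).map (tp P)).prod = tp P g ∧
      ∀ h ∈ F (P, g, t), (tp P h).Monic ∧ Irreducible (tp P h)

/-- The situations in which an `r`-th power nonresidue is found. -/
def Cond (k p r : ℕ) : Prop :=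
  ¬ r ^ 2 ∣ p ^ (r - 1) - 1 ∨
    (r ∣ p - 1 ∧ ∃ a : ℕ, a ≤ (Nat.log 2 p + 2) ^ k ∧ ¬ ∃ x : ZMod p, x ^ r = (a : ZMod p)) ∨
    ∃ l : ℕ, l.Prime ∧ l ≤ (r * Nat.log 2 p + 2) ^ k ∧ r ∣ l - 1 ∧ l ≠ p ∧
      ¬ ∃ x : ZMod l, x ^ r = (p : ZMod l)

end Vale.Agent.P319
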