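import Vale.Agent.P319.Out

/-! PA1: the basic operations on coded polynomials are polynomial time. -/

namespace Vale.Agent.P319
open Polynomial Vale.Agent.Common.TreeTM Vale.Agent.P337

variable {α : Type} [Enc α] {P : α → Nat.Primes} {a b : α → List ℕ}

theorem PA1_getD_idx {τ σ : Type} (w : List τ) (g : ℕ → σ) (d : σ) (k : ℕ) :
    ((idx w).map g).getD k d = if k < w.length then g k else d := by
  split_ifs with hk
  · simp [idx, List.getD_eq_getElem?_getD, hk]
  · rw [List.getD_eq_default]
    simp only [idx, List.length_map, List.length_range]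
    omega

theorem PA1_deg_fold (p : ℕ) (l : List ℕ) (n : ℕ) :
    (List.range n).foldl (fun d i => cond (neq (l.getD i 0 % p) 0) d i) 0 =
      (tp p (l.take n)).natDegree := by
  induction n with
  | zero => simp
  | succ n ih =>
    rw [List.range_succ, List.foldl_append, ih, List.foldl_cons, List.foldl_nil]
    have hc : ∀ m i, (tp p (l.take m)).coeff i = if i < m then ((l.getD i 0 : ℕ) : ZMod p) else 0 :=
      fun m i => by
        rw [coeff_tp]
        split_ifs with h
        · simp [List.getD_eq_getElem?_getD, List.getElem?_take, h]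
        · simp [List.getD_eq_getElem?_getD, List.getElem?_take, h]
    by_cases h : l.getD n 0 % p = 0
    · have h0 : ((l.getD n 0 : ℕ) : ZMod p) = 0 :=
        (ZMod.natCast_eq_zero_iff _ _).2 (Nat.dvd_of_mod_eq_zero h)
      have : tp p (l.take (n + 1)) = tp p (l.take n) := by
        ext i
        rw [hc, hc]
        by_cases hi : i = n
        · subst hi; simp only [h0, ite_self]
        · congr 1; simp; omega
      simp only [neq, h, decide_true, cond_true, this]
    · have h0 : ((l.getD n 0 : ℕ) : ZMod p) ≠ 0 := fun h1 =>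
        h (Nat.mod_eq_zero_of_dvd ((ZMod.natCast_eq_zero_iff _ _).1 h1))
      simp only [neq, h, decide_false, cond_false]
      refine (natDegree_eq_of_le_of_coeff_ne_zero ?_ (by rw [hc, if_pos (by omega)]; exact h0)).symm
      rw [natDegree_le_iff_coeff_eq_zero]
      intro i hi
      rw [hc, if_neg (by omega)]

@[fun_prop] theorem tc_pdeg (hP : TC 0 P) (ha : TC 0 a) :
    TC 0 fun x => pdeg (P x) (a x) := by
  refine (TC.foldl_inv (f := fun x (d i : ℕ) => cond (neq ((a x).getD i 0 % P x) 0) d i)
    (i := fun _ => 0) (l := fun x => idx (a x)) (by fun_prop) (by fun_prop) (by fun_prop)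
    (S := fun x => 4 * sz (a x) + 1) (((Bd.const _ _).mul ha.bd).add (Bd.const _ _))
    (fun x _ d => d ≤ (a x).length) (fun _ => Nat.zero_le _) (fun x _ d i hi h => ?_)
    fun x _ d _ h => (sz_nat_self d).trans ?_).of_eq fun x => ?_
  · cases neq ((a x).getD i 0 % P x) 0
    · exact (List.mem_range.1 hi).le
    · exact h
  · have := length_le_sz (a x); omega
  · rw [idx, PA1_deg_fold, List.take_length, pdeg]

/-- normal form -/
@[fun_prop] theorem tc_cf_tp (hP : TC 0 P) (ha : TC 0 a) :
    TC 0 fun x => cf (tp (P x) (a x)) := by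
  have : TC 0 fun x => (idx ((0 :: a x).take (pdeg (P x) (a x) + 1))).map
      fun i => (a x).getD i 0 % P x := by fun_prop
  refine this.of_eq fun x => ?_
  have h := natDegree_tp_le (P x) (a x)
  rw [cf, idx, List.length_take, pdeg, min_eq_left (by simp; omega)]
  exact List.map_congr_left fun i _ => by rw [coeff_tp, ZMod.val_natCast]

theorem PA1_of_raw {F : ∀ x, (ZMod (P x))[X]} {r : α → List ℕ} (hP : TC 0 P) (hr : TC 0 r)
    (h : ∀ x, tp (P x) (r x) = F x) : TC 0 fun x => cf (F x) :=
  (tc_cf_tp hP hr).of_eq fun x => by rw [h]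

@[fun_prop] theorem tc_padd (hP : TC 0 P) (ha : TC 0 a) (hb : TC 0 b) :
    TC 0 fun x => padd (P x) (a x) (b x) := by
  refine PA1_of_raw (r := fun x => (idx (a x ++ b x)).map fun i => (a x).getD i 0 + (b x).getD i 0)
    hP (by fun_prop) fun x => ?_
  ext i
  rw [coeff_add, coeff_tp, coeff_tp, coeff_tp, PA1_getD_idx]
  split_ifs with h
  · simp
  · rw [List.length_append] at h
    rw [List.getD_eq_default _ _ (by omega), List.getD_eq_default _ _ (by omega)]
    simp

@[fun_prop] theorem tc_psub (hP : TC 0 P) (ha : TC 0 a) (hb : TC 0 b) :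
    TC 0 fun x => psub (P x) (a x) (b x) := by
  refine PA1_of_raw (r := fun x => (idx (a x ++ b x)).map fun i =>
    (a x).getD i 0 + ((P x : ℕ) - 1) * (b x).getD i 0) hP (by fun_prop) fun x => ?_
  ext i
  rw [coeff_sub, coeff_tp, coeff_tp, coeff_tp, PA1_getD_idx]
  split_ifs with h
  · rw [Nat.cast_add, Nat.cast_mul, Nat.cast_sub (P x).2.one_le, ZMod.natCast_self]
    simp [sub_eq_add_neg]
  · rw [List.length_append] at h
    rw [List.getD_eq_default _ _ (by omega), List.getD_eq_default _ _ (by omega)]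
    simp

theorem PA1_sum_range {M : Type} [AddCommMonoid M] (n : ℕ) (f : ℕ → M) :
    ((List.range n).map f).sum = ∑ i ∈ Finset.range n, f i := by
  induction n with
  | zero => simp
  | succ n ih => simp [List.range_succ, Finset.sum_range_succ, ih]

@[fun_prop] theorem tc_pmul (hP : TC 0 P) (ha : TC 0 a) (hb : TC 0 b) :
    TC 0 fun x => pmul (P x) (a x) (b x) := by
  refine PA1_of_raw (r := fun x => (idx (a x ++ b x)).map fun k =>
    ((idx ((a x ++ b x).take (k + 1))).map fun i => (a x).getD i 0 * (b x).getD (k - i) 0).sum)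
    hP (by fun_prop) fun x => ?_
  ext k
  rw [coeff_mul, coeff_tp, PA1_getD_idx, Finset.Nat.sum_antidiagonal_eq_sum_range_succ_mk]
  simp only [coeff_tp]
  split_ifs with h
  · rw [idx, List.length_take, min_eq_left (by omega), PA1_sum_range]
    simp
  · rw [List.length_append] at h
    rw [Nat.cast_zero]
    refine (Finset.sum_eq_zero fun i hi => ?_).symm
    by_cases h1 : i < (a x).length
    · rw [List.getD_eq_default (b x) _ (by omega)]; simp
    · rw [List.getD_eq_default (a x) _ (by omega)]; simp

@[fun_prop] theorem tc_plc (hP : TC 0 P) (ha : TC 0 a) :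
    TC 0 fun x => plc (P x) (a x) := by
  have : TC 0 fun x => (a x).getD (pdeg (P x) (a x)) 0 % P x := by fun_prop
  exact this.of_eq fun x => by rw [plc, leadingCoeff, coeff_tp, ZMod.val_natCast, pdeg]

@[fun_prop] theorem tc_pz (hP : TC 0 P) (ha : TC 0 a) :
    TC 0 fun x => pz (P x) (a x) := by
  have : TC 0 fun x => neq (plc (P x) (a x)) 0 := by fun_prop
  exact this.of_eq fun x => by simp [pz, neq, plc]

/-- the inverse of a residue -/
theorem PA1_inv_spec (P : Nat.Primes) (c : ℕ) :
    ((c * (c ^ (2 * (P : ℕ) - 4) % ((P : ℕ) - 1 + 1)) : ℕ) : ZMod P) = (c : ZMod P)⁻¹ := by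
  have h2 := P.2.two_le
  rw [Nat.sub_add_cancel P.2.one_le, Nat.cast_mul, ZMod.natCast_mod, Nat.cast_pow]
  by_cases h : (c : ZMod P) = 0
  · simp [h]
  · refine eq_inv_of_mul_eq_one_left ?_
    rw [← pow_succ', ← pow_succ, show 2 * (P : ℕ) - 4 + 1 + 1 = (P - 1) * 2 by omega, pow_mul,
      ZMod.pow_card_sub_one_eq_one h, one_pow]

@[fun_prop] theorem tc_pmon (hP : TC 0 P) (ha : TC 0 a) :
    TC 0 fun x => pmon (P x) (a x) := by
  have : TC 0 fun x => pmul (P x) (a x) [plc (P x) (a x) *
    (plc (P x) (a x) ^ (2 * (P x : ℕ) - 4) % ((P x : ℕ) - 1 + 1))] := by fun_prop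
  refine this.of_eq fun x => ?_
  rw [pmon, pmul, tp_cons, PA1_inv_spec, plc, ZMod.natCast_zmod_val]
  simp

end Vale.Agent.P319
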