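import Vale.Agent.P319.PA1

/-! PA2: division with remainder, modular powers and compositions, gcd. -/

namespace Vale.Agent.P319
open Polynomial Vale.Agent.Common.TreeTM Vale.Agent.P337

variable {α : Type} [Enc α] {P : α → Nat.Primes} {a b m : α → List ℕ} {n : α → ℕ}

theorem tp_mono (p : ℕ) (l : List ℕ) (c : ℕ) :
    tp p (l.map (fun _ => 0) ++ [c]) = monomial l.length (c : ZMod p) := by
  induction l with
  | nil => simp
  | cons a l ih => rw [List.map_cons, List.cons_append, tp_cons, ih, X_mul_monomial]; simp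

theorem PA2_bd (hP : TC 0 P) {N : α → ℕ} (hN : Bd 0 N) :
    Bd 0 fun x => (N x + 1) * (4 * sz (P x : ℕ) + 2) + 1 :=
  ((hN.add (Bd.const _ _)).mul (((Bd.const _ _).mul (tc_primeVal hP).bd).add (Bd.const _ _))).add
    (Bd.const _ _)

theorem PA2_sz {P : Nat.Primes} {q : (ZMod P)[X]} {N : ℕ} (h : q.natDegree ≤ N) :
    sz (cf q) ≤ (N + 1) * (4 * sz (P : ℕ) + 2) + 1 :=
  (sz_cf q).trans (Nat.add_le_add_right (Nat.mul_le_mul_right _ (by omega)) _)

theorem PA2_len {l : α → List ℕ} (hl : TC 0 l) : Bd 0 fun x => (l x).length :=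
  hl.bd.mono fun _ => length_le_sz _

theorem PA2_deg (p : ℕ) (l : List ℕ) : (tp p l).natDegree ≤ l.length :=
  (natDegree_tp_le p l).trans (Nat.sub_le _ _)

noncomputable def PA2_t (P : Nat.Primes) (b r : List ℕ) : List ℕ :=
  (r.take (pdeg P r - pdeg P b)).map (fun _ => 0) ++
    [plc P r * (plc P b * (plc P b ^ (2 * (P : ℕ) - 4) % ((P : ℕ) - 1 + 1)))]

noncomputable def PA2_step (P : Nat.Primes) (b : List ℕ) (s : List ℕ × List ℕ) :
    List ℕ × List ℕ :=
  cond (pz P s.2 || pz P b || nlt (pdeg P s.2) (pdeg P b)) s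
    (padd P s.1 (PA2_t P b s.2), psub P s.2 (pmul P (PA2_t P b s.2) b))

def PA2_inv (P : Nat.Primes) (a b : (ZMod P)[X]) (k : ℕ) (s : List ℕ × List ℕ) : Prop :=
  ∃ q r : (ZMod P)[X], s = (cf q, cf r) ∧ q * b + r = a ∧ q.natDegree ≤ a.natDegree ∧
    r.natDegree ≤ a.natDegree ∧ (b = 0 → q = 0) ∧
    (b = 0 ∨ r.degree < b.degree ∨ r.natDegree + k ≤ a.natDegree)

theorem PA2_inv_step {P : Nat.Primes} {a : (ZMod P)[X]} {b : List ℕ} {k : ℕ}
    {s : List ℕ × List ℕ} (h : PA2_inv P a (tp P b) k s) :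
    PA2_inv P a (tp P b) (k + 1) (PA2_step P b s) := by
  obtain ⟨q, r, rfl, h1, h2, h3, h4, h5⟩ := h
  unfold PA2_step
  by_cases hc : r = 0 ∨ tp P b = 0 ∨ r.natDegree < (tp P b).natDegree
  · have : (pz P (cf r) || pz P b || nlt (pdeg P (cf r)) (pdeg P b)) = true := by
      simpa [pz, nlt, pdeg, or_assoc] using hc
    rw [this]
    refine ⟨q, r, rfl, h1, h2, h3, h4, ?_⟩
    by_cases hb : tp P b = 0
    · exact Or.inl hb
    · rcases hc with rfl | hc | hc
      · exact Or.inr (Or.inl (by simpa [bot_lt_iff_ne_bot] using hb))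
      · exact absurd hc hb
      · exact Or.inr (Or.inl (degree_lt_degree hc))
  · have : (pz P (cf r) || pz P b || nlt (pdeg P (cf r)) (pdeg P b)) = false := by
      simpa [pz, nlt, pdeg, and_assoc] using hc
    rw [this]
    push Not at hc
    obtain ⟨c1, c2, c3⟩ := hc
    have ht : tp P (PA2_t P b (cf r)) = monomial (r.natDegree - (tp P b).natDegree)
        (r.leadingCoeff * (tp P b).leadingCoeff⁻¹) := by
      rw [PA2_t, tp_mono, Nat.cast_mul, PA1_inv_spec]
      simp only [pdeg, plc, tp_cf, List.length_take, length_cf, ZMod.natCast_zmod_val]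
      rw [min_eq_left (by omega)]
    have hl : r.leadingCoeff * (tp P b).leadingCoeff⁻¹ ≠ 0 := by simp [c1, c2]
    have hd : (r - tp P (PA2_t P b (cf r)) * tp P b).degree < r.degree := by
      refine degree_sub_lt ?_ c1 ?_
      · rw [ht, degree_mul, degree_monomial _ hl, degree_eq_natDegree c1, degree_eq_natDegree c2]
        norm_cast
        omega
      · rw [ht, leadingCoeff_mul, leadingCoeff_monomial]
        field_simp [leadingCoeff_ne_zero.2 c2]
    refine ⟨q + tp P (PA2_t P b (cf r)), r - tp P (PA2_t P b (cf r)) * tp P b,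
      by simp [padd, psub, pmul], by rw [← h1]; ring, ?_, (natDegree_le_natDegree hd.le).trans h3,
      fun h => absurd h c2, Or.inr ?_⟩
    · refine (natDegree_add_le _ _).trans (max_le h2 ?_)
      rw [ht]
      exact (natDegree_monomial_le _).trans (by omega)
    · by_cases h0 : r - tp P (PA2_t P b (cf r)) * tp P b = 0
      · exact Or.inl (by rw [h0]; simpa [bot_lt_iff_ne_bot] using c2)
      · have h6 := natDegree_lt_natDegree h0 hd
        rcases h5 with h5 | h5 | h5
        · exact absurd h5 c2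
        · exact absurd (natDegree_lt_natDegree c1 h5) (by omega)
        · exact Or.inr (by omega)

theorem PA2_unique {F : Type} [Field F] {q r b : F[X]} (hb : b ≠ 0) (h : r.degree < b.degree) :
    (q * b + r) / b = q ∧ (q * b + r) % b = r := by
  have h1 := EuclideanDomain.div_add_mod (q * b + r) b
  have h2 : r - (q * b + r) % b = 0 := by
    refine eq_zero_of_dvd_of_degree_lt (p := b) ⟨(q * b + r) / b - q, by linear_combination -h1⟩ ?_
    exact (degree_sub_le _ _).trans_lt (max_lt h (degree_mod_lt _ hb))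
  have h3 : (q * b + r) % b = r := (sub_eq_zero.1 h2).symm
  refine ⟨mul_left_cancel₀ hb ?_, h3⟩
  rw [h3] at h1
  linear_combination h1

theorem PA2_divmod (hP : TC 0 P) (ha : TC 0 a) (hb : TC 0 b) :
    TC 0 fun x => (pdiv (P x) (a x) (b x), pmod (P x) (a x) (b x)) := by
  have h0 : ∀ x, PA2_inv (P x) (tp (P x) (a x)) (tp (P x) (b x)) 0
      (cf (tp (P x) []), cf (tp (P x) (a x))) := fun x =>
    ⟨0, _, rfl, by simp, by simp, le_rfl, fun _ => rfl, Or.inr (Or.inr le_rfl)⟩
  refine (TC.foldl_inv (f := fun x s (_ : ℕ) => PA2_step (P x) (b x) s)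
    (i := fun x => (cf (tp (P x) []), cf (tp (P x) (a x)))) (l := fun x => 0 :: a x)
    (by unfold PA2_step PA2_t; fun_prop) (by fun_prop) (by fun_prop)
    (((PA2_bd hP (PA2_len ha)).add (PA2_bd hP (PA2_len ha))).add (Bd.const 0 1))
    (fun x k s => PA2_inv (P x) (tp (P x) (a x)) (tp (P x) (b x)) k s) h0
    (fun x k s _ _ h => PA2_inv_step h) fun x k s _ h => ?_).of_eq fun x => ?_
  · obtain ⟨q, r, rfl, -, h2, h3, -⟩ := h
    rw [sz_pair]
    exact Nat.add_le_add_right (Nat.add_le_add (PA2_sz (h2.trans (PA2_deg _ _)))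
      (PA2_sz (h3.trans (PA2_deg _ _)))) _
  · have key : ∀ (l : List ℕ) k s, PA2_inv (P x) (tp (P x) (a x)) (tp (P x) (b x)) k s →
        PA2_inv (P x) (tp (P x) (a x)) (tp (P x) (b x)) (k + l.length)
          (l.foldl (fun s _ => PA2_step (P x) (b x) s) s) := by
      intro l
      induction l with
      | nil => exact fun _ _ h => h
      | cons c l ih =>
        intro k s h
        have := ih _ _ (PA2_inv_step h)
        rwa [add_assoc, add_comm 1] at this
    obtain ⟨q, r, e, h1, -, -, h4, h5⟩ := key (0 :: a x) 0 _ (h0 x)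
    rw [e, pdiv, pmod, ← h1]
    by_cases hb : tp (P x) (b x) = 0
    · simp [hb, h4 hb]
    · have := PA2_deg (P x) (a x)
      rcases h5 with h5 | h5 | h5
      · exact absurd h5 hb
      · rw [(PA2_unique hb h5).1, (PA2_unique hb h5).2]
      · simp at h5; omega

@[fun_prop] theorem tc_pdiv (hP : TC 0 P) (ha : TC 0 a) (hb : TC 0 b) :
    TC 0 fun x => pdiv (P x) (a x) (b x) := TC.fst (PA2_divmod hP ha hb)
@[fun_prop] theorem tc_pmod (hP : TC 0 P) (ha : TC 0 a) (hb : TC 0 b) :
    TC 0 fun x => pmod (P x) (a x) (b x) := TC.snd (PA2_divmod hP ha hb)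

theorem mod_congr {F : Type} [Field F] {x y m : F[X]} (h : m ∣ x - y) : x % m = y % m := by
  by_cases hm : m = 0
  · subst hm
    simpa [sub_eq_zero] using h
  · obtain ⟨c, hc⟩ := h
    have h1 := EuclideanDomain.div_add_mod y m
    have : x = (c + y / m) * m + y % m := by linear_combination hc - h1
    rw [this, (PA2_unique hm (degree_mod_lt _ hm)).2]

theorem dvd_mod_sub {F : Type} [Field F] (x m : F[X]) : m ∣ x % m - x :=
  ⟨-(x / m), by linear_combination EuclideanDomain.div_add_mod x m⟩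

theorem natDegree_mod_le {F : Type} [Field F] (x : F[X]) {m : F[X]} (hm : m ≠ 0) :
    (x % m).natDegree ≤ m.natDegree := natDegree_le_natDegree (degree_mod_lt _ hm).le

theorem PA2_sq {F : Type} [Field F] (u m t : F[X]) :
    m ∣ u % m * (u % m) * t - u * u * t := by
  obtain ⟨d, hd⟩ := dvd_mod_sub u m
  exact ⟨d * (u % m + u) * t, by linear_combination (u % m + u) * t * hd⟩

theorem PA2_ne (P : Nat.Primes) (m : List ℕ) : tp P (cond (pz P m) [1] m) ≠ 0 := by
  by_cases h : tp P m = 0 <;> simp [pz, h]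

theorem PA2_sz_mod (P : Nat.Primes) (y m : List ℕ) : sz (pmod P y (cond (pz P m) [1] m)) ≤
    (m.length + 1 + 1) * (4 * sz (P : ℕ) + 2) + 1 :=
  PA2_sz ((natDegree_mod_le _ (PA2_ne P m)).trans ((PA2_deg _ _).trans (by
    cases pz P m <;> simp)))

@[fun_prop] theorem tc_ppow (hP : TC 0 P) (ha : TC 0 a) (hn : TC 0 n) (hm : TC 0 m) :
    TC 0 fun x => ppow (P x) (a x) (n x) (m x) := by
  have h := TC.foldl_inv (f := fun x acc c => pmod (P x) (pmul (P x) (pmul (P x) acc acc)
      (cond c (a x) [1])) (cond (pz (P x) (m x)) [1] (m x)))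
    (i := fun x => pmod (P x) [1] (cond (pz (P x) (m x)) [1] (m x)))
    (l := fun x => (n x).bits.reverse) (by fun_prop) (by fun_prop) (by fun_prop)
    (PA2_bd hP ((PA2_len hm).add (Bd.const 0 1)))
    (fun x _ s => ∃ y, s = pmod (P x) y (cond (pz (P x) (m x)) [1] (m x))) (fun _ => ⟨_, rfl⟩)
    (fun _ _ _ _ _ _ => ⟨_, rfl⟩) fun x _ s _ h => by
      obtain ⟨y, rfl⟩ := h
      exact PA2_sz_mod _ _ _
  refine (TC.cond (tc_pz hP hm) (TC.const []) h).of_eq fun x => ?_
  by_cases h0 : tp (P x) (m x) = 0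
  · simp [ppow, pz, h0]
  · have key : ∀ (l : List Bool) (s : ℕ), l.foldl (fun acc c => pmod (P x) (pmul (P x)
        (pmul (P x) acc acc) (cond c (a x) [1])) (m x)) (cf (tp (P x) (a x) ^ s % tp (P x) (m x))) =
        cf (tp (P x) (a x) ^ (l.foldl (fun acc c => Nat.bit c acc) s) % tp (P x) (m x)) := by
      intro l
      induction l with
      | nil => simp
      | cons c l ih =>
        intro s
        have h1 : tp (P x) (a x) ^ Nat.bit c s =
            tp (P x) (a x) ^ s * tp (P x) (a x) ^ s * tp (P x) (cond c (a x) [1]) := by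
          cases c <;> simp [Nat.bit_val, pow_succ, two_mul, pow_add]
        rw [List.foldl_cons, List.foldl_cons, ← ih, h1, pmod, pmul, pmul, tp_cf, tp_cf, tp_cf,
          mod_congr (PA2_sq _ _ _)]
    have h1 := key (n x).bits.reverse 0
    rw [bits_fold, pow_zero] at h1
    have h2 : pmod (P x) [1] (m x) = cf (1 % tp (P x) (m x)) := by simp [pmod]
    simp only [ppow, pz, h0, decide_false, cond_false, if_false, h2, h1]

@[fun_prop] theorem tc_pcomp (hP : TC 0 P) (ha : TC 0 a) (hb : TC 0 b) (hm : TC 0 m) :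
    TC 0 fun x => pcomp (P x) (a x) (b x) (m x) := by
  have h := TC.foldl_inv (f := fun x acc (c : ℕ) => pmod (P x) (padd (P x) [c]
      (pmul (P x) (b x) acc)) (cond (pz (P x) (m x)) [1] (m x)))
    (i := fun x => pmod (P x) [] (cond (pz (P x) (m x)) [1] (m x)))
    (l := fun x => (a x).reverse) (by fun_prop) (by fun_prop) (by fun_prop)
    (PA2_bd hP ((PA2_len hm).add (Bd.const 0 1)))
    (fun x _ s => ∃ y, s = pmod (P x) y (cond (pz (P x) (m x)) [1] (m x))) (fun _ => ⟨_, rfl⟩)
    (fun _ _ _ _ _ _ => ⟨_, rfl⟩) fun x _ s _ h => by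
      obtain ⟨y, rfl⟩ := h
      exact PA2_sz_mod _ _ _
  refine (TC.cond (tc_pz hP hm) (TC.const []) h).of_eq fun x => ?_
  by_cases h0 : tp (P x) (m x) = 0
  · simp [pcomp, pz, h0]
  · have key : ∀ l : List ℕ, l.reverse.foldl (fun acc (c : ℕ) => pmod (P x) (padd (P x) [c]
        (pmul (P x) (b x) acc)) (m x)) (pmod (P x) [] (m x)) =
        cf ((tp (P x) l).comp (tp (P x) (b x)) % tp (P x) (m x)) := by
      intro l
      induction l with
      | nil => simp [pmod]
      | cons c l ih =>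
        rw [List.reverse_cons, List.foldl_append, ih, List.foldl_cons, List.foldl_nil, pmod, padd,
          pmul, tp_cf, tp_cf, tp_cf]
        congr 1
        apply mod_congr
        obtain ⟨d, hd⟩ := dvd_mod_sub ((tp (P x) l).comp (tp (P x) (b x))) (tp (P x) (m x))
        refine ⟨tp (P x) (b x) * d, ?_⟩
        simp only [tp_cons, tp_nil, mul_zero, add_zero, add_comp, C_comp, mul_comp, X_comp]
        linear_combination tp (P x) (b x) * hd
    simp only [pcomp, pz, h0, decide_false, cond_false, if_false, key]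

open Classical in
def PA2_ginv (P : Nat.Primes) (a b : (ZMod P)[X]) (k : ℕ) (s : List ℕ × List ℕ) : Prop :=
  ∃ u v : (ZMod P)[X], s = (cf u, cf v) ∧ EuclideanDomain.gcd u v = EuclideanDomain.gcd a b ∧
    u.natDegree ≤ a.natDegree ∧ v.natDegree ≤ a.natDegree + b.natDegree ∧
    (u = 0 ∨ u.natDegree + k ≤ a.natDegree)

theorem PA2_ginv_step {P : Nat.Primes} {a b : (ZMod P)[X]} {k : ℕ} {s : List ℕ × List ℕ}
    (h : PA2_ginv P a b k s) :
    PA2_ginv P a b (k + 1) (cond (pz P s.1) s (pmod P s.2 s.1, s.1)) := by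
  classical
  obtain ⟨u, v, rfl, h1, h2, h3, h4⟩ := h
  by_cases hu : u = 0
  · simp only [pz, tp_cf, hu, decide_true, cond_true]
    exact ⟨0, v, rfl, hu ▸ h1, by simp, h3, Or.inl rfl⟩
  · simp only [pz, tp_cf, hu, decide_false, cond_false, pmod]
    refine ⟨v % u, u, rfl, ?_, (natDegree_mod_le _ hu).trans h2, by omega, ?_⟩
    · rw [← h1]
      convert (EuclideanDomain.gcd_val u v).symm
    · by_cases h0 : v % u = 0
      · exact Or.inl h0
      · have := natDegree_lt_natDegree h0 (degree_mod_lt v hu)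
        have := h4.resolve_left hu
        exact Or.inr (by omega)

@[fun_prop] theorem tc_pgcd (hP : TC 0 P) (ha : TC 0 a) (hb : TC 0 b) :
    TC 0 fun x => pgcd (P x) (a x) (b x) := by
  have h0 : ∀ x, PA2_ginv (P x) (tp (P x) (a x)) (tp (P x) (b x)) 0
      (cf (tp (P x) (a x)), cf (tp (P x) (b x))) := fun x =>
    ⟨_, _, rfl, rfl, le_rfl, by omega, Or.inr le_rfl⟩
  refine (TC.snd (TC.foldl_inv (f := fun x (s : List ℕ × List ℕ) (_ : ℕ) =>
      cond (pz (P x) s.1) s (pmod (P x) s.2 s.1, s.1))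
    (i := fun x => (cf (tp (P x) (a x)), cf (tp (P x) (b x)))) (l := fun x => 0 :: a x)
    (by fun_prop) (by fun_prop) (by fun_prop)
    (((PA2_bd hP (PA2_len ha)).add (PA2_bd hP ((PA2_len ha).add (PA2_len hb)))).add (Bd.const 0 1))
    (fun x k s => PA2_ginv (P x) (tp (P x) (a x)) (tp (P x) (b x)) k s) h0
    (fun x k s _ _ h => PA2_ginv_step h) fun x k s _ h => ?_)).of_eq fun x => ?_
  · obtain ⟨q, r, rfl, -, h2, h3, -⟩ := h
    rw [sz_pair]
    exact Nat.add_le_add_right (Nat.add_le_add (PA2_sz (h2.trans (PA2_deg _ _)))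
      (PA2_sz (h3.trans (Nat.add_le_add (PA2_deg _ _) (PA2_deg _ _))))) _
  · have key : ∀ (l : List ℕ) k s, PA2_ginv (P x) (tp (P x) (a x)) (tp (P x) (b x)) k s →
        PA2_ginv (P x) (tp (P x) (a x)) (tp (P x) (b x)) (k + l.length) (l.foldl
          (fun s _ => cond (pz (P x) s.1) s (pmod (P x) s.2 s.1, s.1)) s) := by
      intro l
      induction l with
      | nil => exact fun _ _ h => h
      | cons c l ih =>
        intro k s h
        have := ih _ _ (PA2_ginv_step h)
        rwa [add_assoc, add_comm 1] at this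
    obtain ⟨u, v, e, h1, -, -, h4⟩ := key (0 :: a x) 0 _ (h0 x)
    have := PA2_deg (P x) (a x)
    obtain rfl : u = 0 := h4.resolve_right (by simp; omega)
    rw [e, pgcd, ← h1]
    simp

end Vale.Agent.P319
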