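import Vale.Agent.P319.Ring

/-! R1: the ring operations are polynomial time, normalized, and respected by homomorphisms. -/

namespace Vale.Agent.P319
open Vale.Agent.Common.TreeTM Vale.Agent.P337

theorem R1_nm_map (R : RC) (g : ℕ → ℕ) : Nm R ((idx R.2.1).map fun i => rmod R (g i)) := by
  refine ⟨by simp [idx, dim], fun x hx => ?_⟩
  obtain ⟨i, -, rfl⟩ := List.mem_map.1 hx
  exact min_le_right _ _

theorem R1_fold {σ τ : Type} (P : σ → Prop) (f : σ → τ → σ) (h : ∀ s x, P (f s x)) (l : List τ) :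
    ∀ s, P s → P (l.foldl f s) := by
  induction l with
  | nil => exact fun _ hs => hs
  | cons x l ih => exact fun s _ => ih _ (h s x)

theorem R1_nmV_map (R : RC) (w : List ℕ) (g : ℕ → El) (h : ∀ k, Nm R (g k)) :
    NmV R w.length ((idx w).map g) := by
  refine ⟨by simp [idx], fun x hx => ?_⟩
  obtain ⟨i, -, rfl⟩ := List.mem_map.1 hx
  exact h i

section shape
variable (R : RC) (q n : ℕ) (a b : El) (l u v : List El) (w : List ℕ) (M : List (List El))

theorem nm_rzero : Nm R (rzero R) := by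
  refine ⟨by simp [rzero, idx, dim], fun x hx => ?_⟩
  obtain ⟨i, -, rfl⟩ := List.mem_map.1 hx
  exact Nat.zero_le _

theorem nm_radd : Nm R (radd R a b) := R1_nm_map _ _

theorem nm_rneg : Nm R (rneg R a) := R1_nm_map _ _

theorem nm_rsub : Nm R (rsub R a b) := nm_radd _ _ _

theorem nm_rmul : Nm R (rmul R a b) := R1_nm_map _ _

theorem nm_rcst : Nm R (rcst R n) := R1_nm_map _ _

theorem nm_rone : Nm R (rone R) := nm_rcst _ _

theorem nm_rpow : Nm R (rpow R a n) := R1_fold (Nm R) _ (fun _ _ => nm_rmul _ _ _) _ _ (nm_rone R)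

theorem nm_rinv : Nm R (rinv R q a) := nm_rpow _ _ _

theorem nm_nz : Nm R (nz R q a) := nm_rpow _ _ _

theorem nm_rsum : Nm R (rsum R l) := R1_fold (Nm R) _ (fun _ _ => nm_radd _ _ _) _ _ (nm_rzero R)

theorem nm_rprod : Nm R (rprod R l) := R1_fold (Nm R) _ (fun _ _ => nm_rmul _ _ _) _ _ (nm_rone R)

theorem nm_nzV : Nm R (nzV R q l) := nm_rsub _ _ _

theorem nmV_vadd : NmV R w.length (vadd R w u v) := R1_nmV_map _ _ _ fun _ => nm_radd _ _ _

theorem nmV_vsmul : NmV R w.length (vsmul R w a v) := R1_nmV_map _ _ _ fun _ => nm_rmul _ _ _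

theorem nmV_vsum : NmV R w.length (vsum R w M) := R1_nmV_map _ _ _ fun _ => nm_rsum _ _

theorem Nm.sz_le {R : RC} {a : El} (h : Nm R a) : sz a ≤ 7 * sz R ^ 2 := by
  have h1 : sz R = sz R.1 + sz R.2 + 1 := sz_prod R
  have h2 : sz R.2 = sz R.2.1 + sz R.2.2 + 1 := sz_prod R.2
  have h3 := length_le_sz R.2.1
  have h4 := sz_list_le (l := a) (b := 4 * sz R + 1) fun x hx => by
    have := sz_nat_mono (h.2 x hx)
    omega
  have h5 : a.length ≤ sz R := by
    rw [h.1, dim]
    omega
  have h6 := Nat.mul_le_mul_right (4 * sz R + 1 + 1) h5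
  have h7 := one_le_sz R
  nlinarith

theorem NmV.sz_le {R : RC} {w : ℕ} {v : List El} (h : NmV R w v) :
    sz v ≤ 8 * (w + 1) * sz R ^ 2 := by
  have h4 := sz_list_le (l := v) (b := 7 * sz R ^ 2) fun x hx => (h.2 x hx).sz_le
  have h7 : 1 ≤ sz R ^ 2 := Nat.one_le_pow _ _ (one_le_sz R)
  rw [h.1] at h4
  nlinarith [Nat.mul_le_mul_left w h7]

theorem NmL.sz_le {R : RC} {h w : ℕ} {M : List (List El)} (hM : NmL R h w M) :
    sz M ≤ 9 * (h + 1) * (w + 1) * sz R ^ 2 := by
  have h4 := sz_list_le (l := M) (b := 8 * (w + 1) * sz R ^ 2) fun x hx => (hM.2 x hx).sz_le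
  have h7 : 1 ≤ (w + 1) * sz R ^ 2 := Nat.mul_pos (by omega) (Nat.one_le_pow _ _ (one_le_sz R))
  rw [hM.1] at h4
  have e1 : 8 * (w + 1) * sz R ^ 2 = 8 * ((w + 1) * sz R ^ 2) := by ring
  have e2 : 9 * (h + 1) * (w + 1) * sz R ^ 2 = 9 * (h + 1) * ((w + 1) * sz R ^ 2) := by ring
  rw [e1] at h4
  rw [e2]
  generalize (w + 1) * sz R ^ 2 = y at h4 h7
  nlinarith [Nat.mul_le_mul_left h h7]

end shape

section tc
variable {α : Type} [Enc α] {R : α → RC} {q n : α → ℕ} {a b : α → El} {l u v : α → List El}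
  {w : α → List ℕ} {M : α → List (List El)}

theorem R1_bd (hR : TC 0 R) : Bd 0 fun x => 7 * sz (R x) ^ 2 :=
  ((Bd.const 0 7).mul (hR.bd.mul hR.bd)).mono fun x => by rw [pow_two]

@[fun_prop] theorem R1_tc_rmod (hR : TC 0 R) (hn : TC 0 n) : TC 0 fun x => rmod (R x) (n x) := by
  unfold rmod
  fun_prop

@[fun_prop] theorem R1_tc_sc (hR : TC 0 R) (hq : TC 0 q) (hn : TC 0 n) :
    TC 0 fun x => sc (R x) (q x) (n x) := by
  unfold sc
  fun_prop

@[fun_prop] theorem tc_dim (hR : TC 0 R) : TC 0 fun x => dim (R x) := by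
  unfold dim
  fun_prop

@[fun_prop] theorem tc_rzero (hR : TC 0 R) : TC 0 fun x => rzero (R x) := by
  unfold rzero
  fun_prop

@[fun_prop] theorem tc_radd (hR : TC 0 R) (ha : TC 0 a) (hb : TC 0 b) :
    TC 0 fun x => radd (R x) (a x) (b x) := by
  unfold radd
  fun_prop

@[fun_prop] theorem tc_rneg (hR : TC 0 R) (ha : TC 0 a) : TC 0 fun x => rneg (R x) (a x) := by
  unfold rneg
  fun_prop

@[fun_prop] theorem tc_rsub (hR : TC 0 R) (ha : TC 0 a) (hb : TC 0 b) :
    TC 0 fun x => rsub (R x) (a x) (b x) := by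
  unfold rsub
  fun_prop

@[fun_prop] theorem tc_rmul (hR : TC 0 R) (ha : TC 0 a) (hb : TC 0 b) :
    TC 0 fun x => rmul (R x) (a x) (b x) := by
  unfold rmul
  fun_prop

@[fun_prop] theorem tc_rcst (hR : TC 0 R) (hn : TC 0 n) : TC 0 fun x => rcst (R x) (n x) := by
  unfold rcst
  fun_prop

@[fun_prop] theorem tc_rone (hR : TC 0 R) : TC 0 fun x => rone (R x) := by
  unfold rone
  fun_prop

@[fun_prop] theorem tc_rpow (hR : TC 0 R) (ha : TC 0 a) (hn : TC 0 n) :
    TC 0 fun x => rpow (R x) (a x) (n x) := by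
  unfold rpow
  exact TC.foldl_inv (f := fun x acc c => rmul (R x) (rmul (R x) acc acc) (cond c (a x) (rone (R x))))
    (by fun_prop) (by fun_prop) (by fun_prop) (R1_bd hR) (fun x _ s => Nm (R x) s)
    (fun _ => nm_rone _) (fun _ _ _ _ _ _ => nm_rmul _ _ _) (fun _ _ _ _ h => h.sz_le)

@[fun_prop] theorem tc_rinv (hR : TC 0 R) (hq : TC 0 q) (ha : TC 0 a) :
    TC 0 fun x => rinv (R x) (q x) (a x) := by
  unfold rinv
  fun_prop

@[fun_prop] theorem tc_nz (hR : TC 0 R) (hq : TC 0 q) (ha : TC 0 a) :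
    TC 0 fun x => nz (R x) (q x) (a x) := by
  unfold nz
  fun_prop

@[fun_prop] theorem tc_rsum (hR : TC 0 R) (hl : TC 0 l) : TC 0 fun x => rsum (R x) (l x) := by
  unfold rsum
  exact TC.foldl_inv (f := fun x acc c => radd (R x) acc c)
    (by fun_prop) (by fun_prop) hl (R1_bd hR) (fun x _ s => Nm (R x) s)
    (fun _ => nm_rzero _) (fun _ _ _ _ _ _ => nm_radd _ _ _) (fun _ _ _ _ h => h.sz_le)

@[fun_prop] theorem tc_rprod (hR : TC 0 R) (hl : TC 0 l) : TC 0 fun x => rprod (R x) (l x) := by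
  unfold rprod
  exact TC.foldl_inv (f := fun x acc c => rmul (R x) acc c)
    (by fun_prop) (by fun_prop) hl (R1_bd hR) (fun x _ s => Nm (R x) s)
    (fun _ => nm_rone _) (fun _ _ _ _ _ _ => nm_rmul _ _ _) (fun _ _ _ _ h => h.sz_le)

@[fun_prop] theorem tc_nzV (hR : TC 0 R) (hq : TC 0 q) (hl : TC 0 l) :
    TC 0 fun x => nzV (R x) (q x) (l x) := by
  unfold nzV
  fun_prop

@[fun_prop] theorem tc_vadd (hR : TC 0 R) (hw : TC 0 w) (hu : TC 0 u) (hv : TC 0 v) :
    TC 0 fun x => vadd (R x) (w x) (u x) (v x) := by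
  unfold vadd
  fun_prop

@[fun_prop] theorem tc_vsmul (hR : TC 0 R) (hw : TC 0 w) (ha : TC 0 a) (hv : TC 0 v) :
    TC 0 fun x => vsmul (R x) (w x) (a x) (v x) := by
  unfold vsmul
  fun_prop

@[fun_prop] theorem tc_vsum (hR : TC 0 R) (hw : TC 0 w) (hM : TC 0 M) :
    TC 0 fun x => vsum (R x) (w x) (M x) := by
  unfold vsum
  fun_prop

end tc

section hom
variable {Ω : Type} [Field Ω] {R : RC} {q : ℕ} {β : ℕ → Ω}

theorem R1_sum_range {M : Type} [AddCommMonoid M] (n : ℕ) (f : ℕ → M) :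
    ((List.range n).map f).sum = ∑ i ∈ Finset.range n, f i := by
  induction n with
  | zero => simp
  | succ n ih => simp [List.range_succ, Finset.sum_range_succ, ih]

theorem R1_getD_idx {τ σ : Type} (w : List τ) (g : ℕ → σ) (d : σ) (k : ℕ) :
    ((idx w).map g).getD k d = if k < w.length then g k else d := by
  split_ifs with hk
  · simp [idx, List.getD_eq_getElem?_getD, hk]
  · rw [List.getD_eq_default]
    simp only [idx, List.length_map, List.length_range]
    omega

theorem R1_ev_map (R : RC) (β : ℕ → Ω) (g : ℕ → ℕ) :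
    ev R β ((idx R.2.1).map g) = ∑ i ∈ Finset.range (dim R), (g i : Ω) * β i := by
  refine Finset.sum_congr rfl fun i hi => ?_
  rw [R1_getD_idx, if_pos (show i < R.2.1.length from Finset.mem_range.1 hi)]

theorem R1_rmod (h : IsHom R q β) (x : ℕ) : (rmod R x : Ω) = x := by
  rw [rmod, min_eq_left (Nat.mod_lt _ h.pos).le]
  conv_rhs => rw [← Nat.div_add_mod x R.1]
  rw [Nat.cast_add, Nat.cast_mul, h.char, zero_mul, zero_add]

theorem ev_nil (R : RC) (β : ℕ → Ω) : ev R β [] = 0 := by simp [ev]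

theorem ev_rzero (R : RC) (β : ℕ → Ω) : ev R β (rzero R) = 0 := by
  rw [rzero, R1_ev_map]
  simp

theorem IsHom.radd (h : IsHom R q β) (a b : El) :
    ev R β (radd R a b) = ev R β a + ev R β b := by
  rw [Vale.Agent.P319.radd, R1_ev_map, ev, ev, ← Finset.sum_add_distrib]
  refine Finset.sum_congr rfl fun i _ => ?_
  rw [R1_rmod h, Nat.cast_add, add_mul]

theorem IsHom.rneg (h : IsHom R q β) (a : El) : ev R β (rneg R a) = -ev R β a := by
  rw [Vale.Agent.P319.rneg, R1_ev_map, ev, ← Finset.sum_neg_distrib]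
  refine Finset.sum_congr rfl fun i _ => ?_
  rw [R1_rmod h, Nat.cast_mul, Nat.cast_sub h.pos, h.char]
  simp

theorem IsHom.rsub (h : IsHom R q β) (a b : El) :
    ev R β (rsub R a b) = ev R β a - ev R β b := by
  rw [Vale.Agent.P319.rsub, h.radd, h.rneg, sub_eq_add_neg]

theorem IsHom.rmul (h : IsHom R q β) (a b : El) :
    ev R β (rmul R a b) = ev R β a * ev R β b := by
  rw [Vale.Agent.P319.rmul, R1_ev_map]
  have e : ev R β a * ev R β b = ∑ i ∈ Finset.range (dim R), ∑ j ∈ Finset.range (dim R),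
      ∑ k ∈ Finset.range (dim R),
        (a.getD i 0 : Ω) * (b.getD j 0 : Ω) * ((sc R i j).getD k 0 : Ω) * β k := by
    rw [ev, ev, Finset.sum_mul_sum]
    refine Finset.sum_congr rfl fun i hi => Finset.sum_congr rfl fun j hj => ?_
    have := h.mul i (Finset.mem_range.1 hi) j (Finset.mem_range.1 hj)
    rw [mul_mul_mul_comm, this, ev, Finset.mul_sum]
    exact Finset.sum_congr rfl fun k _ => by ring
  rw [e]
  simp only [R1_rmod h, idx, R1_sum_range, Nat.cast_sum, Nat.cast_mul, Finset.sum_mul]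
  rw [Finset.sum_comm]
  refine Finset.sum_congr rfl fun i _ => ?_
  rw [Finset.sum_comm]
  rfl

theorem IsHom.rcst (h : IsHom R q β) (n : ℕ) : ev R β (rcst R n) = n := by
  rw [Vale.Agent.P319.rcst, R1_ev_map]
  have := h.one
  rw [ev] at this
  simp only [R1_rmod h, Nat.cast_mul, mul_assoc]
  rw [← Finset.mul_sum, this, mul_one]

theorem IsHom.rone (h : IsHom R q β) : ev R β (rone R) = 1 := by
  rw [Vale.Agent.P319.rone, h.rcst, Nat.cast_one]

theorem IsHom.rpow (h : IsHom R q β) (a : El) (n : ℕ) :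
    ev R β (rpow R a n) = ev R β a ^ n := by
  have key : ∀ (l : List Bool) (s : ℕ) (acc : El), ev R β acc = ev R β a ^ s →
      ev R β (l.foldl (fun acc c => Vale.Agent.P319.rmul R (Vale.Agent.P319.rmul R acc acc)
        (cond c a (Vale.Agent.P319.rone R))) acc) =
        ev R β a ^ (l.foldl (fun acc c => Nat.bit c acc) s) := by
    intro l
    induction l with
    | nil => exact fun _ _ h => h
    | cons c l ih =>
      intro s acc hacc
      rw [List.foldl_cons, List.foldl_cons]
      apply ih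
      rw [h.rmul, h.rmul, hacc]
      cases c
      · simp [h.rone, Nat.bit_val, two_mul, pow_add]
      · simp [Nat.bit_val, two_mul, pow_add]
  have := key n.bits.reverse 0 _ (by rw [h.rone, pow_zero])
  rw [bits_fold] at this
  exact this

theorem IsHom.rinv (h : IsHom R q β) (a : El) : ev R β (rinv R q a) = (ev R β a)⁻¹ := by
  rw [Vale.Agent.P319.rinv, h.rpow]
  have h2 := h.two_lt
  have h3 := h.fix a
  by_cases h0 : ev R β a = 0
  · rw [h0, zero_pow (by omega), inv_zero]
  · obtain ⟨m, rfl⟩ : ∃ m, q = m + 2 := ⟨q - 2, by omega⟩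
    rw [Nat.add_sub_cancel]
    refine eq_inv_of_mul_eq_one_left (mul_right_cancel₀ h0 ?_)
    rw [one_mul, ← h3]
    conv_lhs => rw [h3]
    conv_rhs => rw [pow_succ, pow_succ]

open Classical in
theorem IsHom.nz (h : IsHom R q β) (a : El) :
    ev R β (nz R q a) = if ev R β a = 0 then 0 else 1 := by
  rw [Vale.Agent.P319.nz, h.rpow]
  have h2 := h.two_lt
  have h3 := h.fix a
  split_ifs with h0
  · rw [h0, zero_pow (by omega)]
  · obtain ⟨m, rfl⟩ : ∃ m, q = m + 1 := ⟨q - 1, by omega⟩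
    rw [Nat.add_sub_cancel]
    refine mul_right_cancel₀ h0 ?_
    rw [one_mul, ← pow_succ, h3]

theorem IsHom.rsum (h : IsHom R q β) (l : List El) :
    ev R β (rsum R l) = (l.map (ev R β)).sum := by
  have key : ∀ (l : List El) (acc : El), ev R β (l.foldl (Vale.Agent.P319.radd R) acc) =
      ev R β acc + (l.map (ev R β)).sum := by
    intro l
    induction l with
    | nil => simp
    | cons c l ih =>
      intro acc
      rw [List.foldl_cons, ih, h.radd, List.map_cons, List.sum_cons, add_assoc]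
  rw [Vale.Agent.P319.rsum, key, ev_rzero, zero_add]

theorem IsHom.rprod (h : IsHom R q β) (l : List El) :
    ev R β (rprod R l) = (l.map (ev R β)).prod := by
  have key : ∀ (l : List El) (acc : El), ev R β (l.foldl (Vale.Agent.P319.rmul R) acc) =
      ev R β acc * (l.map (ev R β)).prod := by
    intro l
    induction l with
    | nil => simp
    | cons c l ih =>
      intro acc
      rw [List.foldl_cons, ih, h.rmul, List.map_cons, List.prod_cons, mul_assoc]
  rw [Vale.Agent.P319.rprod, key, h.rone, one_mul]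

open Classical in
theorem IsHom.nzV (h : IsHom R q β) (l : List El) :
    ev R β (nzV R q l) = if vec R β l = 0 then 0 else 1 := by
  rw [Vale.Agent.P319.nzV, h.rsub, h.rone, h.rprod, List.map_map]
  split_ifs with h0
  · rw [List.prod_eq_one, sub_self]
    intro x hx
    obtain ⟨a, ha, rfl⟩ := List.mem_map.1 hx
    obtain ⟨k, hk, rfl⟩ := List.getElem_of_mem ha
    have := congrFun h0 k
    simp only [vec, List.getD_eq_getElem _ _ hk, Pi.zero_apply] at this
    simp only [Function.comp, h.rsub, h.rone, h.nz, this, if_true, sub_zero]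
  · obtain ⟨k, hk⟩ := Function.ne_iff.1 h0
    simp only [vec, Pi.zero_apply] at hk
    have hl : k < l.length := by
      by_contra hcon
      rw [List.getD_eq_default _ _ (by omega), ev_nil] at hk
      exact hk rfl
    rw [List.getD_eq_getElem _ _ hl] at hk
    rw [List.prod_eq_zero, sub_zero]
    refine List.mem_map.2 ⟨l[k], List.getElem_mem hl, ?_⟩
    simp only [Function.comp, h.rsub, h.rone, h.nz, if_neg hk, sub_self]

theorem IsHom.vadd (h : IsHom R q β) (w : List ℕ) (u v : List El) (k : ℕ) :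
    vec R β (vadd R w u v) k = if k < w.length then vec R β u k + vec R β v k else 0 := by
  simp only [vec, Vale.Agent.P319.vadd, R1_getD_idx]
  split_ifs
  · exact h.radd _ _
  · exact ev_nil _ _

theorem IsHom.vsmul (h : IsHom R q β) (w : List ℕ) (a : El) (v : List El) (k : ℕ) :
    vec R β (vsmul R w a v) k = if k < w.length then ev R β a * vec R β v k else 0 := by
  simp only [vec, Vale.Agent.P319.vsmul, R1_getD_idx]
  split_ifs
  · exact h.rmul _ _
  · exact ev_nil _ _

theorem IsHom.vsum (h : IsHom R q β) (w : List ℕ) (M : List (List El)) (k : ℕ) :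
    vec R β (vsum R w M) k =
      if k < w.length then (M.map fun v => vec R β v k).sum else 0 := by
  simp only [vec, Vale.Agent.P319.vsum, R1_getD_idx]
  split_ifs
  · rw [h.rsum, List.map_map]
    rfl
  · exact ev_nil _ _

theorem vec_eq_zero (R : RC) (β : ℕ → Ω) {v : List El} {k : ℕ} (hk : v.length ≤ k) :
    vec R β v k = 0 := by
  rw [vec, List.getD_eq_default _ _ hk, ev_nil]

theorem isHom_base {p : ℕ} (hp : p.Prime) (hΩ : (p : Ω) = 0) {k : ℕ} (h2 : 2 < p ^ k) :
    IsHom (base p) (p ^ k) (fun _ => (1 : Ω)) := by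
  have := Fact.mk hp
  have : CharP Ω p := (CharP.charP_iff_prime_eq_zero hp).2 hΩ
  refine ⟨hp.pos, hΩ, ?_, ?_, ?_, h2⟩
  · intro i hi j hj
    have hi0 : i = 0 := by simpa [dim, base] using hi
    have hj0 : j = 0 := by simpa [dim, base] using hj
    subst hi0 hj0
    simp [ev, dim, base, sc]
  · simp [ev, dim, base]
  · intro a
    simp only [ev, dim, base, List.length_singleton, Finset.range_one, Finset.sum_singleton,
      mul_one]
    exact map_natCast (iterateFrobenius Ω p k) _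

theorem IsHom.pow (h : IsHom R q β) {m : ℕ} (hm : 0 < m) : IsHom R (q ^ m) β := by
  refine ⟨h.pos, h.char, h.mul, h.one, fun a => ?_, ?_⟩
  · clear hm
    induction m with
    | zero => simp
    | succ m ih => rw [pow_succ, pow_mul, ih, h.fix]
  · have := h.two_lt
    exact this.trans_le (Nat.le_self_pow hm.ne' q)

end hom

end Vale.Agent.P319
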