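import Mathlib
import Vale.Agent.Common.TreeDiv
import Vale.Agent.P337.TCx

/-! Ring codes: finite `ZMod p`-algebras given by structure constants, evaluated by
homomorphisms into a field `Ω`.  All operations are branch free. -/

namespace Vale.Agent.P319
open Vale.Agent.Common.TreeTM Vale.Agent.P337

/-- ring element: coordinates -/
abbrev El := List ℕ
/-- ring code: `(p, structure constants, one)` -/
abbrev RC := ℕ × List (List El) × El

def dim (R : RC) : ℕ := R.2.1.length
def rmod (R : RC) (x : ℕ) : ℕ := min (x % R.1) R.1
def sc (R : RC) (i j : ℕ) : El := (R.2.1.getD i []).getD j []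
def rzero (R : RC) : El := (idx R.2.1).map fun _ => 0
def radd (R : RC) (a b : El) : El := (idx R.2.1).map fun i => rmod R (a.getD i 0 + b.getD i 0)
def rneg (R : RC) (a : El) : El := (idx R.2.1).map fun i => rmod R ((R.1 - 1) * a.getD i 0)
def rsub (R : RC) (a b : El) : El := radd R a (rneg R b)
def rmul (R : RC) (a b : El) : El := (idx R.2.1).map fun k => rmod R
  ((idx R.2.1).map fun i => ((idx R.2.1).map fun j =>
    a.getD i 0 * b.getD j 0 * (sc R i j).getD k 0).sum).sum
def rcst (R : RC) (c : ℕ) : El := (idx R.2.1).map fun i => rmod R (c * R.2.2.getD i 0)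
def rone (R : RC) : El := rcst R 1
def rpow (R : RC) (a : El) (e : ℕ) : El :=
  e.bits.reverse.foldl (fun acc c => rmul R (rmul R acc acc) (cond c a (rone R))) (rone R)
/-- inverse (of zero is zero) -/
def rinv (R : RC) (q : ℕ) (a : El) : El := rpow R a (q - 2)
/-- indicator of being nonzero -/
def nz (R : RC) (q : ℕ) (a : El) : El := rpow R a (q - 1)
def rsum (R : RC) (l : List El) : El := l.foldl (radd R) (rzero R)
def rprod (R : RC) (l : List El) : El := l.foldl (rmul R) (rone R)
/-- indicator that some entry is nonzero -/
def nzV (R : RC) (q : ℕ) (v : List El) : El :=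
  rsub R (rone R) (rprod R (v.map fun a => rsub R (rone R) (nz R q a)))

/-- normalized shapes -/
def Nm (R : RC) (a : El) : Prop := a.length = dim R ∧ ∀ x ∈ a, x ≤ R.1
def NmV (R : RC) (w : ℕ) (v : List El) : Prop := v.length = w ∧ ∀ a ∈ v, Nm R a
def NmL (R : RC) (h w : ℕ) (M : List (List El)) : Prop := M.length = h ∧ ∀ v ∈ M, NmV R w v

variable {Ω : Type} [Field Ω]

def ev (R : RC) (b : ℕ → Ω) (a : El) : Ω := ∑ i ∈ Finset.range (dim R), (a.getD i 0 : Ω) * b i

/-- `ev R b` is a ring homomorphism with values in the field with `q` elements -/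
structure IsHom (R : RC) (q : ℕ) (b : ℕ → Ω) : Prop where
  pos : 0 < R.1
  char : (R.1 : Ω) = 0
  mul : ∀ i < dim R, ∀ j < dim R, b i * b j = ev R b (sc R i j)
  one : ev R b R.2.2 = 1
  fix : ∀ a, ev R b a ^ q = ev R b a
  two_lt : 2 < q

/-- value of a vector -/
def vec (R : RC) (b : ℕ → Ω) (v : List El) : ℕ → Ω := fun k => ev R b (v.getD k [])
/-- span of the rows of a matrix -/
def rsp (R : RC) (b : ℕ → Ω) (M : List (List El)) : Submodule Ω (ℕ → Ω) :=
  Submodule.span Ω {u | ∃ v ∈ M, u = vec R b v}
/-- polynomial with coefficient list `cs` (low degree first) -/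
noncomputable def pol (R : RC) (b : ℕ → Ω) (cs : List El) : Polynomial Ω :=
  ∑ k ∈ Finset.range cs.length, Polynomial.monomial k (ev R b (cs.getD k []))
/-- monic polynomial `X ^ md.length + pol md` -/
noncomputable def mpol (R : RC) (b : ℕ → Ω) (md : List El) : Polynomial Ω :=
  Polynomial.X ^ md.length + pol R b md

/-- vectors of the width of the list `w` -/
def vadd (R : RC) (w : List ℕ) (u v : List El) : List El :=
  (idx w).map fun k => radd R (u.getD k []) (v.getD k [])
def vsmul (R : RC) (w : List ℕ) (c : El) (v : List El) : List El :=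
  (idx w).map fun k => rmul R c (v.getD k [])
def vsum (R : RC) (w : List ℕ) (l : List (List El)) : List El :=
  (idx w).map fun k => rsum R (l.map fun v => v.getD k [])

/-! The quotient `R[T] / (T ^ D + md)`, `D = md.length`; flat index `c * D + k`. -/

def slc (R : RC) (md : List El) (a : El) : List El :=
  (idx md).map fun k => (idx R.2.1).map fun c => a.getD (c * md.length + k) 0
def flat (R : RC) (md : List El) (cs : List El) : El :=
  (idx R.2.1).flatMap fun c => (idx md).map fun k => (cs.getD k []).getD c 0
def hstep (R : RC) (md : List El) (acc : List El) (c : El) : List El :=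
  (idx md).map fun k => rsub R ((c :: acc).getD k [])
    (rmul R (acc.getD (md.length - 1) []) (md.getD k []))
/-- remainder of a polynomial modulo `md` -/
def hred (R : RC) (md : List El) (cs : List El) : List El :=
  cs.reverse.foldl (hstep R md) ((idx md).map fun _ => rzero R)
/-- the class of a polynomial -/
def atT (R : RC) (md : List El) (cs : List El) : El := flat R md (hred R md cs)
def emb (R : RC) (md : List El) (a : El) : El := atT R md [a]
def gen (R : RC) (md : List El) : El := atT R md [[], rone R]
def quot (R : RC) (md : List El) : RC :=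
  (R.1, (idx (flat R md [])).map fun i => (idx (flat R md [])).map fun j =>
    atT R md ((((md ++ md).take (i % md.length + j % md.length)).map fun _ => ([] : El)) ++
      [sc R (i / md.length) (j / md.length)]), emb R md (rone R))
/-- the homomorphism on the quotient sending `T` to `α` -/
def bq (md : List El) (b : ℕ → Ω) (α : Ω) : ℕ → Ω :=
  fun i => b (i / md.length) * α ^ (i % md.length)
/-- the prime field -/
def base (p : ℕ) : RC := (p, [[[1]]], [1])

end Vale.Agent.P319
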