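import Vale.Agent.P319.T1v

/-! T1a: the function field of `y ^ l = f(x)`. -/

namespace Vale.Agent.P319
open Polynomial

section

variable {K : Type} [Field K] (l : ℕ) (f : K[X])

/-- the defining polynomial over the rational function field -/
noncomputable def t1aQ : (RatFunc K)[X] := X ^ l - C (algebraMap K[X] (RatFunc K) f)

variable {l f}

theorem t1a_irr (hl : l.Prime) (hd : 0 < f.natDegree) (hs : f.Separable) :
    Irreducible (t1aQ l f) := by
  refine X_pow_sub_C_irreducible_of_prime hl fun b hb => ?_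
  have hi : IsIntegral K[X] (b ^ l) := by
    rw [hb]
    exact isIntegral_algebraMap
  obtain ⟨g, rfl⟩ := IsIntegrallyClosed.exists_algebraMap_eq_of_isIntegral_pow hl.pos hi
  rw [← map_pow] at hb
  have hg : g ^ l = f := IsFractionRing.injective K[X] (RatFunc K) hb
  have hu : IsUnit g := hs.squarefree g (by
    rw [← hg, ← pow_two]
    exact pow_dvd_pow g hl.two_le)
  have : f.natDegree = 0 := natDegree_eq_zero_of_isUnit (hg ▸ hu.pow l)
  omega

theorem t1a_aeval (g : K[X]) :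
    aeval (algebraMap (RatFunc K) (AdjoinRoot (t1aQ l f)) RatFunc.X) g =
      algebraMap (RatFunc K) (AdjoinRoot (t1aQ l f)) (algebraMap K[X] (RatFunc K) g) := by
  rw [aeval_algebraMap_apply, RatFunc.aeval_X_left_eq_algebraMap]

theorem t1a_yl : AdjoinRoot.root (t1aQ l f) ^ l =
    aeval (algebraMap (RatFunc K) (AdjoinRoot (t1aQ l f)) RatFunc.X) f := by
  have h := AdjoinRoot.eval₂_root (t1aQ l f)
  rw [t1aQ, eval₂_sub, eval₂_X_pow, eval₂_C, sub_eq_zero] at h
  rw [t1a_aeval]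
  exact h

theorem t1a_lift {M : Type} [Field M] (τ : K →+* M) (A B : M)
    (hA : ∀ g : K[X], g ≠ 0 → eval₂ τ A g ≠ 0) (hB : B ^ l = eval₂ τ A f) :
    ∃ G : AdjoinRoot (t1aQ l f) →+* M, (∀ c, G (algebraMap K _ c) = τ c) ∧
      G (algebraMap (RatFunc K) _ RatFunc.X) = A ∧ G (AdjoinRoot.root _) = B := by
  have hinj : Function.Injective (eval₂RingHom τ A) :=
    (injective_iff_map_eq_zero _).2 fun g hg => by_contra fun h => hA g h hg
  let φ : RatFunc K →+* M := IsFractionRing.lift hinj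
  have hφ : ∀ g : K[X], φ (algebraMap K[X] (RatFunc K) g) = eval₂ τ A g := fun g =>
    IsFractionRing.lift_algebraMap hinj g
  have h0 : eval₂ φ B (t1aQ l f) = 0 := by
    rw [t1aQ, eval₂_sub, eval₂_X_pow, eval₂_C, hφ, hB, sub_self]
  refine ⟨AdjoinRoot.lift φ B h0, fun c => ?_, ?_, AdjoinRoot.lift_root h0⟩
  · rw [IsScalarTower.algebraMap_apply K (RatFunc K) (AdjoinRoot (t1aQ l f)),
      AdjoinRoot.algebraMap_eq, AdjoinRoot.lift_of,
      IsScalarTower.algebraMap_apply K K[X] (RatFunc K), hφ, algebraMap_eq, eval₂_C]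
  · rw [AdjoinRoot.algebraMap_eq, AdjoinRoot.lift_of, ← RatFunc.algebraMap_X, hφ, eval₂_X]

theorem t1a_monic (hl : l ≠ 0) : (t1aQ l f).Monic := monic_X_pow_sub_C _ hl

theorem t1a_natDegree : (t1aQ l f).natDegree = l := natDegree_X_pow_sub_C

theorem t1a_gen (hl : l.Prime) (u : AdjoinRoot (t1aQ l f)) :
    ∃ (d : K[X]) (g : ℕ → K[X]), d ≠ 0 ∧
      aeval (algebraMap (RatFunc K) (AdjoinRoot (t1aQ l f)) RatFunc.X) d * u =
        ∑ b ∈ Finset.range l, aeval (algebraMap (RatFunc K) (AdjoinRoot (t1aQ l f)) RatFunc.X)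
          (g b) * AdjoinRoot.root (t1aQ l f) ^ b := by
  obtain ⟨P, rfl⟩ := AdjoinRoot.mk_surjective u
  have hm : (t1aQ l f).Monic := t1a_monic hl.ne_zero
  have h1 : AdjoinRoot.mk (t1aQ l f) P = AdjoinRoot.mk (t1aQ l f) (P %ₘ t1aQ l f) := by
    rw [AdjoinRoot.mk_eq_mk, modByMonic_eq_sub_mul_div, sub_sub_cancel]
    exact dvd_mul_right _ _
  have h2 : (P %ₘ t1aQ l f).natDegree < l := by
    have := natDegree_modByMonic_lt P hm (fun h => by
      have h3 := t1a_natDegree (l := l) (f := f)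
      rw [h, natDegree_one] at h3
      exact hl.ne_zero h3.symm)
    rwa [t1a_natDegree] at this
  obtain ⟨d, hd⟩ := IsLocalization.exist_integer_multiples (nonZeroDivisors K[X])
    (Finset.range l) fun b => (P %ₘ t1aQ l f).coeff b
  have hd' : ∀ b, ∃ g : K[X], b ∈ Finset.range l →
      algebraMap K[X] (RatFunc K) g = (d : K[X]) • (P %ₘ t1aQ l f).coeff b := fun b => by
    by_cases hb : b ∈ Finset.range l
    · obtain ⟨g, hg⟩ := hd b hb
      exact ⟨g, fun _ => hg⟩
    · exact ⟨0, fun h => absurd h hb⟩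
  choose g hg using hd'
  refine ⟨d, g, nonZeroDivisors.coe_ne_zero d, ?_⟩
  rw [h1, ← AdjoinRoot.aeval_eq, aeval_eq_sum_range' h2, Finset.mul_sum]
  refine Finset.sum_congr rfl fun b hb => ?_
  rw [t1a_aeval, t1a_aeval, hg b hb, Algebra.smul_def, Algebra.smul_def, map_mul, mul_assoc]

theorem t1a_indep (hl : l.Prime) (g : ℕ → K[X])
    (h : ∑ b ∈ Finset.range l, aeval (algebraMap (RatFunc K) (AdjoinRoot (t1aQ l f)) RatFunc.X)
      (g b) * AdjoinRoot.root (t1aQ l f) ^ b = 0) : ∀ b < l, g b = 0 := by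
  let P : (RatFunc K)[X] := ∑ b ∈ Finset.range l, C (algebraMap K[X] (RatFunc K) (g b)) * X ^ b
  have hc : ∀ j, P.coeff j = if j < l then algebraMap K[X] (RatFunc K) (g j) else 0 := by
    intro j
    simp only [P, finsetSum_coeff, coeff_C_mul_X_pow, Finset.sum_ite_eq, Finset.mem_range]
  have h1 : AdjoinRoot.mk (t1aQ l f) P = 0 := by
    rw [← h, map_sum]
    refine Finset.sum_congr rfl fun b _ => ?_
    rw [map_mul, map_pow, AdjoinRoot.mk_X, AdjoinRoot.mk_C, t1a_aeval, AdjoinRoot.algebraMap_eq]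
  have h2 : P = 0 := by
    refine eq_zero_of_dvd_of_degree_lt (AdjoinRoot.mk_eq_zero.1 h1) ?_
    rw [t1aQ, degree_X_pow_sub_C hl.pos]
    refine (degree_lt_iff_coeff_zero _ _).2 fun m hm => ?_
    rw [hc, if_neg (not_lt.2 hm)]
  intro b hb
  have h3 := hc b
  rw [h2, coeff_zero, if_pos hb] at h3
  exact (map_eq_zero_iff _ (IsFractionRing.injective K[X] (RatFunc K))).1 h3.symm

end

theorem FF.surj {K L : Type} [Field K] [Field L] [Algebra K L] {l n1 : ℕ} {f : K[X]} {x y : L}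
    (h : FF K l n1 f x y) (G : L →+* L) (hc : ∀ c, ∃ u, G u = algebraMap K L c)
    (hx : ∃ u, G u = x) (hy : ∃ u, G u = y) : Function.Bijective G := by
  refine ⟨G.injective, fun u => ?_⟩
  have ha : ∀ g : K[X], aeval x g ∈ G.fieldRange := fun g => by
    rw [aeval_eq_sum_range]
    refine Subfield.sum_mem _ fun i _ => ?_
    rw [Algebra.smul_def]
    exact Subfield.mul_mem _ (hc _) (Subfield.pow_mem _ hx _)
  obtain ⟨d, g, hd, he⟩ := h.gen u
  have : u = (∑ b ∈ Finset.range l, aeval x (g b) * y ^ b) / aeval x d := by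
    rw [← he, mul_div_cancel_left₀ _ (h.aeval_ne hd)]
  rw [this]
  exact Subfield.div_mem G.fieldRange
    (Subfield.sum_mem _ fun i _ => Subfield.mul_mem _ (ha _) (Subfield.pow_mem _ hy _)) (ha d)

theorem t1a_map_frob {K : Type} [Field K] [IsAlgClosed K] {p k : ℕ} [Fact p.Prime] [CharP K p]
    {f : K[X]} (hm : f.Monic) (hr : ∀ α, f.IsRoot α → α ^ p ^ k = α) :
    f.map (iterateFrobenius K p k) = f := by
  have h1 := (IsAlgClosed.splits f).eq_prod_roots_of_monic hm
  conv_lhs => rw [h1]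
  conv_rhs => rw [h1]
  rw [Polynomial.map_multiset_prod, Multiset.map_map]
  congr 1
  refine Multiset.map_congr rfl fun a ha => ?_
  have := hr a (isRoot_of_mem_roots ha)
  simp [iterateFrobenius_def, this]

theorem exists_FF (K : Type) [Field K] [IsAlgClosed K] {p k l n1 : ℕ} [Fact p.Prime] [CharP K p]
    (hl : l.Prime) (hn : 0 < n1) {f : K[X]} (hm : f.Monic) (hd : f.natDegree = l * n1)
    (hs : f.Separable) {ζ : K} (hζ : IsPrimitiveRoot ζ l)
    (hr : ∀ α, f.IsRoot α → α ^ p ^ k = α) :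
    ∃ (L : Type) (_ : Field L) (_ : Algebra K L) (x y : L) (σ : L ≃ₐ[K] L) (Φ : L ≃+* L),
      FF K l n1 f x y ∧ σ x = x ∧ σ y = algebraMap K L ζ * y ∧
      (∀ c, Φ (algebraMap K L c) = algebraMap K L (c ^ p ^ k)) ∧ Φ x = x ∧ Φ y = y := by
  have : Fact (Irreducible (t1aQ l f)) := ⟨t1a_irr hl (by rw [hd]; exact Nat.mul_pos hl.pos hn) hs⟩
  have : NeZero l := ⟨hl.ne_zero⟩
  set x : AdjoinRoot (t1aQ l f) := algebraMap (RatFunc K) _ RatFunc.X with hx
  set y : AdjoinRoot (t1aQ l f) := AdjoinRoot.root _ with hy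
  have hF : FF K l n1 f x y := by
    refine ⟨inferInstance, hl, hζ.neZero'.out, hn, hm, hd, hs, t1a_yl, t1a_gen hl, t1a_indep hl,
      fun A B hA hB => ?_⟩
    obtain ⟨G, h1, h2, h3⟩ := t1a_lift (l := l) (f := f) (algebraMap K (LaurentSeries K)) A B
      (fun g hg h0 => hA ⟨g, hg, h0⟩) hB
    exact ⟨{ G with commutes' := h1 }, h2, h3⟩
  obtain ⟨G, g1, g2, g3⟩ := t1a_lift (l := l) (f := f) (algebraMap K (AdjoinRoot (t1aQ l f))) x
    (algebraMap K _ ζ * y) (fun g hg => hF.aeval_ne hg) (by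
      rw [mul_pow, ← map_pow, hζ.pow_eq_one, map_one, one_mul]
      exact hF.yl)
  have hζ0 : ζ ≠ 0 := hζ.ne_zero hl.ne_zero
  have bG := hF.surj G (fun c => ⟨_, g1 c⟩) ⟨_, g2⟩ ⟨algebraMap K _ ζ⁻¹ * y, by
    rw [map_mul, g1, g3, ← mul_assoc, ← map_mul, inv_mul_cancel₀ hζ0, map_one, one_mul]⟩
  have hf := t1a_map_frob hm hr
  obtain ⟨H, h1, h2, h3⟩ := t1a_lift (l := l) (f := f)
    ((algebraMap K (AdjoinRoot (t1aQ l f))).comp (iterateFrobenius K p k)) x y
    (fun g hg => by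
      rw [← eval₂_map]
      exact hF.aeval_ne ((Polynomial.map_ne_zero_iff (iterateFrobenius K p k).injective).2 hg))
    (by
      rw [← eval₂_map, hf]
      exact hF.yl)
  have bH := hF.surj H (fun c => by
    obtain ⟨z, hz⟩ := IsAlgClosed.exists_pow_nat_eq c (pow_pos (Fact.out : p.Prime).pos k)
    exact ⟨algebraMap K _ z, by rw [h1, RingHom.comp_apply, iterateFrobenius_def, hz]⟩)
    ⟨_, h2⟩ ⟨_, h3⟩
  exact ⟨AdjoinRoot (t1aQ l f), inferInstance, inferInstance, x, y,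
    AlgEquiv.ofBijective { G with commutes' := g1 } bG, RingEquiv.ofBijective H bH, hF, g2, g3,
    h1, h2, h3⟩

end Vale.Agent.P319
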