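import Vale.Agent.P319.Val

/-! T1v: basic facts on `FF` and `IsVal`. -/

namespace Vale.Agent.P319
open Polynomial

variable {K L : Type} [Field K] [Field L] [Algebra K L] {l n1 : ℕ} {f : K[X]} {x y : L}

theorem FF.aeval_ne (h : FF K l n1 f x y) {g : K[X]} (hg : g ≠ 0) : aeval x g ≠ 0 := by
  intro h0
  have := h.indep (fun b => if b = 0 then g else 0) (by
    rw [Finset.sum_eq_single 0 (fun b _ hb => by simp [hb])
      (fun h' => absurd (Finset.mem_range.2 h.prime.pos) h')]
    simp [h0]) 0 h.prime.pos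
  exact hg (by simpa using this)

theorem FF.y_sub_ne (h : FF K l n1 f x y) (g : K[X]) : y - aeval x g ≠ 0 := by
  intro h0
  obtain ⟨m, hm⟩ := Nat.exists_eq_add_of_le' h.prime.two_le
  have := h.indep (fun b => if b = 0 then -g else if b = 1 then 1 else 0) (by
    rw [hm, Finset.sum_range_succ', Finset.sum_range_succ']
    simp [← sub_eq_add_neg, h0]) 1 h.prime.one_lt
  simp at this

theorem FF.x_sub_ne (h : FF K l n1 f x y) (a : K) : x - algebraMap K L a ≠ 0 := by
  simpa using h.aeval_ne (X_sub_C_ne_zero a)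

theorem FF.x_ne (h : FF K l n1 f x y) : x ≠ 0 := by simpa using h.x_sub_ne 0

theorem FF.y_ne (h : FF K l n1 f x y) : y ≠ 0 := by simpa using h.y_sub_ne 0

theorem FF.exists_cofactor (h : FF K l n1 f x y) {a : K} (ha : f.IsRoot a) :
    ∃ g : K[X], f = (X - C a) * g ∧ g.eval a ≠ 0 := by
  obtain ⟨g, hg⟩ := dvd_iff_isRoot.2 ha
  refine ⟨g, hg, ?_⟩
  have := h.separable.aeval_derivative_ne_zero (x := a) (by simpa using ha)
  rw [hg] at this
  simpa using this

namespace IsVal

variable {v : L → ℤ} (hv : IsVal K v)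
include hv

theorem one : v 1 = 0 := by simpa using hv.const 1

theorem inv (u : L) : v u⁻¹ = -v u := by
  by_cases h : u = 0
  · simp [h, hv.zero]
  · have := hv.mul u u⁻¹ h (inv_ne_zero h)
    rw [mul_inv_cancel₀ h, hv.one] at this
    omega

theorem div {u w : L} (hu : u ≠ 0) (hw : w ≠ 0) : v (u / w) = v u - v w := by
  rw [div_eq_mul_inv, hv.mul _ _ hu (inv_ne_zero hw), hv.inv, sub_eq_add_neg]

theorem pow (u : L) (n : ℕ) : v (u ^ n) = n * v u := by
  by_cases h : u = 0
  · rcases n with _ | n
    · simp [hv.one]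
    · simp [h, hv.zero]
  induction n with
  | zero => simp [hv.one]
  | succ n ih =>
    rw [pow_succ, hv.mul _ _ (pow_ne_zero _ h) h, ih]
    push_cast
    ring

theorem cmul {c : K} (hc : c ≠ 0) (u : L) : v (algebraMap K L c * u) = v u := by
  by_cases h : u = 0
  · simp [h]
  · rw [hv.mul _ _ (by simpa using hc) h, hv.const, zero_add]

theorem neg (u : L) : v (-u) = v u := by
  simpa using hv.cmul (c := -1) (by simp) u

theorem comp {M : Type} [Field M] [Algebra K M] (G : M →+* L) (τ : K → K)
    (hτ : Function.Surjective τ) (hG : ∀ c, G (algebraMap K M c) = algebraMap K L (τ c)) :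
    IsVal K fun u => v (G u) where
  zero := by simp [hv.zero]
  mul u w hu hw := by
    rw [map_mul]
    exact hv.mul _ _ (by simpa using hu) (by simpa using hw)
  add u w hu hw h := by
    rw [map_add]
    exact hv.add _ _ (by simpa using hu) (by simpa using hw) (by rw [← map_add]; exact (map_ne_zero G).2 h)
  const c := by rw [hG, hv.const]
  res u h := by
    obtain ⟨c', hc⟩ := hv.res _ h
    obtain ⟨c, rfl⟩ := hτ c'
    refine ⟨c, hc.imp (fun h1 => G.injective (by rw [hG, h1])) fun h1 => ?_⟩
    rwa [map_sub, hG]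

theorem transcendental [IsAlgClosed K] {A : L} {a : K} (h : v (A - algebraMap K L a) ≠ 0) :
    Transcendental K A := by
  intro hA
  obtain ⟨c, rfl⟩ := minpoly.mem_range_of_degree_eq_one K A
    (IsAlgClosed.degree_eq_one_of_irreducible K (minpoly.irreducible hA.isIntegral))
  rw [← map_sub, hv.const] at h
  exact h rfl

end IsVal

end Vale.Agent.P319
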