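import Vale.Agent.P319.Curve

/-! T2a: calculus of orders and values; the points. -/

namespace Vale.Agent.P319
open Polynomial
namespace Model
variable {K L Pt : Type} [Field K] [Field L] [Algebra K L] (Y : Model K L Pt)

theorem two_le : 2 ≤ Y.l := Y.prime.two_le
theorem l_ne : (Y.l : K) ≠ 0 := by
  have : NeZero Y.l := ⟨Y.prime.ne_zero⟩
  exact Y.prim.neZero'.out
theorem ζ_ne : Y.ζ ≠ 0 := Y.prim.ne_zero Y.prime.ne_zero
theorem l_le_n : Y.l ≤ Y.n := Nat.le_mul_of_pos_right _ Y.n1_pos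
theorem n1_le_n : Y.n1 ≤ Y.n := Nat.le_mul_of_pos_left _ Y.prime.pos
theorem aeval_ne {g : K[X]} (hg : g ≠ 0) : aeval Y.x g ≠ 0 := by
  intro h
  have := Y.indep (fun b => if b = 0 then g else 0) (by
    rw [Finset.sum_eq_single 0 (fun b _ hb => by simp [hb])
      (fun h => absurd (Finset.mem_range.2 Y.prime.pos) h)]
    simp [h]) 0 Y.prime.pos
  exact hg (by simpa using this)
theorem x_ne : Y.x ≠ 0 := by simpa using Y.aeval_ne X_ne_zero
theorem y_ne : Y.y ≠ 0 := fun h => Y.aeval_ne Y.monic.ne_zero (by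
  rw [← Y.yl, h, zero_pow Y.prime.ne_zero])
theorem x_sub_ne (a : K) : Y.x - algebraMap K L a ≠ 0 := by simpa using Y.aeval_ne (X_sub_C_ne_zero a)
theorem y_sub_ne (g : K[X]) : Y.y - aeval Y.x g ≠ 0 := by
  intro h
  obtain ⟨m, hm⟩ := Nat.exists_eq_add_of_le' Y.two_le
  have := Y.indep (fun b => if b = 0 then -g else if b = 1 then 1 else 0) (by
    rw [hm, Finset.sum_range_succ', Finset.sum_range_succ']
    simp [← sub_eq_add_neg, h]) 1 Y.two_le
  simp at this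
theorem σ_aeval (g : K[X]) : Y.σ (aeval Y.x g) = aeval Y.x g := by rw [← Polynomial.aeval_algHom_apply, Y.σ_x]
theorem σ_pow_y (j : ℕ) : (Y.σ ^ j) Y.y = algebraMap K L (Y.ζ ^ j) * Y.y := by
  induction j with
  | zero => simp
  | succ j ih =>
    rw [pow_succ, AlgEquiv.mul_apply, Y.σ_y, map_mul, ih, AlgEquiv.commutes, pow_succ', map_mul,
      mul_assoc]
theorem t2a_σ_pow_x (j : ℕ) : (Y.σ ^ j) Y.x = Y.x := by
  induction j with
  | zero => simp
  | succ j ih => rw [pow_succ, AlgEquiv.mul_apply, Y.σ_x, ih]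
theorem t2a_ext (F G : L →+* L) (hc : ∀ c, F (algebraMap K L c) = G (algebraMap K L c))
    (hx : F Y.x = G Y.x) (hy : F Y.y = G Y.y) (u : L) : F u = G u := by
  have ha : ∀ g : K[X], F (aeval Y.x g) = G (aeval Y.x g) := fun g => by
    induction g using Polynomial.induction_on' with
    | add p q hp hq => simp only [map_add, hp, hq]
    | monomial n a => simp only [aeval_monomial, map_mul, map_pow, hc, hx]
  obtain ⟨d, g, hd, h⟩ := Y.gen u
  have h1 := congrArg F h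
  have h2 := congrArg G h
  simp only [map_mul, map_sum, map_pow, ha, hy] at h1 h2
  exact mul_left_cancel₀ ((map_ne_zero G).2 (Y.aeval_ne hd)) (h1.trans h2.symm)
theorem t2a_px_s_pow (Q : Pt) (j : ℕ) : Y.px ((Y.s ^ j) Q) = Y.px Q := by
  induction j with
  | zero => simp
  | succ j ih => rw [pow_succ', Equiv.Perm.mul_apply, Y.px_s, ih]
theorem t2a_py_s_pow (Q : Pt) (j : ℕ) : Y.py ((Y.s ^ j) Q) = Y.ζ⁻¹ ^ j * Y.py Q := by
  induction j with
  | zero => simp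
  | succ j ih => rw [pow_succ', Equiv.Perm.mul_apply, Y.py_s, ih, pow_succ', mul_assoc]
theorem σ_pow_l : Y.σ ^ Y.l = 1 := by
  ext u
  exact Y.t2a_ext ((Y.σ ^ Y.l : L ≃ₐ[K] L) : L →+* L) (RingHom.id L) (fun c => by simp)
    (by simpa using Y.t2a_σ_pow_x Y.l) (by simpa [Y.prim.pow_eq_one] using Y.σ_pow_y Y.l) u
theorem σ_Φ (u : L) : Y.σ (Y.Φ u) = Y.Φ (Y.σ u) := Y.t2a_ext ((Y.σ : L →+* L).comp Y.Φ) ((Y.Φ : L →+* L).comp Y.σ)
  (fun c => by
    change Y.σ (Y.Φ _) = Y.Φ (Y.σ _)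
    rw [Y.Φ_c, AlgEquiv.commutes, AlgEquiv.commutes, Y.Φ_c])
  (by
    change Y.σ (Y.Φ _) = Y.Φ (Y.σ _)
    rw [Y.Φ_x, Y.σ_x, Y.Φ_x])
  (by
    change Y.σ (Y.Φ _) = Y.Φ (Y.σ _)
    rw [Y.Φ_y, Y.σ_y, map_mul, Y.Φ_c, Y.Φ_y, Y.ζ_fix]) u
theorem s_pow_l : Y.s ^ Y.l = 1 := Equiv.ext fun Q => Y.pt_inj _ _ (Y.t2a_px_s_pow Q _) (by
  rw [Y.t2a_py_s_pow, inv_pow, Y.prim.pow_eq_one]
  simp)
theorem s_φ (Q : Pt) : Y.s (Y.φ Q) = Y.φ (Y.s Q) := Y.pt_inj _ _ (by rw [Y.px_s, Y.px_φ, Y.px_φ, Y.px_s])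
  (by rw [Y.py_s, Y.py_φ, Y.py_φ, Y.py_s, mul_pow, inv_pow, Y.ζ_fix])
/-- an element fixed by `σ` is a rational function of `x` -/
theorem fixed {u : L} (h : Y.σ u = u) :
    ∃ d g : K[X], d ≠ 0 ∧ aeval Y.x d * u = aeval Y.x g := by
  obtain ⟨d, g, hd, e⟩ := Y.gen u
  refine ⟨d, g 0, hd, ?_⟩
  have e2 := congrArg Y.σ e
  simp only [map_mul, map_sum, map_pow, Y.σ_aeval, h, Y.σ_y] at e2
  have e3 := Y.indep (fun b => C (Y.ζ ^ b - 1) * g b) (by
    have := sub_eq_zero.2 (e2.symm.trans e)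
    rw [← Finset.sum_sub_distrib] at this
    refine Eq.trans (Finset.sum_congr rfl fun b _ => ?_) this
    simp only [map_mul, aeval_C, map_sub, map_pow, map_one]
    ring)
  rw [e, Finset.sum_eq_single 0 (fun b hb hb0 => ?_)
      (fun h => absurd (Finset.mem_range.2 Y.prime.pos) h)]
  · simp
  · have hb := Finset.mem_range.1 hb
    have h1 := Y.prim.pow_ne_one_of_pos_of_lt hb0 hb
    have h2 := (mul_eq_zero.1 (e3 b hb)).resolve_left (C_ne_zero.2 (sub_ne_zero.2 h1))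
    simp [h2]

variable {Y} {Q : Pt} {k k' : ℤ} {u v : L} {c c' : K}

theorem ord_one : Y.ord Q 1 = 0 := by simpa using Y.ord_c Q 1
theorem ord_neg : Y.ord Q (-u) = Y.ord Q u := by
  by_cases h : u = 0
  · simp [h]
  · have := Y.ord_mul Q (algebraMap K L (-1)) u (by simp) h
    rw [Y.ord_c] at this
    simpa using this
theorem ord_inv : Y.ord Q u⁻¹ = -Y.ord Q u := by
  by_cases h : u = 0
  · simp [h, Y.ord_zero]
  · have := Y.ord_mul Q u u⁻¹ h (inv_ne_zero h)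
    rw [mul_inv_cancel₀ h, ord_one] at this
    omega
theorem ord_div (hu : u ≠ 0) (hv : v ≠ 0) : Y.ord Q (u / v) = Y.ord Q u - Y.ord Q v := by
  rw [div_eq_mul_inv, Y.ord_mul Q _ _ hu (inv_ne_zero hv), ord_inv, sub_eq_add_neg]
theorem ord_pow (j : ℕ) : Y.ord Q (u ^ j) = j * Y.ord Q u := by
  by_cases h : u = 0
  · rcases j with _ | j
    · simp [ord_one]
    · simp [h, Y.ord_zero]
  · induction j with
    | zero => simp [ord_one]
    | succ j ih =>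
      rw [pow_succ, Y.ord_mul Q _ _ (pow_ne_zero _ h) h, ih]
      push_cast
      ring
theorem ord_zpow (j : ℤ) : Y.ord Q (u ^ j) = j * Y.ord Q u := by
  rcases j with j | j
  · simp [ord_pow]
  · rw [zpow_negSucc, ord_inv, ord_pow, Int.negSucc_eq]
    push_cast
    ring
theorem ord_smul (hc : c ≠ 0) : Y.ord Q (c • u) = Y.ord Q u := by
  by_cases h : u = 0
  · simp [h]
  · rw [Algebra.smul_def, Y.ord_mul Q _ _ (by simpa using hc) h, Y.ord_c, zero_add]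
theorem ord_prod {ι : Type} (S : Finset ι) (g : ι → L) (h : ∀ i ∈ S, g i ≠ 0) :
    Y.ord Q (∏ i ∈ S, g i) = ∑ i ∈ S, Y.ord Q (g i) := by
  classical
  induction S using Finset.induction_on with
  | empty => simp [ord_one]
  | insert i S hi ih =>
    have h2 : ∀ j ∈ S, g j ≠ 0 := fun j hj => h j (Finset.mem_insert_of_mem hj)
    rw [Finset.prod_insert hi, Finset.sum_insert hi, Y.ord_mul Q _ _
      (h i (Finset.mem_insert_self ..)) (Finset.prod_ne_zero_iff.2 h2), ih h2]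
theorem ord_add_eq (hu : u ≠ 0) (hv : Y.Ge Q (Y.ord Q u + 1) v) :
    u + v ≠ 0 ∧ Y.ord Q (u + v) = Y.ord Q u := by
  by_cases h : v = 0
  · simp [h, hu]
  have h1 := hv.resolve_left h
  have h2 : u + v ≠ 0 := fun e => by
    rw [eq_neg_of_add_eq_zero_right e, ord_neg] at h1
    omega
  have h3 := Y.ord_add Q u v hu h h2
  have h4 := Y.ord_add Q (u + v) (-v) h2 (neg_ne_zero.2 h) (by simpa using hu)
  rw [add_neg_cancel_right, ord_neg] at h4
  exact ⟨h2, by omega⟩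
theorem ord_σ_pow (j : ℕ) : Y.ord ((Y.s ^ j) Q) ((Y.σ ^ j) u) = Y.ord Q u := by
  induction j with
  | zero => simp
  | succ j ih => rw [pow_succ', pow_succ', Equiv.Perm.mul_apply, AlgEquiv.mul_apply, Y.ord_σ, ih]
theorem ge_zero : Y.Ge Q k 0 := Or.inl rfl
theorem ge_ord : Y.Ge Q (Y.ord Q u) u := Or.inr le_rfl
theorem ge_c : Y.Ge Q 0 (algebraMap K L c) := Or.inr (Y.ord_c Q c).ge
theorem Ge.mono (h : Y.Ge Q k u) (hk : k' ≤ k) : Y.Ge Q k' u := h.imp_right hk.trans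
theorem Ge.neg (h : Y.Ge Q k u) : Y.Ge Q k (-u) := h.imp (fun h => neg_eq_zero.2 h) fun h => by rwa [ord_neg]
theorem Ge.sub (hu : Y.Ge Q k u) (hv : Y.Ge Q k v) : Y.Ge Q k (u - v) := by
  rw [sub_eq_add_neg]
  exact hu.add hv.neg
theorem Ge.mul (hu : Y.Ge Q k u) (hv : Y.Ge Q k' v) : Y.Ge Q (k + k') (u * v) := by
  by_cases h0 : u = 0
  · exact Or.inl (by simp [h0])
  by_cases h1 : v = 0
  · exact Or.inl (by simp [h1])
  refine Or.inr ?_
  rw [Y.ord_mul Q u v h0 h1]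
  exact add_le_add (hu.resolve_left h0) (hv.resolve_left h1)
theorem Ge.pow (hu : Y.Ge Q k u) (j : ℕ) : Y.Ge Q (j * k) (u ^ j) := by
  induction j with
  | zero => exact Or.inr (by simp [ord_one])
  | succ j ih =>
    rw [pow_succ]
    exact (ih.mul hu).mono (le_of_eq (by push_cast; ring))
theorem Ge.sum {ι : Type} {S : Finset ι} {g : ι → L} (h : ∀ i ∈ S, Y.Ge Q k (g i)) :
    Y.Ge Q k (∑ i ∈ S, g i) := Finset.sum_induction g (Y.Ge Q k) (fun _ _ => Ge.add) ge_zero h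
theorem ge_σ_pow (j : ℕ) : Y.Ge ((Y.s ^ j) Q) k ((Y.σ ^ j) u) ↔ Y.Ge Q k u := by
  unfold Ge
  rw [ord_σ_pow, map_eq_zero]
theorem Val.unique (h : Y.Val Q u c) (h' : Y.Val Q u c') : c = c' := by
  have h1 := Ge.sub h' h
  rw [sub_sub_sub_cancel_left, ← map_sub] at h1
  rcases h1 with h1 | h1
  · exact sub_eq_zero.1 ((map_eq_zero _).1 h1)
  · rw [Y.ord_c] at h1
    omega
theorem Ge.exists_val (h : Y.Ge Q 0 u) : ∃ c, Y.Val Q u c := by
  by_cases h0 : u = 0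
  · exact ⟨0, Or.inl (by simp [h0])⟩
  rcases (h.resolve_left h0).eq_or_lt with h1 | h1
  · obtain ⟨c, hc⟩ := Y.res Q u h1.symm
    exact ⟨c, hc.imp_left sub_eq_zero.2⟩
  · exact ⟨0, Or.inr (by rw [map_zero, sub_zero]; exact h1)⟩
theorem val_c : Y.Val Q (algebraMap K L c) c := Or.inl (sub_self _)
theorem val_zero_iff : Y.Val Q u 0 ↔ Y.Ge Q 1 u := by simp [Val]
theorem Val.ge (h : Y.Val Q u c) : Y.Ge Q 0 u := by
  have := (Ge.mono h zero_le_one).add (ge_c (c := c))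
  rwa [sub_add_cancel] at this
theorem Val.ord_eq (h : Y.Val Q u c) (hc : c ≠ 0) : u ≠ 0 ∧ Y.ord Q u = 0 := by
  have := ord_add_eq (Y := Y) (Q := Q) (u := algebraMap K L c) (v := u - algebraMap K L c)
    (by simpa using hc) (by rw [Y.ord_c]; exact h)
  rwa [add_sub_cancel, Y.ord_c] at this
theorem Val.ne_zero (h : Y.Val Q u c) (hu : u ≠ 0) (h0 : Y.ord Q u = 0) : c ≠ 0 := by
  rintro rfl
  have := (val_zero_iff.1 h).resolve_left hu
  omega
theorem Val.add (h : Y.Val Q u c) (h' : Y.Val Q v c') : Y.Val Q (u + v) (c + c') := by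
  have := Ge.add h h'
  unfold Val
  rwa [map_add, add_sub_add_comm]
theorem Val.sub (h : Y.Val Q u c) (h' : Y.Val Q v c') : Y.Val Q (u - v) (c - c') := by
  have := Ge.sub h h'
  unfold Val
  rwa [map_sub, sub_sub_sub_comm]
theorem Val.mul (h : Y.Val Q u c) (h' : Y.Val Q v c') : Y.Val Q (u * v) (c * c') := by
  have := (Ge.mul h.ge h').add (Ge.mul (ge_c (c := c')) h)
  rw [zero_add] at this
  unfold Val
  convert this using 1
  rw [map_mul]
  ring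
theorem Val.smul (h : Y.Val Q u c) (a : K) : Y.Val Q (a • u) (a * c) := by
  rw [Algebra.smul_def]
  exact val_c.mul h
theorem Val.pow (h : Y.Val Q u c) (j : ℕ) : Y.Val Q (u ^ j) (c ^ j) := by
  induction j with
  | zero => simpa using val_c (Y := Y) (Q := Q) (c := 1)
  | succ j ih =>
    rw [pow_succ, pow_succ]
    exact ih.mul h
theorem Val.inv (h : Y.Val Q u c) (hc : c ≠ 0) : Y.Val Q u⁻¹ c⁻¹ := by
  obtain ⟨h1, h2⟩ := h.ord_eq hc
  have h3 : Y.Ge Q 0 u⁻¹ := Or.inr (by rw [ord_inv, h2, neg_zero])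
  have := ((h3.mul (ge_c (c := c⁻¹))).mul h).neg
  rw [zero_add, zero_add] at this
  unfold Val
  convert this using 1
  have h4 : algebraMap K L c ≠ 0 := by simpa using hc
  rw [map_inv₀]
  field_simp
  ring
theorem Val.sum {ι : Type} {S : Finset ι} {g : ι → L} {a : ι → K}
    (h : ∀ i ∈ S, Y.Val Q (g i) (a i)) : Y.Val Q (∑ i ∈ S, g i) (∑ i ∈ S, a i) := by
  have := Ge.sum h
  unfold Val
  rwa [map_sum, ← Finset.sum_sub_distrib]
theorem Val.prod {ι : Type} {S : Finset ι} {g : ι → L} {a : ι → K}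
    (h : ∀ i ∈ S, Y.Val Q (g i) (a i)) : Y.Val Q (∏ i ∈ S, g i) (∏ i ∈ S, a i) := by
  classical
  induction S using Finset.induction_on with
  | empty => simpa using val_c (Y := Y) (Q := Q) (c := 1)
  | insert i S hi ih =>
    rw [Finset.prod_insert hi, Finset.prod_insert hi]
    exact (h i (Finset.mem_insert_self ..)).mul (ih fun j hj => h j (Finset.mem_insert_of_mem hj))
theorem val_σ_pow (j : ℕ) : Y.Val ((Y.s ^ j) Q) ((Y.σ ^ j) u) c ↔ Y.Val Q u c := by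
  unfold Val
  rw [← ge_σ_pow (Q := Q) (u := u - _) j, map_sub, AlgEquiv.commutes]
theorem Val.Φ (h : Y.Val Q u c) : Y.Val (Y.φ Q) (Y.Φ u) (c ^ Y.q0) := by
  unfold Val
  rw [← Y.Φ_c, ← map_sub]
  exact h.imp (fun h => by rw [h, map_zero]) fun h => by rwa [Y.ord_Φ]
theorem val_x {a : K} (h : Y.px Q = some a) : Y.Val Q Y.x a := by
  refine Or.inr ?_
  by_cases h0 : Y.py Q = 0
  · rw [Y.ord_xP Q a h h0]
    exact_mod_cast Y.prime.pos
  · rw [Y.ord_x Q a h h0]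
theorem val_y {a : K} (h : Y.px Q = some a) : Y.Val Q Y.y (Y.py Q) := Or.inr (Y.ord_y Q a h)
theorem val_aeval {a : K} (h : Y.px Q = some a) (g : K[X]) :
    Y.Val Q (aeval Y.x g) (g.eval a) := by
  induction g using Polynomial.induction_on' with
  | add p q hp hq =>
    rw [map_add, eval_add]
    exact hp.add hq
  | monomial n b =>
    rw [aeval_monomial, eval_monomial]
    exact val_c.mul ((val_x h).pow n)
theorem ord_aeval_inf (h : Y.px Q = none) {g : K[X]} (hg : g ≠ 0) :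
    Y.ord Q (aeval Y.x g) = -g.natDegree := by
  have h1 : ∀ i : ℕ, Y.ord Q (Y.x ^ i) = -i := fun i => by
    rw [ord_pow, Y.ord_x_inf Q h, mul_neg_one]
  have h2 : g.coeff g.natDegree ≠ 0 := leadingCoeff_ne_zero.2 hg
  have h3 : Y.ord Q (g.coeff g.natDegree • Y.x ^ g.natDegree) = -g.natDegree := by
    rw [ord_smul h2, h1]
  rw [aeval_eq_sum_range, Finset.sum_range_succ, add_comm, ← h3]
  refine (ord_add_eq (smul_ne_zero h2 (pow_ne_zero _ Y.x_ne)) (Ge.sum fun i hi => Ge.smul _ ?_)).2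
  have := Finset.mem_range.1 hi
  exact Or.inr (by rw [h3, h1]; omega)
theorem t2a_py_ne (h : Y.px Q = none) : Y.py Q ≠ 0 := fun h0 => by
  have := Y.pt_eq Q
  rw [h, h0, zero_pow Y.prime.ne_zero] at this
  exact zero_ne_one this
theorem ord_y_of_inf (h : Y.px Q = none) : Y.ord Q Y.y = -Y.n1 := by
  have h1 : Y.Val Q (Y.y / Y.x ^ Y.n1) (Y.py Q) := Or.inr (Y.ord_y_inf Q h)
  have h2 := (h1.ord_eq (t2a_py_ne h)).2
  rw [ord_div Y.y_ne (pow_ne_zero _ Y.x_ne), ord_pow, Y.ord_x_inf Q h] at h2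
  omega
theorem py_ne_of_inf (h : Y.px Q = none) : Y.py Q ≠ 0 := t2a_py_ne h
theorem px_inf : Y.px Y.inf = none := (Y.pt_ex none 1 (by simp)).choose_spec.1
theorem py_inf : Y.py Y.inf = 1 := (Y.pt_ex none 1 (by simp)).choose_spec.2
theorem φ_inf : Y.φ Y.inf = Y.inf := Y.pt_inj _ _ (by rw [Y.px_φ, px_inf]; rfl) (by rw [Y.py_φ, py_inf, one_pow])
theorem t2a_P {α : K} (h : Y.f.IsRoot α) : Y.px (Y.P α) = some α ∧ Y.py (Y.P α) = 0 := by
  have h1 : ∃ Q, Y.px Q = some α ∧ Y.py Q = 0 :=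
    Y.pt_ex (some α) 0 (by rw [zero_pow Y.prime.ne_zero]; exact h.eq_zero.symm)
  rw [P, dif_pos h1]
  exact h1.choose_spec
theorem px_P {α : K} (h : Y.f.IsRoot α) : Y.px (Y.P α) = some α := (t2a_P h).1
theorem py_P {α : K} (h : Y.f.IsRoot α) : Y.py (Y.P α) = 0 := (t2a_P h).2
theorem eq_P (h : Y.py Q = 0) : ∃ α, Y.f.IsRoot α ∧ Q = Y.P α := by
  rcases e : Y.px Q with _ | a
  · exact absurd h (py_ne_of_inf e)
  · have := Y.pt_eq Q
    rw [e, h, zero_pow Y.prime.ne_zero] at this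
    have ha : Y.f.IsRoot a := this.symm
    exact ⟨a, ha, Y.pt_inj _ _ (e.trans (px_P ha).symm) (h.trans (py_P ha).symm)⟩
theorem s_ram (h : Y.py Q = 0) : Y.s Q = Q := Y.pt_inj _ _ (Y.px_s Q) (by rw [Y.py_s, h, mul_zero])
theorem φ_ram (h : Y.py Q = 0) : Y.φ Q = Q := by
  obtain ⟨a, ha, rfl⟩ := eq_P h
  refine Y.pt_inj _ _ ?_ (by rw [Y.py_φ, h, zero_pow Y.q0_pos.ne'])
  rw [Y.px_φ, px_P ha, Option.map_some, Y.root_fix a ha]
theorem ord_y_ram (h : Y.py Q = 0) : Y.ord Q Y.y = 1 := by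
  obtain ⟨a, ha, rfl⟩ := eq_P h
  obtain ⟨g, hg⟩ := dvd_iff_isRoot.2 ha
  have h1 : g.eval a ≠ 0 := by
    have := Y.separable.aeval_derivative_ne_zero (x := a) (by simpa using ha)
    rw [hg] at this
    simpa using this
  obtain ⟨h2, h3⟩ := (val_aeval (px_P ha) g).ord_eq h1
  have h4 := congrArg (Y.ord (Y.P a)) Y.yl
  rw [ord_pow, hg, map_mul, map_sub, aeval_X, aeval_C, Y.ord_mul _ _ _ (Y.x_sub_ne a) h2, h3,
    Y.ord_xP _ a (px_P ha) h, add_zero] at h4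
  exact (mul_eq_left₀ (by exact_mod_cast Y.prime.ne_zero)).1 h4
theorem px_s_pow (j : ℕ) : Y.px ((Y.s ^ j) Q) = Y.px Q := Y.t2a_px_s_pow Q j
theorem py_s_pow (j : ℕ) : Y.py ((Y.s ^ j) Q) = Y.ζ⁻¹ ^ j * Y.py Q := Y.t2a_py_s_pow Q j
theorem fibre {Q' : Pt} (h : Y.px Q = Y.px Q') : ∃ j < Y.l, Q' = (Y.s ^ j) Q := by
  have h1 : Y.py Q ^ Y.l = Y.py Q' ^ Y.l := by rw [Y.pt_eq, Y.pt_eq, h]
  by_cases h0 : Y.py Q' = 0
  · refine ⟨0, Y.prime.pos, Y.pt_inj _ _ h.symm ?_⟩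
    rw [h0, zero_pow Y.prime.ne_zero] at h1
    exact h0.trans (eq_zero_of_pow_eq_zero h1).symm
  · have : NeZero Y.l := ⟨Y.prime.ne_zero⟩
    obtain ⟨j, hj, e⟩ := Y.prim.eq_pow_of_pow_eq_one (ξ := Y.py Q / Y.py Q')
      (by rw [div_pow, h1, div_self (pow_ne_zero _ h0)])
    refine ⟨j, hj, Y.pt_inj _ _ (by rw [px_s_pow, h]) ?_⟩
    have h2 := pow_ne_zero j Y.ζ_ne
    rw [py_s_pow, inv_pow, (div_eq_iff h0).1 e.symm, inv_mul_cancel_left₀ h2]
theorem free (h : Y.py Q ≠ 0) {i j : ℕ} (hi : i < Y.l) (hj : j < Y.l)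
    (hij : (Y.s ^ i) Q = (Y.s ^ j) Q) : i = j := by
  have h1 := congrArg Y.py hij
  rw [py_s_pow, py_s_pow] at h1
  exact Y.prim.inv.pow_inj hi hj (mul_right_cancel₀ h h1)
theorem exists_pt (a : K) : ∃ Q, Y.px Q = some a := by
  have := Y.closed
  obtain ⟨c, hc⟩ := IsAlgClosed.exists_pow_nat_eq (Y.f.eval a) Y.prime.pos
  obtain ⟨Q, h, -⟩ := Y.pt_ex (some a) c hc
  exact ⟨Q, h⟩
/-- with `j = ord Q u`, the unit `u / y ^ j` and its conjugate have the same value -/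
theorem val_σ_div (h : Y.py Q = 0) (hu : u ≠ 0) :
    Y.Val Q (Y.σ u / u) (Y.ζ ^ Y.ord Q u) := by
  have h0 := zpow_ne_zero (Y.ord Q u) Y.y_ne
  have h1 : Y.ord Q (u / Y.y ^ Y.ord Q u) = 0 := by
    rw [ord_div hu h0, ord_zpow, ord_y_ram h, mul_one, sub_self]
  obtain ⟨c, hc⟩ := Ge.exists_val (Or.inr h1.ge)
  have h2 := hc.ne_zero (div_ne_zero hu h0) h1
  have h3 := (val_σ_pow 1).2 hc
  rw [pow_one, pow_one, s_ram h] at h3
  have h4 := ((val_c (c := Y.ζ ^ Y.ord Q u)).mul h3).mul (hc.inv h2)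
  rw [mul_inv_cancel_right₀ h2] at h4
  convert h4 using 1
  have h5 : algebraMap K L Y.ζ ^ Y.ord Q u ≠ 0 := zpow_ne_zero _ (by simpa using Y.ζ_ne)
  rw [map_div₀, map_zpow₀, map_zpow₀, Y.σ_y, mul_zpow]
  field_simp
theorem dvd_ord_of_fixed (h : Y.py Q = 0) (hu : Y.σ u = u) : (Y.l : ℤ) ∣ Y.ord Q u := by
  by_cases h0 : u = 0
  · rw [h0, Y.ord_zero]
    exact dvd_zero _
  · have h1 := val_σ_div h h0
    rw [hu, div_self h0, ← map_one (algebraMap K L)] at h1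
    exact (Y.prim.zpow_eq_one_iff_dvd _).1 (h1.unique val_c)

end Model
end Vale.Agent.P319
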