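import Vale.Agent.P319.T2a

/-! T2b: formal properties of divisors.  Finite support of `Q ↦ ord Q u`: true for `x - a`, hence
for nonzero polynomials in `x` (`K` is algebraically closed); for `u = ∑ g_b(x) y ^ b` all
conjugates have order `≥ 0` at finite points and their product is fixed by `σ`, so is a rational
function of `x` (`fixed`); general `u` by `gen`. -/

namespace Vale.Agent.P319
open Polynomial Finsupp
namespace Model
variable {K L Pt : Type} [Field K] [Field L] [Algebra K L] {Y : Model K L Pt}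
  {Q : Pt} {u v : L} {D D' : Pt →₀ ℤ}

theorem finite_fibre (o : Option K) : {Q | Y.px Q = o}.Finite := by
  rcases Set.eq_empty_or_nonempty {Q | Y.px Q = o} with h | ⟨Q₀, h⟩
  · rw [h]
    exact Set.finite_empty
  · refine ((Set.finite_Iio Y.l).image fun j => (Y.s ^ j) Q₀).subset fun Q hQ => ?_
    obtain ⟨j, hj, e⟩ := fibre (Y := Y) (Q := Q₀) (Q' := Q) (h.trans hQ.symm)
    exact ⟨j, hj, e.symm⟩
theorem t2b_mkD {g : Pt → ℤ} (h : (Function.support g).Finite) (Q : Pt) : mkD g Q = g Q := by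
  rw [mkD, dif_pos h]
  rfl
theorem t2b_fin_mul (hu : (Function.support fun Q => Y.ord Q u).Finite)
    (hv : (Function.support fun Q => Y.ord Q v).Finite) (h0 : u ≠ 0) (h1 : v ≠ 0) :
    (Function.support fun Q => Y.ord Q (u / v)).Finite := by
  refine (hu.union hv).subset fun Q hQ => ?_
  by_contra h
  simp only [Set.mem_union, Function.mem_support, not_or, not_not] at h
  exact hQ ((ord_div h0 h1).trans (by rw [h.1, h.2, sub_zero]))
theorem t2b_fin_aeval {g : K[X]} (hg : g ≠ 0) :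
    (Function.support fun Q => Y.ord Q (aeval Y.x g)).Finite := by
  refine ((finite_fibre (Y := Y) none).union ((finite_setOf_isRoot hg).biUnion
    fun a _ => finite_fibre (Y := Y) (some a))).subset fun Q hQ => ?_
  rcases e : Y.px Q with _ | a
  · exact Or.inl e
  · refine Or.inr (Set.mem_biUnion (x := a) ?_ e)
    by_contra h
    exact hQ ((val_aeval e g).ord_eq h).2
theorem t2b_nj_ne (hu : u ≠ 0) (j : ℕ) : Y.nj u j ≠ 0 :=
  Finset.prod_ne_zero_iff.2 fun _ _ => (_root_.map_ne_zero _).2 hu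
theorem t2b_σ_nj_l (u : L) : Y.σ (Y.nj u Y.l) = Y.nj u Y.l := by
  have h := Y.σ_pow_l
  obtain ⟨m, hm⟩ := Nat.exists_eq_succ_of_ne_zero Y.prime.ne_zero
  rw [nj, map_prod]
  simp only [← AlgEquiv.mul_apply, ← pow_succ']
  rw [hm] at h ⊢
  rw [Finset.prod_range_succ, Finset.prod_range_succ', h, pow_zero]
theorem t2b_fin (u : L) : (Function.support fun Q => Y.ord Q u).Finite := by
  by_cases hu : u = 0
  · simp [hu, Y.ord_zero]
  obtain ⟨d, g, hd, e⟩ := Y.gen u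
  have h1 : ∀ Q, Y.px Q ≠ none → Y.Ge Q 0 (aeval Y.x d * u) := fun Q hQ => by
    obtain ⟨a, ha⟩ := Option.ne_none_iff_exists'.1 hQ
    rw [e]
    exact Ge.sum fun b _ => ((val_aeval ha _).mul ((val_y ha).pow b)).ge
  have h2 := mul_ne_zero (Y.aeval_ne hd) hu
  have h3 : u = aeval Y.x d * u / aeval Y.x d := by rw [mul_div_cancel_left₀ _ (Y.aeval_ne hd)]
  rw [h3]
  refine t2b_fin_mul ?_ (t2b_fin_aeval hd) h2 (Y.aeval_ne hd)
  generalize aeval Y.x d * u = w at h1 h2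
  obtain ⟨d', g', hd', e'⟩ := Y.fixed (t2b_σ_nj_l w)
  have h4 := t2b_nj_ne (Y := Y) h2 Y.l
  have h5 : g' ≠ 0 := by
    rintro rfl
    exact mul_ne_zero (Y.aeval_ne hd') h4 (e'.trans (map_zero _))
  have h6 := t2b_fin_mul (Y := Y) (t2b_fin_aeval h5) (t2b_fin_aeval hd') (Y.aeval_ne h5)
    (Y.aeval_ne hd')
  rw [← e', mul_div_cancel_left₀ _ (Y.aeval_ne hd')] at h6
  refine ((finite_fibre (Y := Y) none).union h6).subset fun Q hQ => ?_
  by_cases hp : Y.px Q = none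
  · exact Or.inl hp
  refine Or.inr fun h => hQ ?_
  have h7 : ∀ i ∈ Finset.range Y.l, 0 ≤ Y.ord Q ((Y.σ ^ i) w) := fun i _ => by
    obtain ⟨Q', rfl⟩ := (Y.s ^ i).surjective Q
    rw [ord_σ_pow]
    rw [px_s_pow] at hp
    exact (h1 Q' hp).resolve_left h2
  have h8 : Y.ord Q (Y.nj w Y.l) = 0 := h
  rw [nj, ord_prod _ _ fun _ _ => (_root_.map_ne_zero _).2 h2, Finset.sum_eq_zero_iff_of_nonneg h7] at h8
  simpa using h8 0 (Finset.mem_range.2 Y.prime.pos)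
theorem dv_apply (u : L) (Q : Pt) : Y.dv u Q = Y.ord Q u := t2b_mkD (t2b_fin u) Q
open Classical in
theorem t2b_H (Q : Pt) : Y.H Q = if Y.px Q = none then 1 else 0 :=
  t2b_mkD ((finite_fibre (Y := Y) none).subset fun Q hQ => by
    by_contra h
    exact hQ (if_neg h)) Q
open Classical in
theorem t2b_Ram (Q : Pt) : Y.Ram Q = if Y.py Q = 0 then 1 else 0 :=
  t2b_mkD (((finite_setOf_isRoot Y.monic.ne_zero).image Y.P).subset fun Q hQ => by
    have h : Y.py Q = 0 := by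
      by_contra h
      exact hQ (if_neg h)
    obtain ⟨a, ha, e⟩ := eq_P h
    exact ⟨a, ha, e.symm⟩) Q
theorem H_inf (h : Y.px Q = none) : Y.H Q = 1 := by rw [t2b_H, if_pos h]
theorem H_fin (h : Y.px Q ≠ none) : Y.H Q = 0 := by rw [t2b_H, if_neg h]
theorem H_ram (h : Y.py Q = 0) : Y.H Q = 0 := H_fin fun e => py_ne_of_inf e h
theorem H_nonneg : 0 ≤ Y.H := fun Q => by
  rw [t2b_H]
  split_ifs <;> simp
theorem Ram_ram (h : Y.py Q = 0) : Y.Ram Q = 1 := by rw [t2b_Ram, if_pos h]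
theorem Ram_unram (h : Y.py Q ≠ 0) : Y.Ram Q = 0 := by rw [t2b_Ram, if_neg h]
theorem sE_pow_apply (j : ℕ) (D : Pt →₀ ℤ) (Q : Pt) : (Y.sE ^ j) D ((Y.s ^ j) Q) = D Q := by
  induction j with
  | zero => simp
  | succ j ih =>
    rw [pow_succ', pow_succ', Module.End.mul_apply, Equiv.Perm.mul_apply, ← ih]
    exact mapDomain_apply Y.s.injective _ _
theorem φE_pow_apply (j : ℕ) (D : Pt →₀ ℤ) (Q : Pt) : (Y.φE ^ j) D ((Y.φ ^ j) Q) = D Q := by
  induction j with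
  | zero => simp
  | succ j ih =>
    rw [pow_succ', pow_succ', Module.End.mul_apply, Equiv.Perm.mul_apply, ← ih]
    exact mapDomain_apply Y.φ.injective _ _
theorem t2b_sext (j : ℕ) (h : ∀ Q, D' ((Y.s ^ j) Q) = D Q) : (Y.sE ^ j) D = D' := by
  ext Q
  obtain ⟨Q, rfl⟩ := (Y.s ^ j).surjective Q
  rw [sE_pow_apply, h]
theorem t2b_φext (j : ℕ) (h : ∀ Q, D' ((Y.φ ^ j) Q) = D Q) : (Y.φE ^ j) D = D' := by
  ext Q
  obtain ⟨Q, rfl⟩ := (Y.φ ^ j).surjective Q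
  rw [φE_pow_apply, h]
theorem t2b_ord_Φ (j : ℕ) (Q : Pt) (u : L) : Y.ord ((Y.φ ^ j) Q) (Y.Φ^[j] u) = Y.ord Q u := by
  induction j with
  | zero => simp
  | succ j ih => rw [pow_succ', Equiv.Perm.mul_apply, Function.iterate_succ_apply', Y.ord_Φ, ih]
theorem t2b_Φ_eq_zero (j : ℕ) (u : L) : Y.Φ^[j] u = 0 ↔ u = 0 := by
  induction j with
  | zero => simp
  | succ j ih => rw [Function.iterate_succ_apply', map_eq_zero, ih]
theorem sE_pow_ram (j : ℕ) (D : Pt →₀ ℤ) (h : Y.py Q = 0) : (Y.sE ^ j) D Q = D Q := by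
  conv_lhs => rw [← Equiv.Perm.pow_apply_eq_self_of_apply_eq_self (s_ram h) j]
  exact sE_pow_apply j D Q
theorem sE_single (Q : Pt) (k : ℤ) : Y.sE (single Q k) = single (Y.s Q) k := mapDomain_single
theorem φE_single (Q : Pt) (k : ℤ) : Y.φE (single Q k) = single (Y.φ Q) k := mapDomain_single
theorem sE_pow_l : Y.sE ^ Y.l = 1 := LinearMap.ext fun D => t2b_sext _ fun Q => by rw [Y.s_pow_l]; rfl
theorem sE_φE : Commute Y.sE Y.φE := LinearMap.ext fun D => by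
  change mapDomain Y.s (mapDomain Y.φ D) = mapDomain Y.φ (mapDomain Y.s D)
  rw [← mapDomain_comp, ← mapDomain_comp]
  exact congrArg (fun g => mapDomain g D) (funext Y.s_φ)
theorem lam_mul_uE (j : ℕ) : Y.lam * Y.uE j = 1 - Y.sE ^ j := mul_neg_geom_sum _ _
theorem uE_mul_lam (j : ℕ) : Y.uE j * Y.lam = 1 - Y.sE ^ j := geom_sum_mul_neg _ _
theorem uE_succ (j : ℕ) (D : Pt →₀ ℤ) : Y.uE (j + 1) D = Y.uE j D + (Y.sE ^ j) D := by rw [uE, Finset.sum_range_succ]; rfl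
theorem sE_pow_dv (j : ℕ) (u : L) : (Y.sE ^ j) (Y.dv u) = Y.dv ((Y.σ ^ j) u) := t2b_sext j fun Q => by rw [dv_apply, dv_apply, ord_σ_pow]
theorem φE_pow_dv (j : ℕ) (u : L) : (Y.φE ^ j) (Y.dv u) = Y.dv (Y.Φ^[j] u) := t2b_φext j fun Q => by rw [dv_apply, dv_apply, t2b_ord_Φ]
theorem sE_pow_H (j : ℕ) : (Y.sE ^ j) Y.H = Y.H := t2b_sext j fun Q => by rw [t2b_H, t2b_H, px_s_pow]
theorem φE_pow_H (j : ℕ) : (Y.φE ^ j) Y.H = Y.H := t2b_φext j fun Q => by
  induction j with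
  | zero => simp
  | succ j ih =>
    rw [pow_succ', Equiv.Perm.mul_apply, ← ih, t2b_H, t2b_H, Y.px_φ]
    simp only [Option.map_eq_none_iff]
theorem sE_pow_Ram (j : ℕ) : (Y.sE ^ j) Y.Ram = Y.Ram := t2b_sext j fun Q => by
  have := pow_ne_zero j (inv_ne_zero Y.ζ_ne)
  by_cases h : Y.py Q = 0
  · rw [Ram_ram h, Ram_ram (by rw [py_s_pow, h, mul_zero])]
  · rw [Ram_unram h, Ram_unram (by rw [py_s_pow]; exact mul_ne_zero this h)]
theorem t2b_uE (j : ℕ) (D : Pt →₀ ℤ) : Y.uE j D = ∑ i ∈ Finset.range j, (Y.sE ^ i) D := by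
  rw [uE, LinearMap.sum_apply]
theorem t2b_sE_pow_single (j : ℕ) (Q : Pt) (k : ℤ) :
    (Y.sE ^ j) (single Q k) = single ((Y.s ^ j) Q) k := by
  induction j with
  | zero => simp
  | succ j ih =>
    rw [pow_succ', pow_succ', Module.End.mul_apply, Equiv.Perm.mul_apply, ih, sE_single]
open Classical in
theorem t2b_uE_single (h : Y.py Q ≠ 0) (Q' : Pt) :
    Y.uE Y.l (single Q 1) Q' = if Y.px Q' = Y.px Q then 1 else 0 := by
  rw [t2b_uE]
  simp only [t2b_sE_pow_single]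
  rw [finset_sum_apply]
  split_ifs with e
  · obtain ⟨j, hj, rfl⟩ := fibre e.symm
    rw [Finset.sum_eq_single j (fun i hi hij => single_eq_of_ne' fun e' =>
      hij (free h (Finset.mem_range.1 hi) hj e')) (fun h => absurd (Finset.mem_range.2 hj) h),
      single_eq_same]
  · exact Finset.sum_eq_zero fun i _ => single_eq_of_ne' fun e' => e (by rw [← e', px_s_pow])
theorem uE_H (j : ℕ) : Y.uE j Y.H = (j : ℤ) • Y.H := by
  rw [t2b_uE]
  simp [sE_pow_H]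
theorem H_eq : Y.H = Y.uE Y.l (single Y.inf 1) := by
  ext Q
  rw [t2b_uE_single (py_ne_of_inf px_inf), t2b_H, px_inf]
theorem sE_pow_nonneg (j : ℕ) (h : 0 ≤ D) : 0 ≤ (Y.sE ^ j) D := fun Q => by
  obtain ⟨Q, rfl⟩ := (Y.s ^ j).surjective Q
  rw [sE_pow_apply]
  exact h Q
theorem uE_nonneg (j : ℕ) (h : 0 ≤ D) : 0 ≤ Y.uE j D := by
  rw [t2b_uE]
  exact Finset.sum_nonneg fun i _ => sE_pow_nonneg i h
theorem Avoid.sE_pow (h : Y.Avoid D) (j : ℕ) : Y.Avoid ((Y.sE ^ j) D) := fun Q hQ => by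
  rw [sE_pow_ram j D hQ, h Q hQ]
theorem Avoid.uE (h : Y.Avoid D) (j : ℕ) : Y.Avoid (Y.uE j D) := fun Q hQ => by
  rw [t2b_uE, finset_sum_apply]
  exact Finset.sum_eq_zero fun i _ => h.sE_pow i Q hQ
theorem Avoid.φE_pow (h : Y.Avoid D) (j : ℕ) : Y.Avoid ((Y.φE ^ j) D) := fun Q hQ => by
  rw [← Equiv.Perm.pow_apply_eq_self_of_apply_eq_self (φ_ram hQ) j, φE_pow_apply, h Q hQ]
theorem avoid_lam (D : Pt →₀ ℤ) : Y.Avoid (Y.lam D) := fun Q hQ => by
  have := sE_pow_ram 1 D hQ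
  rw [pow_one] at this
  simp [lam, this]
theorem degree_sE_pow (j : ℕ) (D : Pt →₀ ℤ) : degree ((Y.sE ^ j) D) = degree D := by
  induction j with
  | zero => simp
  | succ j ih =>
    rw [pow_succ', Module.End.mul_apply, ← ih]
    exact degree_mapDomain _ _
theorem degree_φE_pow (j : ℕ) (D : Pt →₀ ℤ) : degree ((Y.φE ^ j) D) = degree D := by
  induction j with
  | zero => simp
  | succ j ih =>
    rw [pow_succ', Module.End.mul_apply, ← ih]
    exact degree_mapDomain _ _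
theorem degree_uE (j : ℕ) (D : Pt →₀ ℤ) : degree (Y.uE j D) = j * degree D := by
  rw [t2b_uE, map_sum]
  simp [degree_sE_pow]
theorem degree_lam (D : Pt →₀ ℤ) : degree (Y.lam D) = 0 := by
  have := degree_sE_pow (Y := Y) 1 D
  rw [pow_one] at this
  simp [lam, this]
theorem degree_H : degree Y.H = Y.l := by rw [H_eq, degree_uE, degree_single, mul_one]
theorem degree_nonneg (h : 0 ≤ D) : 0 ≤ degree D := Finset.sum_nonneg fun Q _ => h Q
theorem degree_mono (h : D ≤ D') : degree D ≤ degree D' := by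
  have := degree_nonneg (sub_nonneg.2 h)
  rwa [map_sub, sub_nonneg] at this
theorem eq_zero_of_degree (h : 0 ≤ D) (h0 : degree D ≤ 0) : D = 0 := by
  have h1 := (Finset.sum_eq_zero_iff_of_nonneg fun Q _ => h Q).1
    (le_antisymm h0 (degree_nonneg h))
  ext Q
  by_contra hQ
  exact hQ (h1 Q (mem_support_iff.2 hQ))
theorem dv_mul (hu : u ≠ 0) (hv : v ≠ 0) : Y.dv (u * v) = Y.dv u + Y.dv v := by
  ext Q
  simp only [dv_apply, Finsupp.add_apply, Y.ord_mul Q u v hu hv]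
theorem dv_inv : Y.dv u⁻¹ = -Y.dv u := by
  ext Q
  simp only [dv_apply, Finsupp.neg_apply, ord_inv]
theorem dv_div (hu : u ≠ 0) (hv : v ≠ 0) : Y.dv (u / v) = Y.dv u - Y.dv v := by
  ext Q
  simp only [dv_apply, Finsupp.sub_apply, ord_div hu hv]
theorem dv_c (c : K) : Y.dv (algebraMap K L c) = 0 := by
  ext Q
  simp only [dv_apply, Y.ord_c, Finsupp.zero_apply]
theorem dv_smul {c : K} (hc : c ≠ 0) : Y.dv (c • u) = Y.dv u := by
  ext Q
  simp only [dv_apply, ord_smul hc]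
theorem dv_pow (j : ℕ) : Y.dv (u ^ j) = (j : ℤ) • Y.dv u := by
  ext Q
  simp only [dv_apply, ord_pow, Finsupp.smul_apply, smul_eq_mul]
theorem dv_prod {ι : Type} (S : Finset ι) (g : ι → L) (h : ∀ i ∈ S, g i ≠ 0) :
    Y.dv (∏ i ∈ S, g i) = ∑ i ∈ S, Y.dv (g i) := by
  ext Q
  simp only [dv_apply, ord_prod S g h, finset_sum_apply]
theorem nj_ne (hu : u ≠ 0) (j : ℕ) : Y.nj u j ≠ 0 := t2b_nj_ne hu j
theorem nj_succ (u : L) (j : ℕ) : Y.nj u (j + 1) = u * Y.σ (Y.nj u j) := by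
  rw [nj, nj, map_prod, Finset.prod_range_succ', mul_comm]
  simp only [← AlgEquiv.mul_apply, ← pow_succ']
  rfl
theorem dv_nj (hu : u ≠ 0) (j : ℕ) : Y.dv (Y.nj u j) = Y.uE j (Y.dv u) := by
  rw [nj, dv_prod _ _ fun _ _ => (_root_.map_ne_zero _).2 hu, t2b_uE]
  simp only [sE_pow_dv]
theorem σ_nj_l (u : L) : Y.σ (Y.nj u Y.l) = Y.nj u Y.l := t2b_σ_nj_l u
theorem t2b_dv_one : Y.dv 1 = 0 := by simpa using dv_c (Y := Y) 1
theorem mem_Prin : D ∈ Y.Prin ↔ ∃ u, u ≠ 0 ∧ ∃ k : ℤ, D = Y.dv u + k • Y.H := by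
  constructor
  · intro h
    induction h using Submodule.span_induction with
    | mem D hD =>
      rcases hD with ⟨u, hu, rfl⟩ | rfl
      · exact ⟨u, hu, 0, by simp⟩
      · exact ⟨1, one_ne_zero, 1, by simp [t2b_dv_one]⟩
    | zero => exact ⟨1, one_ne_zero, 0, by simp [t2b_dv_one]⟩
    | add D D' _ _ h h' =>
      obtain ⟨u, hu, k, rfl⟩ := h
      obtain ⟨v, hv, k', rfl⟩ := h'
      exact ⟨u * v, mul_ne_zero hu hv, k + k', by rw [dv_mul hu hv, add_smul]; abel⟩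
    | smul a D _ h =>
      obtain ⟨u, hu, k, rfl⟩ := h
      refine ⟨u ^ a, zpow_ne_zero _ hu, a * k, ?_⟩
      ext Q
      simp only [dv_apply, ord_zpow, Finsupp.smul_apply, Finsupp.add_apply, smul_eq_mul]
      ring
  · rintro ⟨u, hu, k, rfl⟩
    exact add_mem (Submodule.subset_span (Or.inl ⟨u, hu, rfl⟩))
      (Submodule.smul_mem _ _ (Submodule.subset_span (Or.inr rfl)))
theorem dv_mem_Prin (u : L) : Y.dv u ∈ Y.Prin := by
  by_cases hu : u = 0
  · have := dv_c (Y := Y) 0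
    rw [map_zero] at this
    rw [hu, this]
    exact zero_mem _
  · exact Submodule.subset_span (Or.inl ⟨u, hu, rfl⟩)
theorem H_mem_Prin : Y.H ∈ Y.Prin := Submodule.subset_span (Or.inr rfl)
theorem sE_pow_mem_Prin (j : ℕ) (h : D ∈ Y.Prin) : (Y.sE ^ j) D ∈ Y.Prin := by
  obtain ⟨u, -, k, rfl⟩ := mem_Prin.1 h
  rw [map_add, map_smul, sE_pow_dv, sE_pow_H]
  exact add_mem (dv_mem_Prin _) (Submodule.smul_mem _ _ H_mem_Prin)
theorem φE_pow_mem_Prin (j : ℕ) (h : D ∈ Y.Prin) : (Y.φE ^ j) D ∈ Y.Prin := by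
  obtain ⟨u, -, k, rfl⟩ := mem_Prin.1 h
  rw [map_add, map_smul, φE_pow_dv, φE_pow_H]
  exact add_mem (dv_mem_Prin _) (Submodule.smul_mem _ _ H_mem_Prin)
theorem lam_pow_mem_Prin (j : ℕ) (h : D ∈ Y.Prin) : (Y.lam ^ j) D ∈ Y.Prin := by
  induction j with
  | zero => simpa using h
  | succ j ih =>
    have := sE_pow_mem_Prin 1 ih
    rw [pow_one] at this
    rw [pow_succ', Module.End.mul_apply]
    exact sub_mem ih this
theorem uE_mem_Prin (j : ℕ) (h : D ∈ Y.Prin) : Y.uE j D ∈ Y.Prin := by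
  rw [t2b_uE]
  exact sum_mem fun i _ => sE_pow_mem_Prin i h
theorem mem_LL : u ∈ Y.LL D ↔ ∀ Q, Y.Ge Q (-D Q) u := Iff.rfl
theorem mem_LL_iff (hu : u ≠ 0) : u ∈ Y.LL D ↔ 0 ≤ Y.dv u + D := by
  rw [mem_LL, Finsupp.le_def]
  refine forall_congr' fun Q => ?_
  simp only [Ge, hu, false_or, Finsupp.add_apply, dv_apply, Finsupp.zero_apply]
  omega
theorem LL_mono (h : D ≤ D') : Y.LL D ≤ Y.LL D' := fun _ hu Q => (hu Q).mono (neg_le_neg (h Q))
theorem LL_inf : Y.LL D ⊓ Y.LL D' = Y.LL (D ⊓ D') := by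
  refine le_antisymm (fun u hu Q => ?_) (le_inf (LL_mono inf_le_left) (LL_mono inf_le_right))
  rw [Finsupp.inf_apply]
  rcases le_total (D Q) (D' Q) with h | h
  · rw [inf_of_le_left h]
    exact hu.1 Q
  · rw [inf_of_le_right h]
    exact hu.2 Q
theorem mul_mem_LL (hu : u ∈ Y.LL D) (hv : v ∈ Y.LL D') : u * v ∈ Y.LL (D + D') := fun Q => by
  rw [Finsupp.add_apply, neg_add]
  exact (hu Q).mul (hv Q)
theorem mul_mem_LL_iff (hu : u ≠ 0) : u * v ∈ Y.LL D ↔ v ∈ Y.LL (D + Y.dv u) := by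
  by_cases hv : v = 0
  · simp [hv]
  · rw [mem_LL_iff (mul_ne_zero hu hv), mem_LL_iff hv, dv_mul hu hv]
    exact iff_of_eq (congrArg _ (by abel))
theorem σ_pow_mem_LL (j : ℕ) : (Y.σ ^ j) u ∈ Y.LL ((Y.sE ^ j) D) ↔ u ∈ Y.LL D := by
  rw [mem_LL, mem_LL, (Y.s ^ j).surjective.forall]
  simp only [sE_pow_apply, ge_σ_pow]
theorem Φ_pow_mem_LL (j : ℕ) : Y.Φ^[j] u ∈ Y.LL ((Y.φE ^ j) D) ↔ u ∈ Y.LL D := by
  rw [mem_LL, mem_LL, (Y.φ ^ j).surjective.forall]
  simp only [φE_pow_apply, Ge, t2b_ord_Φ, t2b_Φ_eq_zero]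
theorem Bpf.unique {W : Submodule K L} (h : Y.Bpf W D) (h' : Y.Bpf W D') : D = D' := by
  ext Q
  obtain ⟨u, hu, h0, e⟩ := h.2 Q
  obtain ⟨v, hv, h1, e'⟩ := h'.2 Q
  have h2 := (h'.1 hu Q).resolve_left h0
  have h3 := (h.1 hv Q).resolve_left h1
  omega
/-- testing on a base point free system -/
theorem Bpf.mul_mem_iff {W : Submodule K L} (h : Y.Bpf W D) :
    (∀ w ∈ W, u * w ∈ Y.LL D') ↔ u ∈ Y.LL (D' - D) := by
  refine ⟨fun H Q => ?_, fun H w hw => ?_⟩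
  · by_cases hu : u = 0
    · exact Or.inl hu
    obtain ⟨w, hw, h0, e⟩ := h.2 Q
    have := (H w hw Q).resolve_left (mul_ne_zero hu h0)
    rw [Y.ord_mul Q u w hu h0, e] at this
    refine Or.inr ?_
    rw [Finsupp.sub_apply]
    omega
  · have := mul_mem_LL H (h.1 hw)
    rwa [sub_add_cancel] at this
theorem aeval_mem_LL (g : K[X]) {m : ℕ} (h : g.natDegree ≤ m) :
    aeval Y.x g ∈ Y.LL ((m : ℤ) • Y.H) := fun Q => by
  rcases e : Y.px Q with _ | a
  · by_cases hg : g = 0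
    · exact Or.inl (by simp [hg])
    refine Or.inr ?_
    rw [ord_aeval_inf e hg, Finsupp.smul_apply, H_inf e, smul_eq_mul]
    omega
  · rw [Finsupp.smul_apply, H_fin (by simp [e]), smul_zero, neg_zero]
    exact (val_aeval e g).ge
theorem mono_mem_LL {a b m : ℕ} (h : a + Y.n1 * b ≤ m) :
    Y.x ^ a * Y.y ^ b ∈ Y.LL ((m : ℤ) • Y.H) := fun Q => by
  rcases e : Y.px Q with _ | c
  · refine Or.inr ?_
    rw [Y.ord_mul Q _ _ (pow_ne_zero _ Y.x_ne) (pow_ne_zero _ Y.y_ne), ord_pow, ord_pow,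
      Y.ord_x_inf Q e, ord_y_of_inf e, Finsupp.smul_apply, H_inf e, smul_eq_mul]
    have : ((a + Y.n1 * b : ℕ) : ℤ) ≤ m := by exact_mod_cast h
    push_cast at this
    linarith
  · rw [Finsupp.smul_apply, H_fin (by simp [e]), smul_zero, neg_zero]
    exact (((val_x e).pow a).mul ((val_y e).pow b)).ge

end Model
end Vale.Agent.P319
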