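import Mathlib

/-! T5a: fewer homogeneous equations than unknowns have a nontrivial common zero.
Hint: otherwise by the Nullstellensatz the radical of `I = span (range F)` contains all `X i`, so
the maximal ideal `m = span (range X)` is minimal over `I`; Krull's height theorem
(`Ideal.height_le_card_of_mem_minimalPrimes_span_finset` or similar) gives `height m ≤ card κ`,
but `height m ≥ card ι` (chain of primes = kernels of killing variables).  Alternative: every
monomial of large degree lies in `I`, so by induction on the degree `K[X]` is a finite module over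
`K[F_j]`, contradicting transcendence degree (`MvPolynomial.trdeg_of_isDomain`). -/

namespace Vale.Agent.P319

open MvPolynomial in
theorem exists_common_zero {K ι κ : Type} [Field K] [IsAlgClosed K] [Fintype ι] [Fintype κ]
    (h : Fintype.card κ < Fintype.card ι) (F : κ → MvPolynomial ι K) {d : ℕ} (hd : 0 < d)
    (hF : ∀ j, (F j).IsHomogeneous d) :
    ∃ v : ι → K, v ≠ 0 ∧ ∀ j, MvPolynomial.eval v (F j) = 0 := by
  classical
  by_contra hc
  let kill : Finset ι → (MvPolynomial ι K →ₐ[K] MvPolynomial ι K) := fun S =>
    aeval fun i => if i ∈ S then 0 else X i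
  let p : Finset ι → Ideal (MvPolynomial ι K) := fun S => RingHom.ker (kill S)
  have hp : ∀ S, (p S).IsPrime := fun S => RingHom.ker_isPrime _
  have hh : ∀ S : Finset ι, (S.card : ℕ∞) ≤ (p S).height := by
    intro S
    induction S using Finset.induction_on with
    | empty => simp
    | insert i S hi ih =>
      have e : (kill (insert i S)).comp (kill S) = kill (insert i S) := by
        ext1 j
        by_cases hj : j ∈ S <;> simp [kill, hj]
      have hlt : p S < p (insert i S) := by
        refine lt_of_le_of_ne (fun g hg => ?_) fun hc => ?_
        · rw [RingHom.mem_ker] at hg ⊢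
          rw [← e, AlgHom.comp_apply, hg, map_zero]
        · have : X i ∈ p (insert i S) := by simp [p, kill]
          rw [← hc] at this
          simp [p, kill, hi] at this
      have := hp S
      have := hp (insert i S)
      rw [Finset.card_insert_of_notMem hi, Nat.cast_succ]
      exact (add_le_add ih le_rfl).trans (Ideal.height_add_one_le_of_lt_of_isPrime hlt)
  have hm : ∀ g, g ∈ p Finset.univ ↔ constantCoeff g = 0 := by
    intro g
    have : kill Finset.univ g = C (constantCoeff g) := by
      simp only [kill, Finset.mem_univ, if_true]
      rw [aeval_zero', algebraMap_eq]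
    rw [RingHom.mem_ker, this, C_eq_zero]
  have hmin : p Finset.univ ∈ (Ideal.span (Finset.univ.image F : Finset _)).minimalPrimes := by
    refine ⟨⟨hp _, Ideal.span_le.2 fun g hg => ?_⟩, fun q hq _ g hg => ?_⟩
    · obtain ⟨j, -, rfl⟩ := Finset.mem_image.1 hg
      exact (hm _).2 ((hF j).coeff_eq_zero (by simpa using hd.ne))
    · refine (hq.1.radical_le_iff.2 hq.2) ?_
      rw [← vanishingIdeal_zeroLocus_eq_radical (K := K), mem_vanishingIdeal_iff]
      intro v hv
      have h0 : v = 0 := by
        by_contra h0
        refine hc ⟨v, h0, fun j => ?_⟩
        exact hv (F j) (Ideal.subset_span (by simp))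
      rw [h0, aeval_zero, (hm g).1 hg, map_zero]
  have h1 := (hh Finset.univ).trans (Ideal.height_le_card_of_mem_minimalPrimes_span_finset hmin)
  have h2 := Finset.card_image_le (s := Finset.univ) (f := F)
  rw [Nat.cast_le, Finset.card_univ] at h1
  rw [Finset.card_univ] at h2
  omega

end Vale.Agent.P319
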