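import Vale.Agent.P319.T4
import Vale.Agent.P319.T5a

/-! T5b: Tsen's theorem for the norm form, adjustment of the values, solutions.
`tsen`: unknowns `u = ∑ X_{ab} x ^ a y ^ b` (`a ≤ D`, `b < l`), `t = ∑ T_a x ^ a`; `g = N u - a t ^ l`
lies in `LL (r H)`, `r = l D + l n + m`, is fixed by `σ`.  Take `r + 1` distinct non-roots `x_k`
of `f`, points `Q_k` over them; equations: the value of `g` at `Q_k` vanishes, i.e.
`∏_j (∑ X_{ab} x_k ^ a (ζ ^ j y_k) ^ b) = a(Q_k) (∑ T_a x_k ^ a) ^ l`.  With `D = l n + m + 1`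
there are more unknowns.  Then `g ∈ LL (r H - ∑ fibres) = ⊥`; `t ≠ 0` by `indep`.
`adjust`: multiply by `σ w / w`, `w = ∏_α (y + (x - α)) ^ (k α)` (`val_σ_div`).
`exists_sol`: `uE l (Z - dv ψ - e H) = 0`, then `norm_zero`. -/

namespace Vale.Agent.P319
open Polynomial Finsupp
namespace Model
variable {K L Pt : Type} [Field K] [Field L] [Algebra K L] {Y : Model K L Pt}

theorem T5b_vanish {g : L} {r : ℕ} (hg : g ∈ Y.LL ((r : ℤ) • Y.H)) (S : Finset K)
    (hS : ∀ c ∈ S, ¬ Y.f.IsRoot c) (hr : r < S.card)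
    (h : ∀ c ∈ S, ∀ Q, Y.px Q = some c → Y.Ge Q 1 g) : g = 0 := by
  classical
  have hp : ∏ c ∈ S, (Y.x - algebraMap K L c) ≠ 0 :=
    Finset.prod_ne_zero_iff.2 fun c _ => Y.x_sub_ne c
  have key : g * (∏ c ∈ S, (Y.x - algebraMap K L c))⁻¹ ∈ Y.LL (-Y.H) := by
    intro Q
    cases hQ : Y.px Q with
    | none =>
      refine ((hg Q).mul ge_ord).mono ?_
      have : ∀ c ∈ S, Y.ord Q (Y.x - algebraMap K L c) = -1 := fun c _ => by
        simpa using ord_aeval_inf hQ (X_sub_C_ne_zero c)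
      rw [ord_inv, ord_prod _ _ fun c _ => Y.x_sub_ne c, Finset.sum_congr rfl this]
      simp [H_inf hQ]
      omega
    | some a =>
      have hH : Y.H Q = 0 := H_fin (by simp [hQ])
      have : ∀ c ∈ S, Y.ord Q (Y.x - algebraMap K L c) = if a = c then 1 else 0 := fun c hc => by
        split_ifs with hac
        · subst hac
          refine Y.ord_x Q a hQ fun h0 => hS a hc ?_
          have := Y.pt_eq Q
          rw [hQ, h0, zero_pow Y.prime.ne_zero] at this
          exact this.symm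
        · exact (((val_x hQ).sub (val_c (c := c))).ord_eq (sub_ne_zero.2 hac)).2
      by_cases ha : a ∈ S
      · refine ((h a ha Q hQ).mul ge_ord).mono ?_
        rw [ord_inv, ord_prod _ _ fun c _ => Y.x_sub_ne c, Finset.sum_congr rfl this]
        simp [hH, ha]
      · refine ((hg Q).mul ge_ord).mono ?_
        rw [ord_inv, ord_prod _ _ fun c _ => Y.x_sub_ne c, Finset.sum_congr rfl this]
        simp [hH, ha]
  rw [LL_eq_bot (by
    rw [map_neg, degree_H]
    have := Y.two_le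
    omega), Submodule.mem_bot] at key
  simpa [hp] using key

theorem T5b_pow_mem {u : L} {D : Pt →₀ ℤ} (h : u ∈ Y.LL D) (j : ℕ) :
    u ^ j ∈ Y.LL ((j : ℤ) • D) := fun Q => ((h Q).pow j).mono (by simp)

theorem T5b_nj_mem {u : L} {m : ℤ} (h : u ∈ Y.LL (m • Y.H)) (j : ℕ) :
    Y.nj u j ∈ Y.LL ((j * m) • Y.H) := by
  induction j with
  | zero => simpa [nj] using mono_mem_LL (Y := Y) (a := 0) (b := 0) (m := 0) (by simp)
  | succ j ih =>
    have h1 := (σ_pow_mem_LL j).2 h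
    rw [map_zsmul, sE_pow_H] at h1
    rw [nj, Finset.prod_range_succ, ← nj]
    convert mul_mem_LL ih h1 using 2
    push_cast
    module

theorem T5b_fix {g : L} (h : Y.σ g = g) (j : ℕ) : (Y.σ ^ j) g = g := by
  induction j with
  | zero => simp
  | succ j ih => rw [pow_succ, AlgEquiv.mul_apply, h, ih]

theorem tsen {a : L} {m : ℕ} (h0 : a ≠ 0) (ha : a ∈ Y.LL ((m : ℤ) • Y.H)) (hσ : Y.σ a = a) :
    ∃ ψ, Y.nj ψ Y.l = a := by
  classical
  have := Y.closed
  obtain ⟨N, hN⟩ : ∃ N, N = Y.l * Y.n + m + 2 := ⟨_, rfl⟩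
  obtain ⟨S, hS, hc⟩ : ∃ S : Finset K, ↑S ⊆ {c | Y.f.IsRoot c}ᶜ ∧
      S.card = Y.l * (N + Y.n) + m + 1 :=
    (Y.f.finite_setOfPred_isRoot Y.monic.ne_zero).infinite_compl.exists_subset_card_eq _
  choose Q hQ using Y.exists_pt
  have hav : ∀ c, ∃ b, Y.Val (Q c) a b := fun c =>
    Ge.exists_val ((ha (Q c)).mono (by simp [H_fin (Y := Y) (Q := Q c) (by simp [hQ])]))
  choose av hav using hav
  let Xk : ℕ → MvPolynomial (Fin ((Y.l + 1) * N)) K := fun k =>
    if h : k < (Y.l + 1) * N then MvPolynomial.X ⟨k, h⟩ else 0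
  have hX : ∀ k, (Xk k).IsHomogeneous 1 := fun k => by
    simp only [Xk]
    split_ifs
    · exact MvPolynomial.isHomogeneous_X _ _
    · exact MvPolynomial.isHomogeneous_zero _ _ _
  obtain ⟨v, hv, hF⟩ := exists_common_zero (K := K) (ι := Fin ((Y.l + 1) * N)) (κ := S) (by
      rw [Fintype.card_coe, hc, Fintype.card_fin, add_mul, mul_add]
      omega)
    (fun c => ∏ j ∈ Finset.range Y.l, (∑ b ∈ Finset.range Y.l, ∑ i ∈ Finset.range N,
      MvPolynomial.C (c.1 ^ i * (Y.ζ ^ j * Y.py (Q c)) ^ b) * Xk (b * N + i)) -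
      MvPolynomial.C (av c) * (∑ i ∈ Finset.range N,
        MvPolynomial.C (c.1 ^ i) * Xk (Y.l * N + i)) ^ Y.l) Y.prime.pos fun c => by
      refine MvPolynomial.IsHomogeneous.sub ?_ (MvPolynomial.IsHomogeneous.C_mul ?_ _)
      · have := MvPolynomial.IsHomogeneous.prod (Finset.range Y.l) (fun j =>
          ∑ b ∈ Finset.range Y.l, ∑ i ∈ Finset.range N,
          MvPolynomial.C (c.1 ^ i * (Y.ζ ^ j * Y.py (Q c)) ^ b) * Xk (b * N + i)) (fun _ => 1)
          fun j _ => MvPolynomial.IsHomogeneous.sum _ _ _ fun b _ =>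
            MvPolynomial.IsHomogeneous.sum _ _ _ fun i _ => (hX _).C_mul _
        simpa using this
      · have := (MvPolynomial.IsHomogeneous.sum (Finset.range N) (fun i =>
          MvPolynomial.C (c.1 ^ i) * Xk (Y.l * N + i)) 1 fun i _ => (hX _).C_mul _).pow Y.l
        simpa using this
  obtain ⟨w, hw⟩ : ∃ w : ℕ → K, ∀ k, MvPolynomial.eval v (Xk k) = w k := ⟨_, fun _ => rfl⟩
  simp only [map_sub, map_prod, map_sum, map_mul, map_pow, MvPolynomial.eval_C, hw] at hF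
  let p : K[X] := ∑ i ∈ Finset.range N, monomial i (w (Y.l * N + i))
  have hp : p.natDegree ≤ N := natDegree_sum_le_of_forall_le _ _ fun j hj =>
    (natDegree_monomial_le _).trans (Finset.mem_range.1 hj).le
  have hu : Y.fn N w ∈ Y.LL (((N + Y.n : ℕ) : ℤ) • Y.H) := fn_mem_LL_H.2 fun b hb i hi h => by
    have : Y.n1 * b ≤ Y.n := by
      rw [n, mul_comm]
      exact Nat.mul_le_mul_right _ hb.le
    omega
  have hfix : Y.σ (Y.nj (Y.fn N w) Y.l - a * aeval Y.x p ^ Y.l) =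
      Y.nj (Y.fn N w) Y.l - a * aeval Y.x p ^ Y.l := by
    rw [map_sub, map_mul, map_pow, σ_nj_l, hσ, σ_aeval]
  have hg : Y.nj (Y.fn N w) Y.l - a * aeval Y.x p ^ Y.l = 0 := by
    refine T5b_vanish (r := Y.l * (N + Y.n) + m) (Submodule.sub_mem _ ?_ ?_) S
      (fun c hc => hS hc) (by omega) fun c hc Q' hQ' => ?_
    · refine LL_mono (smul_le_smul_of_nonneg_right ?_ H_nonneg) (T5b_nj_mem hu Y.l)
      push_cast
      omega
    · refine LL_mono ?_ (mul_mem_LL ha (T5b_pow_mem (aeval_mem_LL p hp) Y.l))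
      rw [smul_smul, ← add_smul]
      refine smul_le_smul_of_nonneg_right ?_ H_nonneg
      push_cast
      have : (0 : ℤ) ≤ Y.l * Y.n := by positivity
      linarith
    · obtain ⟨j, -, rfl⟩ := fibre ((hQ c).trans hQ'.symm)
      rw [← T5b_fix hfix j, ge_σ_pow, ← val_zero_iff, ← hF ⟨c, hc⟩]
      refine Val.sub (Val.prod fun j _ => ?_) ((hav c).mul (Val.pow ?_ _))
      · rw [fn_apply, map_sum]
        refine Val.sum fun b _ => ?_
        rw [map_sum]
        refine Val.sum fun i _ => ?_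
        rw [map_smul, map_mul, map_pow, map_pow, T5b_fix Y.σ_x, σ_pow_y, mul_comm _ (w _)]
        exact (((val_x (hQ c)).pow i).mul ((val_c.mul (val_y (hQ c))).pow b)).smul _
      · convert val_aeval (hQ c) p using 1
        simp [p, eval_finsetSum, mul_comm]
  have ht : aeval Y.x p ≠ 0 := by
    intro ht
    have h1 : Y.fn N w = 0 := by
      by_contra h1
      rw [ht, zero_pow Y.prime.ne_zero, mul_zero, sub_zero] at hg
      exact nj_ne h1 _ hg
    have h2 : p = 0 := by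
      by_contra h2
      exact Y.aeval_ne h2 ht
    refine hv (funext fun k => ?_)
    have h3 : w k = v k := by simp [← hw, Xk, k.2]
    rw [← h3]
    by_cases hk : k.1 < Y.l * N
    · exact fn_eq_zero.1 h1 k hk
    · have h4 := congrArg (coeff · (k.1 - Y.l * N)) h2
      have h5 : k.1 - Y.l * N < N := by
        have := k.2
        simp only [add_mul, one_mul] at this
        omega
      simp only [p, finsetSum_coeff, coeff_monomial, Finset.sum_ite_eq', Finset.mem_range, h5,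
        if_true, coeff_zero] at h4
      rwa [Nat.add_sub_cancel' (not_lt.1 hk)] at h4
  refine ⟨Y.fn N w / aeval Y.x p, ?_⟩
  rw [sub_eq_zero] at hg
  simp only [nj, map_div₀, T5b_fix (Y.σ_aeval p), Finset.prod_div_distrib, Finset.prod_const,
    Finset.card_range] at hg ⊢
  rw [hg, mul_div_cancel_right₀ _ (pow_ne_zero _ ht)]

theorem adjust {ψ : L} {β : K → K} (hβ : ∀ α, Y.f.IsRoot α → β α ≠ 0)
    (h : ∀ α, Y.f.IsRoot α → Y.Val (Y.P α) (Y.nj ψ Y.l) (β α ^ Y.l)) :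
    ∃ ψ', Y.nj ψ' Y.l = Y.nj ψ Y.l ∧ ∀ α, Y.f.IsRoot α → Y.Val (Y.P α) ψ' (β α) := by
  classical
  have := Y.prime.pos
  have : NeZero Y.l := ⟨by omega⟩
  have key : ∀ α, Y.f.IsRoot α → ∃ c : K, ∃ k : ℕ, Y.Val (Y.P α) ψ c ∧ c * Y.ζ ^ k = β α := by
    intro α hα
    have h1 := (h α hα).ord_eq (pow_ne_zero _ (hβ α hα))
    have hs : ∀ j : ℕ, (Y.s ^ j) (Y.P α) = Y.P α := fun j =>
      Function.IsFixedPt.perm_pow (s_ram (py_P hα)) j
    have h0 : ψ ≠ 0 := by
      rintro rfl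
      exact h1.1 (Finset.prod_eq_zero (Finset.mem_range.2 Y.prime.pos) (map_zero _))
    have h2 : Y.ord (Y.P α) ψ = 0 := by
      have h3 := h1.2
      have h4 : ∀ j ∈ Finset.range Y.l, Y.ord (Y.P α) ((Y.σ ^ j) ψ) = Y.ord (Y.P α) ψ :=
        fun j _ => by rw [← ord_σ_pow (Q := Y.P α) (u := ψ) j, hs]
      rw [nj, ord_prod _ _ fun j _ => (_root_.map_ne_zero _).2 h0, Finset.sum_congr rfl h4] at h3
      simpa [Y.prime.ne_zero] using h3
    obtain ⟨c, hc⟩ := Ge.exists_val (Y := Y) (Q := Y.P α) (u := ψ) (Or.inr h2.ge)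
    have hc0 := hc.ne_zero h0 h2
    have h5 : Y.Val (Y.P α) (Y.nj ψ Y.l) (∏ _j ∈ Finset.range Y.l, c) :=
      Val.prod fun j _ => by
        have := (val_σ_pow j).2 hc
        rwa [hs] at this
    have h6 := h5.unique (h α hα)
    rw [Finset.prod_const, Finset.card_range] at h6
    obtain ⟨k, -, hk⟩ := Y.prim.eq_pow_of_pow_eq_one (ξ := β α / c)
      (by rw [div_pow, h6, div_self (pow_ne_zero _ (hβ α hα))])
    exact ⟨c, k, hc, by rw [hk, mul_div_cancel₀ _ hc0]⟩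
  choose! c k hc hk using key
  have hne : ∀ α, Y.y + (Y.x - algebraMap K L α) ≠ 0 := fun α => by
    have := Y.y_sub_ne (C α - X)
    simp only [map_sub, aeval_C, aeval_X] at this
    intro hc
    exact this (by rw [← hc]; ring)
  have hw : ∏ α ∈ Y.f.roots.toFinset, (Y.y + (Y.x - algebraMap K L α)) ^ k α ≠ 0 :=
    Finset.prod_ne_zero_iff.2 fun α _ => pow_ne_zero _ (hne α)
  have ho : ∀ α, Y.f.IsRoot α → Y.ord (Y.P α)
      (∏ α ∈ Y.f.roots.toFinset, (Y.y + (Y.x - algebraMap K L α)) ^ k α) = k α := by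
    intro α hα
    rw [ord_prod _ _ fun α _ => pow_ne_zero _ (hne α), Finset.sum_eq_single α, ord_pow]
    · rw [(ord_add_eq Y.y_ne (Or.inr _)).2, ord_y_ram (py_P hα), mul_one]
      rw [ord_y_ram (py_P hα), Y.ord_xP _ α (px_P hα) (py_P hα)]
      exact_mod_cast Y.two_le
    · intro α' _ hne
      rw [ord_pow, (((val_y (px_P hα)).add ((val_x (px_P hα)).sub (val_c (c := α')))).ord_eq
        (by rw [py_P hα, zero_add]; exact sub_ne_zero.2 hne.symm)).2, mul_zero]
    · intro hn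
      exact absurd (Multiset.mem_toFinset.2 ((mem_roots Y.monic.ne_zero).2 hα)) hn
  generalize ∏ α ∈ Y.f.roots.toFinset, (Y.y + (Y.x - algebraMap K L α)) ^ k α = w at hw ho
  refine ⟨ψ * (Y.σ w / w), ?_, fun α hα => ?_⟩
  · have h1 := σ_nj_l (Y := Y) w
    have h2 := nj_ne (Y := Y) hw Y.l
    have h3 : Y.nj (Y.σ w) Y.l = Y.σ (Y.nj w Y.l) := by
      simp only [nj, map_prod, ← AlgEquiv.mul_apply, ← pow_succ, ← pow_succ']
    have h4 : Y.nj (ψ * (Y.σ w / w)) Y.l = Y.nj ψ Y.l * (Y.nj (Y.σ w) Y.l / Y.nj w Y.l) := by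
      simp only [nj, map_mul, map_div₀, Finset.prod_mul_distrib, Finset.prod_div_distrib]
    rw [h4, h3, h1, div_self h2, mul_one]
  · have := (hc α hα).mul (val_σ_div (py_P hα) hw)
    rwa [ho α hα, zpow_natCast, hk α hα] at this

theorem exists_sol {Z : Pt →₀ ℤ} {e : ℕ} {a : L} {β : K → K} (hZ : 0 ≤ Z) (hA : Y.Avoid Z)
    (h0 : a ≠ 0) (ha : Y.dv a = Y.uE Y.l Z - ((Y.l * e : ℕ) : ℤ) • Y.H)
    (h : ∀ α, Y.f.IsRoot α → Y.Val (Y.P α) a (β α ^ Y.l)) :
    ∃ ψ E, Y.Sol Z e β ψ E ∧ Y.nj ψ Y.l = a := by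
  have hav : Y.Avoid (Y.dv a) := fun Q hQ => by
    rw [ha, Finsupp.sub_apply, hA.uE _ Q hQ, Finsupp.smul_apply, H_ram hQ]
    simp
  have hσ : Y.σ a = a := by
    refine fixed_of_dv h0 ?_ hav
    have h1 := congrArg (· Z) (lam_mul_uE (Y := Y) Y.l)
    have h2 := sE_pow_H (Y := Y) 1
    simp only [sE_pow_l, sub_self, lam, Module.End.mul_apply, LinearMap.sub_apply,
      Module.End.one_apply, LinearMap.zero_apply, sub_eq_zero] at h1
    rw [pow_one] at h2
    rw [ha, map_sub, map_zsmul, h2, ← h1]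
  have hβ : ∀ α, Y.f.IsRoot α → β α ≠ 0 := fun α hα hc =>
    (h α hα).ne_zero h0 (by rw [← dv_apply, hav _ (py_P hα)]) (by rw [hc, zero_pow Y.prime.ne_zero])
  obtain ⟨ψ0, h1⟩ := tsen (m := Y.l * e) h0
    ((mem_LL_iff h0).2 (by rw [ha, sub_add_cancel]; exact uE_nonneg _ hZ)) hσ
  obtain ⟨ψ, h2, h3⟩ := adjust (ψ := ψ0) hβ (by rwa [h1])
  rw [h1] at h2
  have hψ : ψ ≠ 0 := by
    rintro rfl
    exact h0 (h2.symm.trans (Finset.prod_eq_zero (Finset.mem_range.2 Y.prime.pos) (map_zero _)))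
  obtain ⟨E, hE, h4⟩ := norm_zero (Y := Y) (D := Z - Y.dv ψ - (e : ℤ) • Y.H) (by
    rw [map_sub, map_sub, map_zsmul, uE_H, ← dv_nj hψ, h2, ha]
    push_cast
    module)
  exact ⟨ψ, E, ⟨hψ, by rw [← h4]; abel, hA, hE, hβ, h3⟩, h2⟩

end Model
end Vale.Agent.P319
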