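import Vale.Agent.P319.A3

/-! The sign function of a finite field of odd order from a nonsquare. -/

namespace Vale.Agent.P319
open Polynomial Vale.Agent.Common.TreeTM Vale.Agent.P337

def Tour_odd (n : ℕ) : ℕ := n.bits.foldl (fun u _ => cond u.bodd u (u / 2)) n

theorem Tour_odd_aux (l : List Bool) : ∀ u : ℕ, ∃ v, u = 2 ^ v *
    l.foldl (fun u _ => cond u.bodd u (u / 2)) u ∧
    (Odd (l.foldl (fun u _ => cond u.bodd u (u / 2)) u) ∨ l.length ≤ v) := by
  induction l with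
  | nil => exact fun u => ⟨0, by simp, Or.inr le_rfl⟩
  | cons c l ih =>
    intro u
    rw [List.foldl_cons]
    cases h : u.bodd with
    | true =>
      have ho : Odd u := by
        rw [Nat.odd_iff]; have := Nat.mod_two_of_bodd u; simpa [h] using this
      have : l.foldl (fun u _ => cond u.bodd u (u / 2)) u = u := by
        clear ih
        induction l with
        | nil => rfl
        | cons c l ih => rw [List.foldl_cons, h]; exact ih
      exact ⟨0, by simp [this], Or.inl (by simpa [this] using ho)⟩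
    | false =>
      obtain ⟨v, h1, h2⟩ := ih (u / 2)
      have he : u % 2 = 0 := by have := Nat.mod_two_of_bodd u; simpa [h] using this
      refine ⟨v + 1, ?_, h2.imp id fun h => by simpa using h⟩
      simp only [cond_false]
      rw [pow_succ, mul_right_comm, ← h1]
      omega

theorem Tour_odd_spec {n : ℕ} (hn : n ≠ 0) :
    ∃ v, n = 2 ^ v * Tour_odd n ∧ Odd (Tour_odd n) ∧ v < n.bits.length := by
  obtain ⟨v, h1, h2⟩ := Tour_odd_aux n.bits n
  have h3 : v < n.bits.length := by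
    rw [Nat.size_eq_bits_len, Nat.lt_size]
    have : 0 < Tour_odd n := Nat.pos_of_ne_zero fun h => hn (by rw [h1]; exact mul_eq_zero_of_right _ h)
    calc 2 ^ v ≤ 2 ^ v * Tour_odd n := Nat.le_mul_of_pos_right _ this
      _ = n := h1.symm
  exact ⟨v, h1, h2.resolve_right (by omega), h3⟩

@[fun_prop] theorem Tour_tc_odd {α : Type} [Enc α] {n : α → ℕ} (hn : TC 0 n) :
    TC 0 fun x => Tour_odd (n x) := by
  refine TC.foldl_inv (f := fun _ (u : ℕ) (_ : Bool) => cond u.bodd u (u / 2)) (by fun_prop) hn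
    (by fun_prop) (S := fun x => 4 * sz (n x) + 1)
    (((Bd.const _ _).mul hn.bd).add (Bd.const _ _)) (fun x _ u => u ≤ n x) (fun _ => le_rfl)
    (fun x _ u _ _ h => ?_) fun x _ u _ h => sz_nat_mono h
  cases u.bodd
  · exact (Nat.div_le_self _ _).trans h
  · exact h

def Tour_step (R : RC) (q : ℕ) (s : El × El × ℕ) : El × El × ℕ :=
  cond (nlt 1 s.2.2) (rmul R s.1 (radd R (rone R) (rmul R (rmul R (rsub R (rone R)
    (rpow R s.1 s.2.2)) (rinv R q (rcst R 2))) (rsub R s.2.1 (rone R)))), rmul R s.2.1 s.2.1,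
    s.2.2 / 2) s

def Tour_sgn (R : RC) (q : ℕ) (η x : El) : El :=
  ((q - 1).bits.foldl (fun s _ => Tour_step R q s)
    (rpow R x (Tour_odd (q - 1)), rpow R η (Tour_odd (q - 1)), (q - 1) / Tour_odd (q - 1) / 2)).1

@[fun_prop] theorem Tour_tc_sgn {α : Type} [Enc α] {R : α → RC} {q : α → ℕ} {η x : α → El}
    (hR : TC 0 R) (hq : TC 0 q) (hη : TC 0 η) (hx : TC 0 x) :
    TC 0 fun a => Tour_sgn (R a) (q a) (η a) (x a) := by
  refine TC.fst (TC.foldl_inv (f := fun a (s : El × El × ℕ) (_ : Bool) => Tour_step (R a) (q a) s)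
    (by unfold Tour_step; fun_prop) (by fun_prop) (by fun_prop)
    (S := fun a => 7 * sz (R a) ^ 2 + (7 * sz (R a) ^ 2 + (4 * sz (q a) + 1) + 1) + 1)
    (((R1_bd hR).add (((R1_bd hR).add (((Bd.const _ _).mul hq.bd).add (Bd.const _ _))).add
      (Bd.const _ _))).add (Bd.const _ _))
    (fun a _ s => Nm (R a) s.1 ∧ Nm (R a) s.2.1 ∧ s.2.2 ≤ q a)
    (fun a => ⟨nm_rpow _ _ _, nm_rpow _ _ _, ?_⟩) (fun a _ s _ _ h => ?_) fun a _ s _ h => ?_)
  · exact (Nat.div_le_self _ _).trans ((Nat.div_le_self _ _).trans (Nat.sub_le _ _))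
  · unfold Tour_step
    cases nlt 1 s.2.2
    · exact h
    · exact ⟨nm_rmul _ _ _, nm_rmul _ _ _, (Nat.div_le_self _ _).trans h.2.2⟩
  · rw [sz_prod, sz_prod]
    have := h.1.sz_le
    have := h.2.1.sz_le
    have := sz_nat_mono h.2.2
    omega

variable {Ω : Type} [Field Ω]

def Tour_S (s : Ω × Ω × ℕ) : Ω × Ω × ℕ :=
  cond (nlt 1 s.2.2) (s.1 * (1 + (1 - s.1 ^ s.2.2) * 2⁻¹ * (s.2.1 - 1)), s.2.1 * s.2.1,
    s.2.2 / 2) s

def Tour_σ (q : ℕ) (η x : Ω) : Ω :=
  ((q - 1).bits.foldl (fun s _ => Tour_S s)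
    (x ^ Tour_odd (q - 1), η ^ Tour_odd (q - 1), (q - 1) / Tour_odd (q - 1) / 2)).1

theorem Tour_ev {R : RC} {q : ℕ} {β : ℕ → Ω} (h : IsHom R q β) (η x : El) :
    ev R β (Tour_sgn R q η x) = Tour_σ q (ev R β η) (ev R β x) := by
  have key : ∀ (l : List Bool) (s : El × El × ℕ),
      (ev R β (l.foldl (fun s _ => Tour_step R q s) s).1) =
      (l.foldl (fun s _ => Tour_S s) (ev R β s.1, ev R β s.2.1, s.2.2)).1 := by
    intro l
    induction l with
    | nil => exact fun _ => rfl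
    | cons c l ih =>
      intro s
      rw [List.foldl_cons, List.foldl_cons, ih]
      congr 2
      unfold Tour_step Tour_S
      cases nlt 1 s.2.2
      · rfl
      · simp [h.rmul, h.radd, h.rsub, h.rone, h.rpow, h.rinv, h.rcst]
  rw [Tour_sgn, key, h.rpow, h.rpow]
  rfl

theorem Tour_neg (l : List Bool) : ∀ (j : ℕ) (y g : Ω),
    (l.foldl (fun s _ => Tour_S s) (-y, g, 2 ^ j)).1 =
      -(l.foldl (fun s _ => Tour_S s) (y, g, 2 ^ j)).1 := by
  induction l with
  | nil => exact fun _ _ _ => rfl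
  | cons c l ih =>
    intro j y g
    rw [List.foldl_cons, List.foldl_cons]
    cases j with
    | zero => exact ih 0 y g
    | succ j =>
      have h1 : nlt 1 (2 ^ (j + 1)) = true := by
        simp only [nlt, decide_eq_true_eq]; exact Nat.one_lt_two_pow (by omega)
      have h2 : 2 ^ (j + 1) / 2 = 2 ^ j := by rw [pow_succ]; omega
      have h3 : (-y) ^ 2 ^ (j + 1) = y ^ 2 ^ (j + 1) :=
        Even.neg_pow (by rw [pow_succ]; exact (even_two).mul_left _) y
      simp only [Tour_S, h1, h2, h3, cond_true, neg_mul]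
      exact ih _ _ _

theorem Tour_sq (h2 : (2 : Ω) ≠ 0) (l : List Bool) : ∀ (j : ℕ) (y g : Ω), j ≤ l.length →
    g ^ 2 ^ j = -1 → y ^ 2 ^ (j + 1) = 1 →
    (l.foldl (fun s _ => Tour_S s) (y, g, 2 ^ j)).1 ^ 2 = 1 := by
  induction l with
  | nil =>
    intro j y g hj _ hy
    obtain rfl : j = 0 := by simpa using hj
    simpa using hy
  | cons c l ih =>
    intro j y g hj hg hy
    rw [List.foldl_cons]
    cases j with
    | zero => exact ih 0 y g (Nat.zero_le _) hg hy
    | succ j =>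
      have h1 : nlt 1 (2 ^ (j + 1)) = true := by
        simp only [nlt, decide_eq_true_eq]; exact Nat.one_lt_two_pow (by omega)
      have h3 : 2 ^ (j + 1) / 2 = 2 ^ j := by rw [pow_succ]; omega
      simp only [Tour_S, h1, h3, cond_true]
      refine ih _ _ _ (by simpa using hj) (by rw [← sq, ← pow_mul, ← pow_succ', hg]) ?_
      have h4 : y ^ 2 ^ (j + 1) = 1 ∨ y ^ 2 ^ (j + 1) = -1 := by
        rw [← mul_self_eq_one_iff, ← pow_add, ← two_mul, ← pow_succ', hy]
      rcases h4 with h4 | h4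
      · simp [h4]
      · have : (1 - -1 : Ω) * 2⁻¹ = 1 := by field_simp; norm_num
        rw [h4, this, mul_pow, h4]
        simp [hg]

theorem Tour_σ_spec {q : ℕ} (hq : Odd q) (h1 : 2 < q) (h2 : (2 : Ω) ≠ 0) {η : Ω} (h0 : η ≠ 0)
    (hf : η ^ q = η) (hη : η ^ ((q - 1) / 2) ≠ 1) :
    (∀ x : Ω, Tour_σ q η (-x) = -Tour_σ q η x) ∧
      ∀ x : Ω, x ≠ 0 → x ^ q = x → Tour_σ q η x = 1 ∨ Tour_σ q η x = -1 := by
  obtain ⟨v, e1, e2, e3⟩ := Tour_odd_spec (show q - 1 ≠ 0 by omega)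
  have hu : 0 < Tour_odd (q - 1) := e2.pos
  obtain ⟨j, rfl⟩ : ∃ j, v = j + 1 := by
    refine Nat.exists_eq_succ_of_ne_zero ?_
    rintro rfl
    rw [pow_zero, one_mul] at e1
    rw [← e1, Nat.odd_iff] at e2
    rw [Nat.odd_iff] at hq
    omega
  have e4 : (q - 1) / Tour_odd (q - 1) / 2 = 2 ^ j := by
    have : (q - 1) / Tour_odd (q - 1) = 2 ^ (j + 1) := by
      conv_lhs => enter [1]; rw [e1]
      exact Nat.mul_div_cancel _ hu
    rw [this, pow_succ]; omega
  have hone : ∀ x : Ω, x ≠ 0 → x ^ q = x → x ^ (q - 1) = 1 := fun x hx h => by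
    apply mul_left_cancel₀ hx
    rw [← pow_succ', mul_one, show q - 1 + 1 = q by omega, h]
  refine ⟨fun x => ?_, fun x hx h => ?_⟩
  · rw [Tour_σ, Tour_σ, e4, e2.neg_pow, Tour_neg]
  · rw [← mul_self_eq_one_iff, ← sq, Tour_σ, e4]
    refine Tour_sq h2 _ _ _ _ (by omega) ?_ (by rw [← pow_mul, mul_comm, ← e1, hone x hx h])
    have e5 : (q - 1) / 2 = Tour_odd (q - 1) * 2 ^ j := by
      conv_lhs => rw [e1, pow_succ, mul_right_comm]
      rw [Nat.mul_div_cancel _ two_pos, mul_comm]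
    rw [← pow_mul, ← e5]
    refine (mul_self_eq_one_iff.1 ?_).resolve_left hη
    rw [← pow_add, ← hone η h0 hf]
    congr 1
    rw [Nat.odd_iff] at hq
    omega

end Vale.Agent.P319
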