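import Vale.Agent.P319.TwB
import Vale.Agent.P319.Tour
import Vale.Agent.P319.Core
import Vale.Agent.P319.Eta

/-! Tw: the root-separating procedure from the core algorithm (field tower, small primes). -/

namespace Vale.Agent.P319
open Polynomial Vale.Agent.Common.TreeTM Vale.Agent.P337

def Tw_pr (R : RC) (gs : List (List El)) : List (List ℕ) :=
  gs.flatMap fun g => (idx R.2.1).map fun i => g.map fun a => a.getD i 0

@[fun_prop] theorem Tw_tc_pr {α : Type} [Enc α] {R : α → RC} {gs : α → List (List El)}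
    (hR : TC 0 R) (hg : TC 0 gs) : TC 0 fun x => Tw_pr (R x) (gs x) := by
  unfold Tw_pr; fun_prop

theorem Tw_sep {Ω : Type} [Field Ω] {R : RC} {β : ℕ → Ω} {P : ℕ} [Algebra (ZMod P) Ω]
    (hi : ∀ a : ℕ → ZMod P, ∑ i ∈ Finset.range (dim R), algebraMap _ _ (a i) * β i = 0 →
      ∀ i < dim R, a i = 0) {gs : List (List El)} {g : List El} (hg : g ∈ gs) {c c' : ZMod P}
    (h1 : (pol R β g).eval (algebraMap _ Ω c) = 0) (h2 : (pol R β g).eval (algebraMap _ Ω c') ≠ 0) :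
    ∃ a ∈ Tw_pr R gs, (tp P a).IsRoot c ∧ ¬ (tp P a).IsRoot c' := by
  rw [Tw_proj] at h1 h2
  obtain ⟨i, i1, i2⟩ := Finset.exists_ne_zero_of_sum_ne_zero h2
  refine ⟨_, List.mem_flatMap.2 ⟨g, hg, List.mem_map_of_mem (List.mem_range.2
    (Finset.mem_range.1 i1))⟩, hi _ h1 i (Finset.mem_range.1 i1), fun h => i2 ?_⟩
  rw [h.eq_zero, map_zero, zero_mul]

theorem Tw_split {P : Nat.Primes} {μ : (ZMod P)[X]} (hm : μ.Monic) (hd : μ ∣ X ^ (P : ℕ) - X) :
    μ.Separable ∧ ∃ s : Finset (ZMod P), s.card = μ.natDegree ∧ μ = ∏ a ∈ s, (X - C a) := by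
  classical
  have h1 : μ.Separable := (galois_poly_separable P P dvd_rfl).of_dvd hd
  have h2 : μ.Splits := (GaloisField.splits_zmod_X_pow_sub_X P).of_dvd
    (FiniteField.X_pow_card_sub_X_ne_zero _ P.2.one_lt) hd
  have h3 := nodup_roots h1
  refine ⟨h1, ⟨μ.roots, h3⟩, h2.natDegree_eq_card_roots.symm, ?_⟩
  exact h2.eq_prod_roots_of_monic hm

theorem Tw_roots {P : Nat.Primes} {μ : (ZMod P)[X]} (hm : μ.Monic) (hd : μ ∣ X ^ (P : ℕ) - X) :
    ∃ s : Finset (AlgebraicClosure (ZMod P)), s.card = μ.natDegree ∧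
      μ.map (algebraMap _ _) = ∏ a ∈ s, (X - C a) ∧ (∀ k, ∀ a ∈ s, a ^ (P : ℕ) ^ k = a) ∧
      ∀ a ∈ s, ∃ c, μ.IsRoot c ∧ algebraMap _ _ c = a := by
  obtain ⟨-, s, s1, s2⟩ := Tw_split hm hd
  refine ⟨s.map ⟨_, (algebraMap (ZMod P) (AlgebraicClosure (ZMod P))).injective⟩,
    by rw [Finset.card_map, s1], ?_, fun k a ha => ?_, fun a ha => ?_⟩
  · rw [s2, Finset.prod_map, Polynomial.map_prod]
    simp
  · obtain ⟨c, -, rfl⟩ := Finset.mem_map.1 ha
    exact (map_pow (algebraMap (ZMod P) (AlgebraicClosure (ZMod P))) _ _).symm.trans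
      (congrArg _ (ZMod.pow_card_pow c))
  · obtain ⟨c, hc, rfl⟩ := Finset.mem_map.1 ha
    refine ⟨c, ?_, rfl⟩
    rw [s2, isRoot_prod]
    exact ⟨c, hc, root_X_sub_C.2 rfl⟩

theorem Tw_len (P : Nat.Primes) (m : List ℕ) (R : RC) :
    ((Tw_low P m).map (rcst R)).length = (tp P m).natDegree := by
  rw [List.length_map, Tw_low_len]

theorem Tw_even : ∃ B : Nat.Primes × List ℕ × Tab → List (List ℕ), TC 0 B ∧
    ∀ (P : Nat.Primes) (m : List ℕ) (t : Tab), (tp P m).Monic → 2 ≤ (tp P m).natDegree →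
      tp P m ∣ X ^ (P : ℕ) - X → TabOK P (tp P m).natDegree t → (tp P m).natDegree < P →
      Even (tp P m).natDegree → ∃ a ∈ B (P, m, t), ∃ c c' : ZMod P, (tp P m).IsRoot c ∧
        (tp P m).IsRoot c' ∧ (tp P a).IsRoot c ∧ ¬ (tp P a).IsRoot c' := by
  obtain ⟨tour, u1, u2⟩ := exists_tour
  refine ⟨fun x => Tw_pr (Tw_R x.1 (x.2.2.getD 2 ([], [])) [0])
    (tour (Tw_R x.1 (x.2.2.getD 2 ([], [])) [0], Tw_q x.1 (x.2.2.getD 2 ([], [])) [0],
      (Tw_low x.1 x.2.1).map (rcst (Tw_R x.1 (x.2.2.getD 2 ([], [])) [0])),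
      Tw_w x.1 (x.2.2.getD 2 ([], [])) [0])),
    Tw_tc_pr (by fun_prop) (TC.comp u1 (TC.pair (by fun_prop) (TC.pair (by fun_prop)
      (TC.pair (by fun_prop) (by fun_prop))))), fun P m t hm h2 hd ht hn he => ?_⟩
  obtain ⟨s, s1, s2, s3, s4⟩ := Tw_roots hm hd
  obtain ⟨β, h1, -, -, h4, h5, h6⟩ := Tw_hom (u := [0]) (s := 0) Nat.prime_two (Or.inr rfl) rfl
    (by omega) (ht 2 Nat.prime_two h2 (by omega))
  obtain ⟨g, hg, a, ha, a', ha', g1, g2⟩ := u2 _ _ β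
    ((Tw_low P m).map (rcst (Tw_R P (t.getD 2 ([], [])) [0]))) _ _ s h1 P.2 (pow_mul _ _ _).symm
    (by rw [Tw_len]; exact hn) (by rw [Tw_len]; omega) (by rwa [Tw_len]) (by rw [Tw_len, s1])
    (by rw [Tw_mpol _ h1.rcst hm, s2]) (fun a ha => by rw [Tw_q, ← pow_mul]; exact s3 _ a ha) h4 h5
  obtain ⟨c, hc, rfl⟩ := s4 a ha
  obtain ⟨c', hc', rfl⟩ := s4 a' ha'
  obtain ⟨a, a3, a4⟩ := Tw_sep h6 hg g1 g2
  exact ⟨a, a3, c, c', hc, hc', a4⟩

theorem Tw_odd : ∃ A : (Nat.Primes × List ℕ × Tab) × ℕ × ℕ → List (List ℕ), TC 0 A ∧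
    ∀ (P : Nat.Primes) (m : List ℕ) (t : Tab), (tp P m).Monic → 2 ≤ (tp P m).natDegree →
      tp P m ∣ X ^ (P : ℕ) - X → TabOK P (tp P m).natDegree t →
      ((tp P m).natDegree + 1) ^ 11 ≤ P → ¬ Even (tp P m).natDegree →
      ∃ l < m.length, ∃ k < m.length, ∃ a ∈ A ((P, m, t), l, k), ∃ c c' : ZMod P,
        (tp P m).IsRoot c ∧ (tp P m).IsRoot c' ∧ (tp P a).IsRoot c ∧ ¬ (tp P a).IsRoot c' := by
  obtain ⟨core, c1, c2⟩ := exists_core
  refine ⟨fun y => Tw_pr (Tw_R y.1.1 (y.1.2.2.getD y.2.1 ([], [])) (y.1.2.1.take y.2.2))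
    (core (Tw_R y.1.1 (y.1.2.2.getD y.2.1 ([], [])) (y.1.2.1.take y.2.2),
      Tw_q y.1.1 (y.1.2.2.getD y.2.1 ([], [])) (y.1.2.1.take y.2.2), (Tw_low y.1.1 y.1.2.1).map
        (rcst (Tw_R y.1.1 (y.1.2.2.getD y.2.1 ([], [])) (y.1.2.1.take y.2.2))),
      Tw_z y.1.1 (y.1.2.2.getD y.2.1 ([], [])) (y.1.2.1.take y.2.2) y.2.1,
      Tw_w y.1.1 (y.1.2.2.getD y.2.1 ([], [])) (y.1.2.1.take y.2.2), y.1.2.1.take y.2.1)),
    Tw_tc_pr (by fun_prop) (TC.comp c1 (TC.pair (by fun_prop) (TC.pair (by fun_prop)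
      (TC.pair (by fun_prop) (by fun_prop))))), fun P m t hm h2 hd ht hp he => ?_⟩
  obtain ⟨s, s1, s2, s3, s4⟩ := Tw_roots hm hd
  have hlen : (tp P m).natDegree < m.length := by have := natDegree_tp_le P m; omega
  have hn : (tp P m).natDegree < P := lt_of_lt_of_le (Nat.lt_succ_self _)
    ((Nat.le_self_pow (by norm_num) _).trans hp)
  clear s1
  obtain ⟨l, hl, hln⟩ := Nat.exists_prime_and_dvd (show (tp P m).natDegree ≠ 1 by omega)
  have h0 : 0 < (tp P m).natDegree := by omega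
  have hl' := Nat.le_of_dvd h0 hln
  have hs := Nat.le_of_dvd h0 (Nat.ordProj_dvd (tp P m).natDegree l)
  have hf := fun j => (hl.pow_dvd_iff_le_factorization (k := j) h0.ne').1
  generalize (tp P m).natDegree.factorization l = v at hs hf
  have e1 : (m.take l).length = l := by rw [List.length_take]; omega
  have e2 : (m.take (l ^ v)).length = l ^ v := by rw [List.length_take]; omega
  obtain ⟨β, h1, h3, h3', h4, h5, h6⟩ := Tw_hom hl
    (Or.inl (by rintro rfl; exact he (even_iff_two_dvd.2 hln))) e2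
    (by omega) (ht l hl hl' (by omega))
  have hM := Tw_mpol _ h1.rcst hm
  have hroot : ∀ a, (mpol _ β ((Tw_low P m).map (rcst (Tw_R P (t.getD l ([], []))
      (m.take (l ^ v)))))).IsRoot a → a ∈ s := fun a ha => by
    rw [hM, s2, isRoot_prod] at ha
    obtain ⟨b, hb, h⟩ := ha
    rwa [root_X_sub_C.1 h] at hb
  obtain ⟨g, hg, a, a', ha, ha', g1, g2⟩ := c2 _ _ _
    ((Tw_low P m).map (rcst (Tw_R P (t.getD l ([], [])) (m.take (l ^ v))))) _ _ (m.take l) β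
    _ _ h1 P.2 rfl (by rw [e2]; exact pow_pos hl.pos _) (by rwa [e1]) (by rwa [e1, Tw_len])
    (by rwa [Tw_len]) (fun j hj => by
      rw [e1, Tw_len] at hj
      rw [e1, e2]
      exact pow_dvd_pow _ (hf j hj))
    (by rw [hM]; exact (Tw_split hm hd).1.map) (fun a ha => s3 _ a (hroot a ha))
    (by rwa [e1]) h3' h4 (by rwa [e1]) (by rwa [Tw_len])
  obtain ⟨c, hc, rfl⟩ := s4 a (hroot a ha)
  obtain ⟨c', hc', rfl⟩ := s4 a' (hroot a' ha')
  obtain ⟨a, a3, a4⟩ := Tw_sep h6 hg g1 g2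
  exact ⟨l, hl'.trans_lt hlen, _, hs.trans_lt hlen, a, a3, c, c', hc, hc', a4⟩

theorem exists_split : ∃ S, TC 0 S ∧ SplitSpec S := by
  obtain ⟨A, a1, a2⟩ := Tw_odd
  obtain ⟨B, b1, b2⟩ := Tw_even
  obtain ⟨U, hU, hB⟩ := exists_unary (m := fun x : Nat.Primes × List ℕ × Tab =>
    (x.2.1.length + 1) ^ 11) (Eta_bd ((PA2_len (by fun_prop)).add (Bd.const _ _)) 11)
  refine ⟨fun x => (idx (U x)).map (fun c => [(x.1 : ℕ) - c, 1]) ++ (B x ++
    (idx x.2.1).flatMap fun l => (idx x.2.1).flatMap fun m => A (x, l, m)), by fun_prop,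
    fun P m t hm h2 hd ht => ?_⟩
  by_cases hp : (P : ℕ) < ((tp P m).natDegree + 1) ^ 11
  · obtain ⟨-, s, s1, s2⟩ := Tw_split hm hd
    have hr : ∀ a ∈ s, (tp P m).IsRoot a := fun a ha => by
      rw [s2, isRoot_prod]
      exact ⟨a, ha, root_X_sub_C.2 rfl⟩
    obtain ⟨c, hc, c', hc', hne⟩ := Finset.one_lt_card.1 (show 1 < s.card by omega)
    have h1 := ZMod.val_lt c
    refine ⟨_, List.mem_append_left _ (List.mem_map_of_mem (List.mem_range.2 (h1.trans_le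
      (hp.le.trans ((Nat.pow_le_pow_left (Nat.succ_le_succ (PA2_deg P m)) _).trans
        (hB (P, m, t))))))), c, c', hr _ hc, hr _ hc', ?_, ?_⟩
    · simp [Nat.cast_sub h1.le]
    · simpa [Nat.cast_sub h1.le, neg_add_eq_zero] using hne
  rw [not_lt] at hp
  by_cases he : Even (tp P m).natDegree
  · obtain ⟨a, a3, a4⟩ := b2 P m t hm h2 hd ht (lt_of_lt_of_le (Nat.lt_succ_self _)
      ((Nat.le_self_pow (by norm_num) _).trans hp)) he
    exact ⟨a, List.mem_append_right _ (List.mem_append_left _ a3), a4⟩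
  · obtain ⟨l, hl, k, hk, a, a3, a4⟩ := a2 P m t hm h2 hd ht hp he
    exact ⟨a, List.mem_append_right _ (List.mem_append_right _ (List.mem_flatMap.2
      ⟨l, List.mem_range.2 hl, List.mem_flatMap.2 ⟨k, List.mem_range.2 hk, a3⟩⟩)), a4⟩

end Vale.Agent.P319
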