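import Mathlib

/-! TwA: the field tower `𝔽_p ⊆ 𝔽_p(θ) ⊆ 𝔽_p(θ, ω)`, `ω ^ l ^ s = η(θ)`. -/

namespace Vale.Agent.P319
open Polynomial

theorem twA_pow {F : Type} [Field F] [Finite F] {l : ℕ} (hd : l ∣ Nat.card F - 1) {a : F}
    (ha : a ≠ 0) (h : a ^ ((Nat.card F - 1) / l) = 1) : ∃ y, y ^ l = a := by
  obtain ⟨g, hg⟩ := IsCyclic.exists_generator (α := Fˣ)
  have h1 : orderOf g = Nat.card F - 1 := by
    rw [orderOf_eq_card_of_forall_mem_zpowers hg, Nat.card_units]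
  obtain ⟨k, hk⟩ := mem_powers_iff_mem_zpowers.2 (hg (Units.mk0 a ha))
  obtain ⟨m, hm⟩ := hd
  have h0 : 0 < l * m := by
    rw [← hm, ← h1]
    exact orderOf_pos g
  have hl : 0 < l := Nat.pos_of_mul_pos_right h0
  have hk' : (g : F) ^ k = a := by simpa using congrArg Units.val hk
  rw [hm, Nat.mul_div_cancel_left _ hl, ← hk', ← pow_mul] at h
  have h2 : orderOf g ∣ k * m := orderOf_dvd_of_pow_eq_one (Units.ext (by simpa using h))
  rw [h1, hm] at h2
  obtain ⟨j, rfl⟩ := Nat.dvd_of_mul_dvd_mul_right (Nat.pos_of_mul_pos_left h0) h2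
  exact ⟨(g : F) ^ j, by rw [← hk', ← pow_mul, mul_comm]⟩

theorem twA_card {F : Type} [Field F] [Finite F] {g : F[X]} (hg : g.Monic) :
    Finite (AdjoinRoot g) ∧ Nat.card (AdjoinRoot g) = Nat.card F ^ g.natDegree := by
  have := (AdjoinRoot.powerBasis' hg).finite
  refine ⟨Module.finite_of_finite F, ?_⟩
  rw [Module.natCard_eq_pow_finrank (K := F), (AdjoinRoot.powerBasis' hg).finrank,
    AdjoinRoot.powerBasis'_dim]

theorem twA_fix {F : Type} [Field F] [Finite F] (a : F) : a ^ Nat.card F = a := by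
  have := Fintype.ofFinite F
  rw [Nat.card_eq_fintype_card, FiniteField.pow_card]

theorem twA_li {F : Type} [Field F] {g : F[X]} (hg : g.Monic) :
    LinearIndependent F fun i : Fin g.natDegree => AdjoinRoot.root g ^ (i : ℕ) := by
  have h := (AdjoinRoot.powerBasis' hg).basis.linearIndependent
  rw [PowerBasis.coe_basis] at h
  exact h

theorem twA_norm {F : Type} [Field F] {n : ℕ} (hn : Odd n) (e : F) :
    Algebra.norm F (AdjoinRoot.root (X ^ n - C e)) = e := by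
  have h0 : n ≠ 0 := hn.pos.ne'
  have hm := monic_X_pow_sub_C e h0
  have h := Algebra.PowerBasis.norm_gen_eq_coeff_zero_minpoly (AdjoinRoot.powerBasis hm.ne_zero)
  rw [AdjoinRoot.powerBasis_gen, AdjoinRoot.powerBasis_dim, natDegree_X_pow_sub_C,
    AdjoinRoot.minpoly_root hm.ne_zero, hm.leadingCoeff, hn.neg_one_pow] at h
  simpa [coeff_X_pow, h0.symm] using h

theorem tower {p l s : ℕ} [Fact p.Prime] (hl : l.Prime) (hl2 : l ≠ 2 ∨ s = 0)
    {ψ η : (ZMod p)[X]} (hψ : ψ.Monic) (hi : Irreducible ψ) (hd : l ∣ p ^ ψ.natDegree - 1)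
    (hη : ∀ y : AdjoinRoot ψ, y ^ l ≠ AdjoinRoot.mk ψ η) :
    ∃ θ ω : AlgebraicClosure (ZMod p), aeval θ ψ = 0 ∧ ω ^ l ^ s = aeval θ η ∧
      θ ^ p ^ ψ.natDegree = θ ∧ ω ^ (p ^ ψ.natDegree) ^ l ^ s = ω ∧ ω ≠ 0 ∧
      ω ^ (((p ^ ψ.natDegree) ^ l ^ s - 1) / l) ≠ 1 ∧
      IsPrimitiveRoot (aeval θ η ^ ((p ^ ψ.natDegree - 1) / l)) l ∧
      ∀ a : ℕ → ZMod p, ∑ i ∈ Finset.range (ψ.natDegree * l ^ s),
        algebraMap _ _ (a i) * (θ ^ (i / l ^ s) * ω ^ (i % l ^ s)) = 0 →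
        ∀ i < ψ.natDegree * l ^ s, a i = 0 := by
  have : Fact (Irreducible ψ) := ⟨hi⟩
  have : Fact l.Prime := ⟨hl⟩
  set e := AdjoinRoot.mk ψ η with he
  have hodd : Odd (l ^ s) := by
    rcases hl2 with h | rfl
    · exact (hl.odd_of_ne_two h).pow
    · simp
  have hm : (X ^ l ^ s - C e).Monic := monic_X_pow_sub_C e hodd.pos.ne'
  have : Fact (Irreducible (X ^ l ^ s - C e)) := ⟨X_pow_sub_C_irreducible_of_odd hodd
    fun r hr hd => by
      rw [(Nat.prime_dvd_prime_iff_eq hr hl).1 (hr.dvd_of_dvd_pow hd)]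
      exact hη⟩
  obtain ⟨_, c1⟩ := twA_card hψ
  obtain ⟨_, c2⟩ := twA_card hm
  rw [Nat.card_zmod] at c1
  rw [c1, natDegree_X_pow_sub_C] at c2
  let ι : AdjoinRoot (X ^ l ^ s - C e) →ₐ[ZMod p] AlgebraicClosure (ZMod p) := IsAlgClosed.lift
  let κ : AdjoinRoot ψ →ₐ[ZMod p] AlgebraicClosure (ZMod p) :=
    ι.comp (IsScalarTower.toAlgHom (ZMod p) (AdjoinRoot ψ) _)
  have e0 : e ≠ 0 := fun h => hη 0 (by rw [h, zero_pow hl.ne_zero])
  have hκ : ∀ g : (ZMod p)[X], aeval (κ (AdjoinRoot.root ψ)) g = κ (AdjoinRoot.mk ψ g) := fun g => by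
    rw [aeval_algHom_apply, AdjoinRoot.aeval_eq]
  have hω : AdjoinRoot.root (X ^ l ^ s - C e) ^ l ^ s = algebraMap _ _ e := by
    have h := AdjoinRoot.eval₂_root (X ^ l ^ s - C e)
    rwa [eval₂_sub, eval₂_X_pow, eval₂_C, sub_eq_zero] at h
  have hω0 : AdjoinRoot.root (X ^ l ^ s - C e) ≠ 0 := fun h => by
    rw [h, zero_pow hodd.pos.ne'] at hω
    exact e0 ((map_eq_zero _).1 hω.symm)
  refine ⟨κ (AdjoinRoot.root ψ), ι (AdjoinRoot.root _), by rw [hκ, AdjoinRoot.mk_self, map_zero],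
    by rw [hκ, ← map_pow, hω]; rfl, by rw [← map_pow, ← c1, twA_fix],
    by rw [← map_pow, ← c2, twA_fix], (map_ne_zero ι).2 hω0, fun h => ?_, ?_, fun a ha i hi => ?_⟩
  · rw [← map_pow, ← map_one ι] at h
    replace h := ι.injective h
    rw [← c2] at h
    obtain ⟨y, hy⟩ := twA_pow (by
      rw [c2]
      exact hd.trans (Nat.sub_one_dvd_pow_sub_one _ _)) hω0 h
    exact hη (Algebra.norm (AdjoinRoot ψ) y) (by rw [← map_pow, hy, twA_norm hodd])
  · rw [hκ, ← map_pow]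
    refine IsPrimitiveRoot.map_of_injective ?_ κ.injective
    rw [← c1] at hd ⊢
    refine IsPrimitiveRoot.iff_orderOf.2 (orderOf_eq_prime ?_ fun h => ?_)
    · have := Fintype.ofFinite (AdjoinRoot ψ)
      rw [← pow_mul, Nat.div_mul_cancel hd, Nat.card_eq_fintype_card]
      exact FiniteField.pow_card_sub_one_eq_one _ e0
    · obtain ⟨y, hy⟩ := twA_pow hd e0 h
      exact hη y hy
  · have h1 := twA_li hm
    rw [natDegree_X_pow_sub_C] at h1
    have h2 := ((linearIndependent_smul (twA_li hψ) h1).comp _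
      finProdFinEquiv.symm.injective).map' ι.toLinearMap (LinearMap.ker_eq_bot.2 ι.injective)
    refine Fintype.linearIndependent_iff.1 h2 (fun j => a j) ?_ ⟨i, hi⟩
    rw [← ha, Finset.sum_range]
    refine Finset.sum_congr rfl fun j _ => ?_
    simp [Algebra.smul_def, κ, Fin.divNat, Fin.modNat]

end Vale.Agent.P319
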