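import Vale.Agent.P319.LA
import Vale.Agent.P319.A3
import Vale.Agent.P319.TwA

/-! The codes of the field tower. -/

namespace Vale.Agent.P319
open Polynomial Vale.Agent.Common.TreeTM Vale.Agent.P337

section
variable {Ω : Type} [Field Ω]

theorem Tw_pol {R : RC} {β : ℕ → Ω} {P : ℕ} [Algebra (ZMod P) Ω] (g : ℕ → El)
    (hg : ∀ c, ev R β (g c) = c) (l : List ℕ) :
    pol R β (l.map g) = (tp P l).map (algebraMap _ Ω) := by
  induction l with
  | nil => simp [A3_pol_nil]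
  | cons c l ih => rw [List.map_cons, A3_pol_cons, ih, hg]; simp

noncomputable def Tw_low (P : Nat.Primes) (a : List ℕ) : List ℕ := (cf (tp P a)).take (pdeg P a)

theorem Tw_low_len (P : Nat.Primes) (a : List ℕ) : (Tw_low P a).length = (tp P a).natDegree := by
  simp [Tw_low, pdeg]

theorem Tw_low_tp {P : Nat.Primes} {a : List ℕ} (ha : (tp P a).Monic) :
    X ^ (tp P a).natDegree + tp P (Tw_low P a) = tp P a := by
  ext k
  rw [coeff_add, coeff_X_pow, coeff_tp P (Tw_low P a)]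
  rcases lt_trichotomy k (tp P a).natDegree with h | h | h
  · have : (Tw_low P a).getD k 0 = (cf (tp P a)).getD k 0 := by
      simp only [Tw_low, List.getD_eq_getElem?_getD, List.getElem?_take, pdeg, h, if_true]
    rw [if_neg h.ne, this, ← coeff_tp, tp_cf, zero_add]
  · rw [if_pos h, List.getD_eq_default _ _ (by rw [Tw_low_len]; omega), h, ha.coeff_natDegree]
    simp
  · rw [if_neg h.ne', List.getD_eq_default _ _ (by rw [Tw_low_len]; omega),
      coeff_eq_zero_of_natDegree_lt h]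
    simp

theorem Tw_mpol {R : RC} {β : ℕ → Ω} {P : Nat.Primes} [Algebra (ZMod P) Ω] (g : ℕ → El)
    (hg : ∀ c, ev R β (g c) = c) {a : List ℕ} (ha : (tp P a).Monic) :
    mpol R β ((Tw_low P a).map g) = (tp P a).map (algebraMap _ Ω) := by
  rw [mpol, Tw_pol (P := P) g hg, List.length_map, Tw_low_len]
  conv_rhs => rw [← Tw_low_tp ha]
  simp

theorem Tw_proj {R : RC} {β : ℕ → Ω} {P : ℕ} [Algebra (ZMod P) Ω] (g : List El) (c : ZMod P) :
    (pol R β g).eval (algebraMap _ Ω c) = ∑ i ∈ Finset.range (dim R),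
      algebraMap _ Ω ((tp P (g.map fun a => a.getD i 0)).eval c) * β i := by
  induction g with
  | nil => simp [A3_pol_nil]
  | cons a g ih =>
    rw [A3_pol_cons, eval_add, eval_mul, ih, eval_C, eval_X, ev, Finset.mul_sum,
      ← Finset.sum_add_distrib]
    refine Finset.sum_congr rfl fun i _ => ?_
    rw [List.map_cons, tp_cons, eval_add, eval_C, eval_mul, eval_X, map_add, map_mul, map_natCast]
    ring

end

noncomputable def Tw_K (P : Nat.Primes) (e : List ℕ × List ℕ) : RC :=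
  quot (base P) ((Tw_low P e.1).map fun c => [c])
noncomputable def Tw_η (P : Nat.Primes) (e : List ℕ × List ℕ) : El :=
  atT (base P) ((Tw_low P e.1).map fun c => [c]) (e.2.map fun c => [c])
noncomputable def Tw_md (P : Nat.Primes) (e : List ℕ × List ℕ) (u : List ℕ) : List El :=
  (idx u).map fun i => cond (neq i 0) (rneg (Tw_K P e) (Tw_η P e)) []
noncomputable def Tw_R (P : Nat.Primes) (e : List ℕ × List ℕ) (u : List ℕ) : RC :=
  quot (Tw_K P e) (Tw_md P e u)
noncomputable def Tw_q (P : Nat.Primes) (e : List ℕ × List ℕ) (u : List ℕ) : ℕ :=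
  ((P : ℕ) ^ (Tw_low P e.1).length) ^ u.length
noncomputable def Tw_z (P : Nat.Primes) (e : List ℕ × List ℕ) (u : List ℕ) (l : ℕ) : El :=
  emb (Tw_K P e) (Tw_md P e u)
    (rpow (Tw_K P e) (Tw_η P e) (((P : ℕ) ^ (Tw_low P e.1).length - 1) / l))
noncomputable def Tw_w (P : Nat.Primes) (e : List ℕ × List ℕ) (u : List ℕ) : El :=
  gen (Tw_K P e) (Tw_md P e u)

section tc
variable {α : Type} [Enc α] {P : α → Nat.Primes} {e : α → List ℕ × List ℕ} {a u : α → List ℕ}
  {l : α → ℕ}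

@[fun_prop] theorem Tw_tc_low (hP : TC 0 P) (ha : TC 0 a) : TC 0 fun x => Tw_low (P x) (a x) := by
  unfold Tw_low; fun_prop
@[fun_prop] theorem Tw_tc_K (hP : TC 0 P) (he : TC 0 e) : TC 0 fun x => Tw_K (P x) (e x) := by
  unfold Tw_K base; fun_prop
@[fun_prop] theorem Tw_tc_η (hP : TC 0 P) (he : TC 0 e) : TC 0 fun x => Tw_η (P x) (e x) := by
  unfold Tw_η base; fun_prop
@[fun_prop] theorem Tw_tc_md (hP : TC 0 P) (he : TC 0 e) (hu : TC 0 u) :
    TC 0 fun x => Tw_md (P x) (e x) (u x) := by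
  unfold Tw_md; fun_prop
@[fun_prop] theorem Tw_tc_R (hP : TC 0 P) (he : TC 0 e) (hu : TC 0 u) :
    TC 0 fun x => Tw_R (P x) (e x) (u x) := by
  unfold Tw_R; fun_prop
@[fun_prop] theorem Tw_tc_q (hP : TC 0 P) (he : TC 0 e) (hu : TC 0 u) :
    TC 0 fun x => Tw_q (P x) (e x) (u x) := by
  unfold Tw_q; fun_prop
@[fun_prop] theorem Tw_tc_z (hP : TC 0 P) (he : TC 0 e) (hu : TC 0 u) (hl : TC 0 l) :
    TC 0 fun x => Tw_z (P x) (e x) (u x) (l x) := by
  unfold Tw_z; fun_prop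
@[fun_prop] theorem Tw_tc_w (hP : TC 0 P) (he : TC 0 e) (hu : TC 0 u) :
    TC 0 fun x => Tw_w (P x) (e x) (u x) := by
  unfold Tw_w; fun_prop
end tc

theorem Tw_fix {M : Type} [Monoid M] {x : M} {q : ℕ} (h : x ^ q = x) (k : ℕ) : x ^ q ^ k = x := by
  induction k with
  | zero => simp
  | succ k ih => rw [pow_succ, pow_mul, ih, h]

theorem Tw_hom {P : Nat.Primes} {e : List ℕ × List ℕ} {u : List ℕ} {l s : ℕ} (hl : l.Prime)
    (hl2 : l ≠ 2 ∨ s = 0) (hu : u.length = l ^ s) (hP : 2 < (P : ℕ)) (h : Good P l e) :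
    ∃ β : ℕ → AlgebraicClosure (ZMod P), IsHom (Tw_R P e u) (Tw_q P e u) β ∧
      IsPrimitiveRoot (ev (Tw_R P e u) β (Tw_z P e u l)) l ∧
      ev (Tw_R P e u) β (Tw_z P e u l) ^ (P : ℕ) ^ (Tw_low P e.1).length =
        ev (Tw_R P e u) β (Tw_z P e u l) ∧
      ev (Tw_R P e u) β (Tw_w P e u) ≠ 0 ∧
      ev (Tw_R P e u) β (Tw_w P e u) ^ ((Tw_q P e u - 1) / l) ≠ 1 ∧
      ∀ a : ℕ → ZMod P, ∑ i ∈ Finset.range (dim (Tw_R P e u)), algebraMap _ _ (a i) * β i = 0 →
        ∀ i < dim (Tw_R P e u), a i = 0 := by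
  obtain ⟨g1, g2, g3, g4⟩ := h
  obtain ⟨θ, ω, t1, t2, t3, t4, t5, t6, t7, t8⟩ := tower hl hl2 g1 g2 g3 g4
  have hd := g2.natDegree_pos
  have hm : 0 < l ^ s := pow_pos hl.pos _
  have hq : Tw_q P e u = (P : ℕ) ^ ((tp P e.1).natDegree * l ^ s) := by
    rw [Tw_q, Tw_low_len, hu, pow_mul]
  have h0 : IsHom (base P) (Tw_q P e u) fun _ => (1 : AlgebraicClosure (ZMod P)) := by
    rw [hq]
    exact isHom_base P.2 (CharP.cast_eq_zero _ _) (hP.trans_le (Nat.le_self_pow (by positivity) _))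
  have hc : ∀ c : ℕ, ev (base P) (fun _ => (1 : AlgebraicClosure (ZMod P))) [c] = c := fun c => by
    simp [ev_base]
  have r1 : (mpol (base P) (fun _ => 1) ((Tw_low P e.1).map fun c => [c])).IsRoot θ := by
    rw [Tw_mpol _ hc g1, IsRoot.def, eval_map_algebraMap, t1]
  have h1 := h0.quot P.2 hq r1 (by rw [hq, pow_mul]; exact Tw_fix t3 _)
  have e1 : ev (Tw_K P e) (bq ((Tw_low P e.1).map fun c => [c]) (fun _ => 1) θ) (Tw_η P e) =
      aeval θ (tp P e.2) := by
    rw [Tw_K, Tw_η, h0.atT r1, Tw_pol (P := P) _ hc, eval_map_algebraMap]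
  have hlen : (Tw_md P e u).length = l ^ s := by simp [Tw_md, idx, hu]
  have r2 : (mpol (Tw_K P e) (bq ((Tw_low P e.1).map fun c => [c]) (fun _ => 1) θ)
      (Tw_md P e u)).IsRoot ω := by
    have : pol (Tw_K P e) (bq ((Tw_low P e.1).map fun c => [c]) (fun _ => 1) θ) (Tw_md P e u) =
        -C (aeval θ (tp P e.2)) := by
      ext k
      rw [coeff_pol, Tw_md, R1_getD_idx, coeff_neg, coeff_C]
      by_cases hk : k = 0
      · subst hk
        rw [if_pos (hu ▸ hm), if_pos rfl, ← e1]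
        exact IsHom.rneg h1 _
      · rw [if_neg hk]
        split_ifs <;> simp [neq, hk, ev_nil]
    simp [mpol, this, hlen, t2]
  have h2 := IsHom.quot (R := Tw_K P e) h1 P.2 hq r2 (by rw [hq, pow_mul, t4])
  have e2 : ev (Tw_R P e u) (bq (Tw_md P e u) (bq ((Tw_low P e.1).map fun c => [c])
      (fun _ => 1) θ) ω) (Tw_z P e u l) =
      aeval θ (tp P e.2) ^ (((P : ℕ) ^ (tp P e.1).natDegree - 1) / l) := by
    rw [Tw_R, Tw_z, IsHom.emb (R := Tw_K P e) h1 r2, IsHom.rpow (R := Tw_K P e) h1, e1, Tw_low_len]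
  have e3 : ev (Tw_R P e u) (bq (Tw_md P e u) (bq ((Tw_low P e.1).map fun c => [c])
      (fun _ => 1) θ) ω) (Tw_w P e u) = ω := IsHom.gen (R := Tw_K P e) h1 r2
  have hdim : dim (Tw_R P e u) = (tp P e.1).natDegree * l ^ s := by
    rw [Tw_R, dim_quot, hlen, Tw_K, dim_quot, List.length_map, Tw_low_len]
    simp [dim, base]
  refine ⟨_, h2, e2 ▸ t7, ?_, e3.symm ▸ t5, ?_, fun a ha => ?_⟩
  · rw [e2, Tw_low_len]
    obtain ⟨k, hk⟩ := g3
    generalize aeval θ (tp P e.2) ^ _ = ζ at t7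
    rw [← Nat.sub_add_cancel (Nat.one_le_pow _ _ P.2.pos), hk, pow_succ, pow_mul, t7.pow_eq_one,
      one_pow, one_mul]
  · rwa [e3, hq, pow_mul]
  · rw [hdim] at ha ⊢
    refine t8 a (ha ▸ Finset.sum_congr rfl fun i hi => ?_)
    have : i / l ^ s < (tp P e.1).natDegree := (Nat.div_lt_iff_lt_mul hm).2 (Finset.mem_range.1 hi)
    simp only [bq, hlen, List.length_map, Tw_low_len, one_mul, Nat.mod_eq_of_lt this]

end Vale.Agent.P319
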