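import Vale.Agent.P319.Curve

/-! Auxiliary notions for the construction of a model. -/

namespace Vale.Agent.P319
open Polynomial

variable (K : Type) {L : Type} [Field K] [Field L] [Algebra K L]

/-- a discrete valuation of `L` over `K` with residue field `K` -/
structure IsVal (v : L → ℤ) : Prop where
  zero : v 0 = 0
  mul : ∀ u w, u ≠ 0 → w ≠ 0 → v (u * w) = v u + v w
  add : ∀ u w, u ≠ 0 → w ≠ 0 → u + w ≠ 0 → min (v u) (v w) ≤ v (u + w)
  const : ∀ c, v (algebraMap K L c) = 0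
  res : ∀ u, v u = 0 → ∃ c, u = algebraMap K L c ∨ 1 ≤ v (u - algebraMap K L c)

/-- `L` is the function field of `y ^ l = f(x)` -/
structure FF (l n1 : ℕ) (f : K[X]) (x y : L) : Prop where
  closed : IsAlgClosed K
  prime : l.Prime
  l_ne : (l : K) ≠ 0
  n1_pos : 0 < n1
  monic : f.Monic
  natDegree : f.natDegree = l * n1
  separable : f.Separable
  yl : y ^ l = aeval x f
  gen : ∀ u : L, ∃ (d : K[X]) (g : ℕ → K[X]), d ≠ 0 ∧
    aeval x d * u = ∑ b ∈ Finset.range l, aeval x (g b) * y ^ b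
  indep : ∀ g : ℕ → K[X], ∑ b ∈ Finset.range l, aeval x (g b) * y ^ b = 0 → ∀ b < l, g b = 0
  univ : ∀ A B : LaurentSeries K, Transcendental K A → B ^ l = aeval A f →
    ∃ g : L →ₐ[K] LaurentSeries K, g x = A ∧ g y = B

end Vale.Agent.P319
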